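import Vale.Agent.Lib.P154B.Read

/-!
The child polynomial of a level: representatives with digits, their six images, and the partner data.
-/

noncomputable section

open Finset

namespace Vale.Agent.Lib.P154B

/-- Offset triples. -/
abbrev Trip := ℕ × ℕ × ℕ

/-- Representatives with digits read from a state. -/
def kcOf (S P st : ℕ) : ℕ → List Trip → List (Trip × ℕ)
  | _, [] => []
  | k, x :: xs => (x, dig S P st k) :: kcOf S P st (k + 1) xs

/-- The six atoms of a representative. -/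
def atoms1 (N : ℕ) (x : Trip) (c : ℕ) : List (ℕ × ℕ) :=
  [(c, x.2.1 + N * x.2.2), (c, x.2.2 + N * x.2.1), (c, x.1 + N * x.2.2), (c, x.2.2 + N * x.1),
    (c, x.1 + N * x.2.1), (c, x.2.1 + N * x.1)]

/-- All atoms. -/
def atomsOf (N : ℕ) (kc : List (Trip × ℕ)) : List (ℕ × ℕ) := kc.flatMap fun a => atoms1 N a.1 a.2

/-- The pattern of a representative. -/
def patt (b N : ℕ) (x : Trip) : ℕ :=
  2 ^ (b * (x.2.1 + N * x.2.2)) + 2 ^ (b * (x.2.2 + N * x.2.1)) + 2 ^ (b * (x.1 + N * x.2.2))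
    + 2 ^ (b * (x.2.2 + N * x.1)) + 2 ^ (b * (x.1 + N * x.2.1)) + 2 ^ (b * (x.2.1 + N * x.1))

/-- The child polynomial as a number. -/
def natC (b N : ℕ) (kc : List (Trip × ℕ)) : ℕ := (kc.map fun a => a.2 * patt b N a.1).sum

theorem atomVal_atomsOf (b N : ℕ) (kc : List (Trip × ℕ)) : atomVal (2 ^ b) (atomsOf N kc) = natC b N kc := by
  induction kc with
  | nil => simp [atomVal, atomsOf, natC]
  | cons a l ih =>
    unfold atomVal atomsOf natC at ih ⊢
    simp only [List.flatMap_cons, List.map_append, List.sum_append, List.map_cons, List.sum_cons]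
    rw [ih]
    unfold atoms1 patt
    simp only [List.map_cons, List.map_nil, List.sum_cons, List.sum_nil, pow_mul]
    ring

/-- Six permutations by their values. -/
def p0 : Equiv.Perm (Fin 3) := ⟨![0, 1, 2], ![0, 1, 2], by decide, by decide⟩
def p1 : Equiv.Perm (Fin 3) := ⟨![0, 2, 1], ![0, 2, 1], by decide, by decide⟩
def p2 : Equiv.Perm (Fin 3) := ⟨![1, 0, 2], ![1, 0, 2], by decide, by decide⟩
def p3 : Equiv.Perm (Fin 3) := ⟨![1, 2, 0], ![2, 0, 1], by decide, by decide⟩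
def p4 : Equiv.Perm (Fin 3) := ⟨![2, 0, 1], ![1, 2, 0], by decide, by decide⟩
def p5 : Equiv.Perm (Fin 3) := ⟨![2, 1, 0], ![2, 1, 0], by decide, by decide⟩

theorem univ_perm : (Finset.univ : Finset (Equiv.Perm (Fin 3))) = {p0, p1, p2, p3, p4, p5} := by decide

theorem perm_ne : p0 ≠ p1 ∧ p0 ≠ p2 ∧ p0 ≠ p3 ∧ p0 ≠ p4 ∧ p0 ≠ p5 ∧ p1 ≠ p2 ∧ p1 ≠ p3 ∧ p1 ≠ p4 ∧ p1 ≠ p5 ∧ p2 ≠ p3 ∧ p2 ≠ p4
    ∧ p2 ≠ p5 ∧ p3 ≠ p4 ∧ p3 ≠ p5 ∧ p4 ≠ p5 := by decide

/-- The node of a triple. -/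
def tnode (r : ℕ) (x : Trip) : Node := ((x.2.1 : ℤ) - r, (x.2.2 : ℤ) - r)

/-- Conditions on a representative. -/
def TripOK (r X : ℕ) (x : Trip) : Prop := x.1 + x.2.1 + x.2.2 = 3 * r ∧ x.1 ≤ X ∧ x.2.1 ≤ X ∧ x.2.2 ≤ X

theorem tri_tnode {r X : ℕ} {x : Trip} (h : TripOK r X x) :
    tri (tnode r x) 0 = (x.1 : ℤ) - r ∧ tri (tnode r x) 1 = (x.2.1 : ℤ) - r ∧ tri (tnode r x) 2 = (x.2.2 : ℤ) - r := by
  refine ⟨?_, rfl, rfl⟩
  change -((x.2.1 : ℤ) - r) - ((x.2.2 : ℤ) - r) = _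
  have := h.1
  omega

theorem cn_pos {p : Par} (hp : p.Ok) {a b : ℕ} (ha : a ≤ p.X) : p.cn (a + p.N * b) = ((a : ℤ) - p.r, (b : ℤ) - p.r) := by
  unfold Par.cn
  have hN := hp.hN
  have h1 : (a + p.N * b) % p.N = a := by
    rw [Nat.add_mul_mod_self_left, Nat.mod_eq_of_lt (by omega)]
  have h2 : (a + p.N * b) / p.N = b := by
    rw [Nat.add_mul_div_left _ _ (by omega), Nat.div_eq_of_lt (by omega), zero_add]
  rw [h1, h2]

theorem listMeas_append (p : Par) (a b : List (ℕ × ℕ)) : listMeas p (a ++ b) = listMeas p a + listMeas p b := by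
  unfold listMeas
  simp [List.map_append, List.sum_append]

theorem listMeas_atoms1 {p : Par} (hp : p.Ok) {x : Trip} (hx : TripOK p.r p.X x) (c : ℕ) :
    listMeas p (atoms1 p.N x c) = orbitF (tnode p.r x) ((c : ℝ) / 2 ^ p.P) := by
  obtain ⟨a0, a1, a2⟩ := tri_tnode hx
  obtain ⟨-, b0, b1, b2⟩ := hx
  unfold orbitF
  rw [sum_perm_six _ p0 p1 p2 p3 p4 p5 univ_perm perm_ne]
  unfold listMeas atoms1
  simp only [List.map_cons, List.map_nil, List.sum_cons, List.sum_nil, add_zero]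
  rw [cn_pos hp b1, cn_pos hp b2, cn_pos hp b0, cn_pos hp b2, cn_pos hp b0, cn_pos hp b1]
  have e0 : act p0 (tnode p.r x) = ((x.2.1 : ℤ) - p.r, (x.2.2 : ℤ) - p.r) := by
    unfold act
    have h1 : p0 1 = 1 := rfl
    have h2 : p0 2 = 2 := rfl
    rw [h1, h2, a1, a2]
  have e1 : act p1 (tnode p.r x) = ((x.2.2 : ℤ) - p.r, (x.2.1 : ℤ) - p.r) := by
    unfold act
    have h1 : p1 1 = 2 := rfl
    have h2 : p1 2 = 1 := rfl
    rw [h1, h2, a1, a2]
  have e2 : act p2 (tnode p.r x) = ((x.1 : ℤ) - p.r, (x.2.2 : ℤ) - p.r) := by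
    unfold act
    have h1 : p2 1 = 0 := rfl
    have h2 : p2 2 = 2 := rfl
    rw [h1, h2, a0, a2]
  have e3 : act p3 (tnode p.r x) = ((x.2.2 : ℤ) - p.r, (x.1 : ℤ) - p.r) := by
    unfold act
    have h1 : p3 1 = 2 := rfl
    have h2 : p3 2 = 0 := rfl
    rw [h1, h2, a0, a2]
  have e4 : act p4 (tnode p.r x) = ((x.1 : ℤ) - p.r, (x.2.1 : ℤ) - p.r) := by
    unfold act
    have h1 : p4 1 = 0 := rfl
    have h2 : p4 2 = 1 := rfl
    rw [h1, h2, a0, a1]
  have e5 : act p5 (tnode p.r x) = ((x.2.1 : ℤ) - p.r, (x.1 : ℤ) - p.r) := by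
    unfold act
    have h1 : p5 1 = 1 := rfl
    have h2 : p5 2 = 0 := rfl
    rw [h1, h2, a0, a1]
  rw [e0, e1, e2, e3, e4, e5]

theorem listMeas_atomsOf {p : Par} (hp : p.Ok) {kc : List (Trip × ℕ)} (hk : ∀ a ∈ kc, TripOK p.r p.X a.1) :
    listMeas p (atomsOf p.N kc) = (kc.map fun a => orbitF (tnode p.r a.1) ((a.2 : ℝ) / 2 ^ p.P)).sum := by
  induction kc with
  | nil => simp [listMeas, atomsOf]
  | cons a l ih =>
    have h1 := ih fun a' h' => hk a' (List.mem_cons_of_mem _ h')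
    unfold atomsOf at h1 ⊢
    simp only [List.flatMap_cons, List.map_cons, List.sum_cons]
    rw [listMeas_append, listMeas_atoms1 hp (hk a (by simp)), h1]

theorem sym_list (kc : List (Trip × ℕ)) (r P : ℕ) : Sym (kc.map fun a => orbitF (tnode r a.1) ((a.2 : ℝ) / 2 ^ P)).sum := by
  induction kc with
  | nil =>
    intro σ n
    simp
  | cons a l ih =>
    simp only [List.map_cons, List.sum_cons]
    exact (orbitF_sym _ _).add ih

theorem val_orbitF {ρ : ℝ} (hρ : 0 < ρ) {ψ : Vec → ℝ} (hψ : IsTest ψ) (K : Node) (c : ℝ) :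
    val ρ ψ (orbitF K c) = 6 * c * ψ (V ρ K) := by
  unfold val orbitF
  have key : ∀ s : Finset (Equiv.Perm (Fin 3)), evalF (fun n => ψ (V ρ n)) (∑ σ ∈ s, Finsupp.single (act σ K) c)
      = ∑ σ ∈ s, c * ψ (V ρ K) := by
    intro s
    classical
    induction s using Finset.induction_on with
    | empty => simp [evalF_zero]
    | insert a s ha ih =>
      rw [Finset.sum_insert ha, Finset.sum_insert ha, evalF_add, evalF_single, ih, V_act, hψ.perm _ _ (V_nn hρ K)]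
  rw [key, Finset.sum_const, card_perm3]
  simp only [nsmul_eq_mul]
  push_cast
  ring

theorem val_list {ρ : ℝ} (hρ : 0 < ρ) {ψ : Vec → ℝ} (hψ : IsTest ψ) (kc : List (Trip × ℕ)) (r P : ℕ) :
    val ρ ψ (kc.map fun a => orbitF (tnode r a.1) ((a.2 : ℝ) / 2 ^ P)).sum
      = (6 / 2 ^ P : ℝ) * (kc.map fun a => (a.2 : ℝ) * ψ (V ρ (tnode r a.1))).sum := by
  induction kc with
  | nil =>
    simp only [List.map_nil, List.sum_nil, mul_zero]
    unfold val
    exact evalF_zero _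
  | cons a l ih =>
    simp only [List.map_cons, List.sum_cons]
    have e : val ρ ψ (orbitF (tnode r a.1) ((a.2 : ℝ) / 2 ^ P) + (l.map fun a => orbitF (tnode r a.1) ((a.2 : ℝ) / 2 ^ P)).sum)
        = val ρ ψ (orbitF (tnode r a.1) ((a.2 : ℝ) / 2 ^ P))
          + val ρ ψ ((l.map fun a => orbitF (tnode r a.1) ((a.2 : ℝ) / 2 ^ P)).sum) := by
      unfold val
      exact evalF_add _ _ _
    rw [e, ih, val_orbitF hρ hψ, mul_add]
    congr 1
    field_simp

/-- The test value of a slot. -/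
def Uof (ρ : ℝ) (r : ℕ) (ks : List Trip) (ψ : Vec → ℝ) (k : ℕ) : ℝ :=
  match ks[k]? with
  | some x => ψ (V ρ (tnode r x))
  | none => (1 / 2) * ψ E0

theorem sum_Uof (ρ : ℝ) (r : ℕ) (ψ : Vec → ℝ) (S P st : ℕ) (ks : List Trip) (k₀ : ℕ) :
    ∑ j ∈ range ks.length, (dig S P st (k₀ + j) : ℝ) * Uof ρ r ks ψ j
      = (kcOf S P st k₀ ks |>.map fun a => (a.2 : ℝ) * ψ (V ρ (tnode r a.1))).sum := by
  induction ks generalizing k₀ with
  | nil => simp [kcOf]
  | cons x xs ih =>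
    simp only [List.length_cons, kcOf, List.map_cons, List.sum_cons]
    rw [Finset.sum_range_succ', add_comm]
    have h1 : ∀ j, Uof ρ r (x :: xs) ψ (j + 1) = Uof ρ r xs ψ j := fun j => by
      unfold Uof
      simp
    have h2 : Uof ρ r (x :: xs) ψ 0 = ψ (V ρ (tnode r x)) := by
      unfold Uof
      simp
    simp only [h1, h2, add_zero]
    congr 1
    rw [← ih (k₀ + 1)]
    refine Finset.sum_congr rfl fun j _ => ?_
    have : k₀ + (j + 1) = k₀ + 1 + j := by ring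
    rw [this]

/-- The partner data of a state. -/
def PartnerSt (p : Par) (ρ : ℝ) (S : ℕ) (ks : List Trip) (st : ℕ) (B : (Vec → ℝ) → ℝ) : Prop :=
  Partner p ρ B (atomsOf p.N (kcOf S p.P st 0 ks)) (dig S p.P st ks.length)

theorem mem_kcOf {S P st k : ℕ} {ks : List Trip} {a : Trip × ℕ} (h : a ∈ kcOf S P st k ks) :
    a.1 ∈ ks ∧ a.2 < 2 ^ P := by
  induction ks generalizing k with
  | nil => simp [kcOf] at h
  | cons x xs ih =>
    simp only [kcOf, List.mem_cons] at h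
    rcases h with rfl | h
    · exact ⟨by simp, Nat.mod_lt _ (by positivity)⟩
    · have := ih h
      exact ⟨List.mem_cons_of_mem _ this.1, this.2⟩

/-- A bound from reading gives the partner data. -/
theorem partner_of_bound {p : Par} (hp : p.Ok) {ρ : ℝ} (hρ : 0 < ρ) {B : (Vec → ℝ) → ℝ} (hB : IsFun B) {S st : ℕ}
    {ks : List Trip} (hks : ∀ x ∈ ks, TripOK p.r p.X x)
    (h : ∀ ψ, IsTest ψ → B ψ ≤ (6 / 2 ^ p.P : ℝ) * ∑ k ∈ range (ks.length + 1), (dig S p.P st k : ℝ) * Uof ρ p.r ks ψ k) :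
    PartnerSt p ρ S ks st B := by
  have hkc : ∀ a ∈ kcOf S p.P st 0 ks, TripOK p.r p.X a.1 := fun a ha => hks _ (mem_kcOf ha).1
  have hlm := listMeas_atomsOf hp hkc
  have hmem : ∀ a ∈ atomsOf p.N (kcOf S p.P st 0 ks), ∃ z ∈ kcOf S p.P st 0 ks, a ∈ atoms1 p.N z.1 z.2 := fun a ha => by
    unfold atomsOf at ha
    rw [List.mem_flatMap] at ha
    exact ha
  refine ⟨?_, ?_, ?_, Nat.mod_lt _ (by positivity), hB, ?_⟩
  · intro a ha
    obtain ⟨z, hz, hza⟩ := hmem a ha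
    obtain ⟨-, b0, b1, b2⟩ := hkc z hz
    have hN := hp.hN
    have key : ∀ u v : ℕ, u ≤ p.X → v ≤ p.X → (u + p.N * v) % p.N ≤ p.X ∧ (u + p.N * v) / p.N ≤ p.X := by
      intro u v hu hv
      rw [Nat.add_mul_mod_self_left, Nat.mod_eq_of_lt (by omega), Nat.add_mul_div_left _ _ (by omega),
        Nat.div_eq_of_lt (by omega), zero_add]
      exact ⟨hu, hv⟩
    unfold atoms1 at hza
    simp only [List.mem_cons, List.not_mem_nil, or_false] at hza
    rcases hza with rfl | rfl | rfl | rfl | rfl | rfl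
    · exact key _ _ b1 b2
    · exact key _ _ b2 b1
    · exact key _ _ b0 b2
    · exact key _ _ b2 b0
    · exact key _ _ b0 b1
    · exact key _ _ b1 b0
  · intro a ha
    obtain ⟨z, hz, hza⟩ := hmem a ha
    have hlt := (mem_kcOf hz).2
    unfold atoms1 at hza
    simp only [List.mem_cons, List.not_mem_nil, or_false] at hza
    rcases hza with rfl | rfl | rfl | rfl | rfl | rfl <;> exact hlt
  · rw [hlm]
    exact sym_list _ _ _
  · intro ψ hψ
    refine (h ψ hψ).trans (le_of_eq ?_)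
    rw [hlm, val_list hρ hψ, ← Nat.zero_add ks.length, Finset.sum_range_succ]
    have hs := sum_Uof ρ p.r ψ S p.P st ks 0
    simp only [zero_add] at hs ⊢
    rw [hs]
    have hlast : Uof ρ p.r ks ψ ks.length = (1 / 2) * ψ E0 := by
      unfold Uof
      simp
    rw [hlast]
    unfold valE
    rw [evalF_single, VE_zero]
    field_simp
    ring

end Vale.Agent.Lib.P154B
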