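import Mathlib

/-!
Slots of big natural numbers: digit extraction from a sum of slots, masks, and the floor of all slots at once.
-/

open Finset

namespace Vale.Agent.Lib.P154B

/-- A sum of digits is below the next power. -/
theorem digits_lt {B : ℕ} (hB : 0 < B) (w : ℕ → ℕ) (hw : ∀ t, w t < B) (n : ℕ) :
    ∑ t ∈ range n, w t * B ^ t < B ^ n := by
  induction n with
  | zero => simp
  | succ n ih =>
    rw [Finset.sum_range_succ, pow_succ]
    have h1 : w n + 1 ≤ B := hw n
    have h2 : 0 < B ^ n := pow_pos hB n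
    nlinarith

/-- Digit extraction from a sum of digits. -/
theorem digit_sum {B : ℕ} (hB : 0 < B) (T : ℕ) : ∀ (w : ℕ → ℕ) (_ : ∀ t, w t < B) (n : ℕ),
    (∑ t ∈ range n, w t * B ^ t) / B ^ T % B = if T < n then w T else 0 := by
  induction T with
  | zero =>
    intro w hw n
    rcases n with _ | n
    · simp
    · rw [Finset.sum_range_succ']
      have e : ∑ k ∈ range n, w (k + 1) * B ^ (k + 1) = B * ∑ k ∈ range n, w (k + 1) * B ^ k := by
        rw [Finset.mul_sum]
        refine Finset.sum_congr rfl fun k _ => by ring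
      rw [e]
      simp [Nat.mod_eq_of_lt (hw 0)]
  | succ T ih =>
    intro w hw n
    rcases n with _ | n
    · simp
    · rw [Finset.sum_range_succ']
      have e : ∑ k ∈ range n, w (k + 1) * B ^ (k + 1) = B * ∑ k ∈ range n, w (k + 1) * B ^ k := by
        rw [Finset.mul_sum]
        refine Finset.sum_congr rfl fun k _ => by ring
      rw [e]
      have h0 : (B * ∑ k ∈ range n, w (k + 1) * B ^ k + w 0 * B ^ 0) / B = ∑ k ∈ range n, w (k + 1) * B ^ k := by
        rw [pow_zero, mul_one, Nat.mul_add_div hB, Nat.div_eq_of_lt (hw 0), add_zero]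
      have h1 : B ^ (T + 1) = B * B ^ T := by ring
      rw [h1, ← Nat.div_div_eq_div_mul, h0, ih (fun t => w (t + 1)) (fun t => hw _) n]
      simp

/-- The slot mask. -/
def mask (b P : ℕ) (S : Finset ℕ) : ℕ := ∑ t ∈ S, (2 ^ P - 1) * (2 ^ b) ^ t

theorem mask_lt {b P : ℕ} (hP : P ≤ b) (S : Finset ℕ) {a : ℕ} (h : ∀ t ∈ S, t < a) : mask b P S < 2 ^ (b * a) := by
  have hb : 0 < 2 ^ b := by positivity
  have h1 : mask b P S ≤ ∑ t ∈ range a, (2 ^ b - 1) * (2 ^ b) ^ t := by
    unfold mask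
    have hsub : S ⊆ range a := fun t ht => Finset.mem_range.2 (h t ht)
    refine (Finset.sum_le_sum fun t _ => ?_).trans (Finset.sum_le_sum_of_subset hsub)
    have : 2 ^ P ≤ 2 ^ b := Nat.pow_le_pow_right (by norm_num) hP
    exact Nat.mul_le_mul_right _ (by omega)
  have h2 := digits_lt hb (fun _ => 2 ^ b - 1) (fun _ => by omega) a
  rw [pow_mul]
  exact lt_of_le_of_lt h1 h2

/-- Land with a high part. -/
theorem land_high (x A C k : ℕ) (hA : A < 2 ^ k) :
    x &&& (2 ^ k * C + A) = 2 ^ k * ((x >>> k) &&& C) + (x &&& A) := by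
  refine Nat.eq_of_testBit_eq fun j => ?_
  have hlt : x &&& A < 2 ^ k := lt_of_le_of_lt Nat.and_le_right hA
  rw [Nat.testBit_and, Nat.testBit_two_pow_mul_add _ hA, Nat.testBit_two_pow_mul_add _ hlt]
  by_cases hj : j < k
  · simp [hj, Nat.testBit_and]
  · simp only [hj, if_false, Nat.testBit_and, Nat.testBit_shiftRight]
    have : k + (j - k) = j := by omega
    rw [this]

/-- Landing with a mask reads all the slots. -/
theorem land_mask {b P : ℕ} (hP : P ≤ b) (x : ℕ) (S : Finset ℕ) :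
    x &&& mask b P S = ∑ t ∈ S, ((x >>> (b * t)) % 2 ^ P) * (2 ^ b) ^ t := by
  classical
  induction S using Finset.induction_on_max with
  | empty =>
    simp [mask]
  | insert a S hS ih =>
    have ha : a ∉ S := fun h => lt_irrefl _ (hS a h)
    rw [Finset.sum_insert ha]
    have e : mask b P (insert a S) = 2 ^ (b * a) * (2 ^ P - 1) + mask b P S := by
      unfold mask
      rw [Finset.sum_insert ha, pow_mul]
      ring
    rw [e, land_high _ _ _ _ (mask_lt hP S hS), ih, Nat.and_two_pow_sub_one_eq_mod, pow_mul]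
    ring

/-- Shifting a sum of digits by whole slots and a few bits. -/
theorem shift_digit {b u P : ℕ} (h : u + P ≤ b) (w : ℕ → ℕ) (hw : ∀ t, w t < 2 ^ b) (n s t : ℕ) :
    (((∑ T ∈ range n, w T * (2 ^ b) ^ T) >>> (u + b * s)) >>> (b * t)) % 2 ^ P
      = ((if s + t < n then w (s + t) else 0) >>> u) % 2 ^ P := by
  set x := ∑ T ∈ range n, w T * (2 ^ b) ^ T with hx
  have hB : 0 < 2 ^ b := by positivity
  rw [← Nat.shiftRight_add]
  have e1 : u + b * s + b * t = u + b * (s + t) := by ring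
  rw [e1, Nat.add_comm u, Nat.shiftRight_add]
  have h1 : x >>> (b * (s + t)) = x / (2 ^ b) ^ (s + t) := by
    rw [Nat.shiftRight_eq_div_pow, pow_mul]
  rw [h1]
  set Y := x / (2 ^ b) ^ (s + t) with hY
  have hd : Y % 2 ^ b = if s + t < n then w (s + t) else 0 := digit_sum hB (s + t) w hw n
  rw [← hd]
  have hY2 : Y = Y % 2 ^ b + 2 ^ b * (Y / 2 ^ b) := (Nat.mod_add_div _ _).symm
  have e2 : 2 ^ b = 2 ^ u * (2 ^ P * 2 ^ (b - u - P)) := by
    rw [← pow_add, ← pow_add]
    congr 1
    omega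
  set z := Y / 2 ^ b with hz
  set y := Y % 2 ^ b with hy
  have h3 : Y >>> u = y >>> u + 2 ^ P * (2 ^ (b - u - P) * z) := by
    rw [Nat.shiftRight_eq_div_pow, Nat.shiftRight_eq_div_pow, hY2, e2]
    have e3 : y + 2 ^ u * (2 ^ P * 2 ^ (b - u - P)) * z = y + 2 ^ u * (2 ^ P * (2 ^ (b - u - P) * z)) := by ring
    rw [e3, Nat.add_mul_div_left _ _ (by positivity)]
  rw [h3, Nat.add_mul_mod_self_left]

/-- The floor of all slots of a sum of digits. -/
theorem floor_mask {b u P : ℕ} (h : u + P ≤ b) (w : ℕ → ℕ) (hw : ∀ t, w t < 2 ^ b) (n s : ℕ) (S : Finset ℕ) :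
    ((∑ T ∈ range n, w T * (2 ^ b) ^ T) >>> (u + b * s)) &&& mask b P S
      = ∑ t ∈ S, (((if s + t < n then w (s + t) else 0) >>> u) % 2 ^ P) * (2 ^ b) ^ t := by
  rw [land_mask (by omega)]
  refine Finset.sum_congr rfl fun t _ => ?_
  rw [shift_digit h w hw]

/-- A slot value after the floor. -/
theorem floor_le (y u P : ℕ) : ((y >>> u) % 2 ^ P) * 2 ^ u ≤ y := by
  rw [Nat.shiftRight_eq_div_pow]
  calc y / 2 ^ u % 2 ^ P * 2 ^ u ≤ y / 2 ^ u * 2 ^ u := Nat.mul_le_mul_right _ (Nat.mod_le _ _)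
    _ ≤ y := Nat.div_mul_le_self _ _

/-- A sum of digits shifted up. -/
theorem digits_shift {B : ℕ} (r : ℕ → ℕ) {n m p : ℕ} (hm : n ≤ m) (hr : ∀ t, n ≤ t → r t = 0) :
    (∑ t ∈ range n, r t * B ^ t) * B ^ p
      = ∑ T ∈ range (p + m), (if p ≤ T then r (T - p) else 0) * B ^ T := by
  rw [Finset.sum_range_add]
  have h1 : ∑ x ∈ range p, (if p ≤ x then r (x - p) else 0) * B ^ x = 0 := by
    refine Finset.sum_eq_zero fun x hx => ?_
    have := Finset.mem_range.1 hx
    rw [if_neg (by omega), zero_mul]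
  rw [h1, zero_add]
  have h2 : ∑ x ∈ range m, (if p ≤ p + x then r (p + x - p) else 0) * B ^ (p + x)
      = ∑ x ∈ range m, r x * B ^ x * B ^ p := by
    refine Finset.sum_congr rfl fun x _ => ?_
    rw [if_pos (by omega), Nat.add_sub_cancel_left, pow_add]
    ring
  rw [h2, ← Finset.sum_mul]
  congr 1
  refine Finset.sum_subset (Finset.range_subset_range.2 hm) fun x _ hx => ?_
  rw [hr x (by simpa using hx), zero_mul]

/-- Extending the range of a sum of digits. -/
theorem digits_extend {B : ℕ} (r : ℕ → ℕ) {n m : ℕ} (hm : n ≤ m) (hr : ∀ t, n ≤ t → r t = 0) :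
    ∑ t ∈ range n, r t * B ^ t = ∑ t ∈ range m, r t * B ^ t := by
  refine Finset.sum_subset (Finset.range_subset_range.2 hm) fun x _ hx => ?_
  rw [hr x (by simpa using hx), zero_mul]

/-- Atoms of a partner: weight and position. -/
def atomVal (B : ℕ) (as : List (ℕ × ℕ)) : ℕ := (as.map fun a => a.1 * B ^ a.2).sum

/-- The slot values of a product with a list of atoms. -/
def atomConv (r : ℕ → ℕ) (as : List (ℕ × ℕ)) (T : ℕ) : ℕ :=
  (as.map fun a => if a.2 ≤ T then a.1 * r (T - a.2) else 0).sum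

theorem atomConv_bound (r : ℕ → ℕ) {R c : ℕ} (hr : ∀ t, r t ≤ R) (as : List (ℕ × ℕ)) (hc : ∀ a ∈ as, a.1 ≤ c) (T : ℕ) :
    atomConv r as T ≤ as.length * (c * R) := by
  induction as with
  | nil => simp [atomConv]
  | cons a as ih =>
    have h1 := ih fun a' h' => hc a' (List.mem_cons_of_mem _ h')
    unfold atomConv at h1 ⊢
    simp only [List.map_cons, List.sum_cons, List.length_cons]
    have h2 : (if a.2 ≤ T then a.1 * r (T - a.2) else 0) ≤ c * R := by
      split_ifs
      · exact Nat.mul_le_mul (hc a (by simp)) (hr _)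
      · exact Nat.zero_le _
    have : (as.length + 1) * (c * R) = as.length * (c * R) + c * R := by ring
    omega

/-- The product with a list of atoms as a sum of slots. -/
theorem mul_atomVal {B : ℕ} (r : ℕ → ℕ) {n : ℕ} (hr : ∀ t, n ≤ t → r t = 0) (as : List (ℕ × ℕ)) {m : ℕ}
    (hm : ∀ a ∈ as, n + a.2 ≤ m) :
    (∑ t ∈ range n, r t * B ^ t) * atomVal B as = ∑ T ∈ range m, atomConv r as T * B ^ T := by
  induction as with
  | nil => simp [atomVal, atomConv]
  | cons a as ih =>
    have h1 := ih fun a' h' => hm a' (List.mem_cons_of_mem _ h')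
    have h2 := hm a (by simp)
    unfold atomVal atomConv at h1 ⊢
    simp only [List.map_cons, List.sum_cons]
    rw [mul_add, h1]
    simp only [add_mul]
    rw [Finset.sum_add_distrib]
    congr 1
    have e : (∑ t ∈ range n, r t * B ^ t) * (a.1 * B ^ a.2)
        = a.1 * ((∑ t ∈ range n, r t * B ^ t) * B ^ a.2) := by ring
    rw [e, digits_shift r (m := m - a.2) (by omega) hr]
    have h3 : a.2 + (m - a.2) = m := by omega
    rw [h3, Finset.mul_sum]
    refine Finset.sum_congr rfl fun T _ => ?_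
    split_ifs <;> ring

end Vale.Agent.Lib.P154B
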