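import Vale.Agent.Lib.P154B.Lat
import Vale.Agent.Lib.P154B.Dig

/-!
One factor of the product, on big natural numbers: digits of a parent polynomial bound an exact symmetric
measure from below, and the product with a child polynomial followed by a floor of all slots keeps this.
-/

noncomputable section

open Finset

namespace Vale.Agent.Lib.P154B

/-- Packing parameters. -/
structure Par where
  /-- bits of a slot -/
  b : ℕ
  /-- bits of a digit -/
  P : ℕ
  /-- row stride -/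
  N : ℕ
  /-- side of the box -/
  m : ℕ
  /-- offset of the box -/
  W : ℕ
  /-- offset of the child atoms -/
  r : ℕ
  /-- bound for the child coordinates -/
  X : ℕ

namespace Par

variable (p : Par)

/-- Number of positions. -/
def tot : ℕ := p.N * p.m

/-- Positions in the box. -/
def boxS : Finset ℕ := (range p.tot).filter fun t => t % p.N < p.m

/-- The node of a position of the parent. -/
def nd (t : ℕ) : Node := (((t % p.N : ℕ) : ℤ) - p.W, ((t / p.N : ℕ) : ℤ) - p.W)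

/-- The node of a position of the child. -/
def cn (q : ℕ) : Node := (((q % p.N : ℕ) : ℤ) - p.r, ((q / p.N : ℕ) : ℤ) - p.r)

/-- The shift between the product and the parent box. -/
def sh : ℕ := p.r + p.N * p.r

/-- The position of the origin. -/
def cen : ℕ := p.W + p.N * p.W

/-- Bound of child positions. -/
def Q : ℕ := p.X + p.N * p.X

/-- Conditions on the parameters. -/
structure Ok : Prop where
  hN : p.m + p.X < p.N
  hrX : p.r ≤ p.X
  hW : p.W < p.m
  hP : 1 ≤ p.P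

end Par

theorem div_uniq {N A A' u v : ℕ} (hA : A < N) (hA' : A' < N) (h : A + N * u = A' + N * v) : A = A' ∧ u = v := by
  have h1 : (A + N * u) % N = A := by
    rw [Nat.add_mul_mod_self_left, Nat.mod_eq_of_lt hA]
  have h2 : (A' + N * v) % N = A' := by
    rw [Nat.add_mul_mod_self_left, Nat.mod_eq_of_lt hA']
  have h3 : A = A' := by
    rw [← h1, ← h2, h]
  subst h3
  have h4 : N * u = N * v := by omega
  have hN : 0 < N := by omega
  exact ⟨rfl, Nat.eq_of_mul_eq_mul_left hN h4⟩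

/-- Node arithmetic. -/
theorem nd_sub {p : Par} (hp : p.Ok) {t q t₁ : ℕ} (ht : t ∈ p.boxS) (ht₁ : t₁ ∈ p.boxS)
    (hq1 : q % p.N ≤ p.X) (hq2 : q / p.N ≤ p.X) (hs : t₁ + q = p.sh + t) : p.nd t₁ = p.nd t - p.cn q := by
  have hN := hp.hN
  have hr := hp.hrX
  have a1 := (Finset.mem_filter.1 ht).2
  have a2 := (Finset.mem_filter.1 ht₁).2
  have e1 := Nat.mod_add_div t p.N
  have e2 := Nat.mod_add_div t₁ p.N
  have e3 := Nat.mod_add_div q p.N
  set i := t % p.N
  set j := t / p.N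
  set i₁ := t₁ % p.N
  set j₁ := t₁ / p.N
  set x := q % p.N
  set y := q / p.N
  have key : (i₁ + x) + p.N * (j₁ + y) = (p.r + i) + p.N * (p.r + j) := by
    have : t₁ + q = p.r + p.N * p.r + t := hs
    rw [← e1, ← e2, ← e3] at this
    linarith
  obtain ⟨h1, h2⟩ := div_uniq (by omega) (by omega) key
  unfold Par.nd Par.cn
  simp only [Prod.mk_sub_mk]
  change ((i₁ : ℤ) - p.W, (j₁ : ℤ) - p.W) = (((i : ℤ) - p.W) - ((x : ℤ) - p.r), ((j : ℤ) - p.W) - ((y : ℤ) - p.r))
  ext
  · simp only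
    omega
  · simp only
    omega

/-- A list of atoms as a measure. -/
def listMeas (p : Par) (as : List (ℕ × ℕ)) : Node →₀ ℝ :=
  (as.map fun a => Finsupp.single (p.cn a.2) ((a.1 : ℝ) / 2 ^ p.P)).sum

theorem conv_listMeas_cons (p : Par) (f : Node →₀ ℝ) (a : ℕ × ℕ) (as : List (ℕ × ℕ)) (n : Node) :
    conv f (listMeas p (a :: as)) n = ((a.1 : ℝ) / 2 ^ p.P) * f (n - p.cn a.2) + conv f (listMeas p as) n := by
  unfold listMeas
  rw [List.map_cons, List.sum_cons, conv_apply, conv_apply, evalF_add, evalF_single]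

theorem conv_listMeas_nil (p : Par) (f : Node →₀ ℝ) (n : Node) : conv f (listMeas p []) n = 0 := by
  unfold listMeas
  rw [conv_apply]
  simp [evalF_zero]

/-- The exact measure bounds the slots of the product. -/
theorem conv_lower {p : Par} (hp : p.Ok) {rr : ℕ → ℕ} {f : Node →₀ ℝ} (hf : ∀ n, 0 ≤ f n)
    (h0 : ∀ t, t ∉ p.boxS → rr t = 0) (hle : ∀ t ∈ p.boxS, (rr t : ℝ) / 2 ^ p.P ≤ f (p.nd t))
    (as : List (ℕ × ℕ)) (has : ∀ a ∈ as, a.2 % p.N ≤ p.X ∧ a.2 / p.N ≤ p.X) {t : ℕ} (ht : t ∈ p.boxS) :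
    (atomConv rr as (p.sh + t) : ℝ) / (2 ^ p.P * 2 ^ p.P) ≤ conv f (listMeas p as) (p.nd t) := by
  induction as with
  | nil =>
    rw [conv_listMeas_nil]
    simp [atomConv]
  | cons a as ih =>
    rw [conv_listMeas_cons]
    have h1 := ih fun a' h' => has a' (List.mem_cons_of_mem _ h')
    have e : (atomConv rr (a :: as) (p.sh + t) : ℝ)
        = ((if a.2 ≤ p.sh + t then a.1 * rr (p.sh + t - a.2) else 0 : ℕ) : ℝ) + (atomConv rr as (p.sh + t) : ℝ) := by
      unfold atomConv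
      simp only [List.map_cons, List.sum_cons]
      push_cast
      ring
    rw [e, add_div]
    refine add_le_add ?_ h1
    have hw : (0 : ℝ) ≤ (a.1 : ℝ) / 2 ^ p.P := by positivity
    split_ifs with hq
    · set t₁ := p.sh + t - a.2 with ht₁
      have key : (rr t₁ : ℝ) / 2 ^ p.P ≤ f (p.nd t - p.cn a.2) := by
        by_cases hm : t₁ ∈ p.boxS
        · have := hle t₁ hm
          rwa [nd_sub hp ht hm (has a (by simp)).1 (has a (by simp)).2 (by omega)] at this
        · rw [h0 t₁ hm]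
          simpa using hf _
      have := mul_le_mul_of_nonneg_left key hw
      refine le_trans (le_of_eq ?_) this
      push_cast
      field_simp
    · simp only [Nat.cast_zero, zero_div]
      exact mul_nonneg hw (hf _)

/-- Invariant of a parent polynomial pair. -/
structure Inv (p : Par) (ρ : ℝ) (A : (Vec → ℝ) → ℝ) (R G : ℕ) : Prop where
  ex : ∃ (rr gg : ℕ → ℕ) (f g : Node →₀ ℝ),
    R = ∑ t ∈ range p.tot, rr t * (2 ^ p.b) ^ t ∧
    G = ∑ t ∈ range p.tot, gg t * (2 ^ p.b) ^ t ∧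
    (∀ t, rr t < 2 ^ p.P) ∧ (∀ t, gg t < 2 ^ p.P) ∧
    (∀ t, t ∉ p.boxS → rr t = 0) ∧ (∀ t, t ∉ p.boxS → gg t = 0) ∧
    (∀ t ∈ p.boxS, (rr t : ℝ) / 2 ^ p.P ≤ f (p.nd t)) ∧ (∀ t ∈ p.boxS, (gg t : ℝ) / 2 ^ p.P ≤ g (p.nd t)) ∧
    (∀ n, 0 ≤ f n) ∧ (∀ n, 0 ≤ g n) ∧ Sym f ∧ Dom ρ A f g

/-- The floor of a product. -/
def floorStep (p : Par) (M x : ℕ) : ℕ := (x >>> (p.P + p.b * p.sh)) &&& M

/-- The step of the lattice part. -/
def fStep (p : Par) (M C q R : ℕ) : ℕ :=
  floorStep p M (R * C + (q * 2 ^ p.P) * (2 ^ p.b) ^ (p.sh + p.cen))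

/-- The step of the edge part. -/
def gStep (p : Par) (M C γ R G : ℕ) : ℕ :=
  floorStep p M (G * C + (γ * (R + G)) * (2 ^ p.b) ^ p.sh)

theorem sum_add_atom {B : ℕ} (w : ℕ → ℕ) {n c : ℕ} (hc : c < n) (q : ℕ) :
    (∑ T ∈ range n, w T * B ^ T) + q * B ^ c = ∑ T ∈ range n, (w T + if T = c then q else 0) * B ^ T := by
  have : q * B ^ c = ∑ T ∈ range n, (if T = c then q else 0) * B ^ T := by
    rw [Finset.sum_eq_single_of_mem c (Finset.mem_range.2 hc) (fun T _ hT => by rw [if_neg hT, zero_mul])]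
    rw [if_pos rfl]
  rw [this, ← Finset.sum_add_distrib]
  refine Finset.sum_congr rfl fun T _ => by ring

/-- The output digits of a floor. -/
theorem floor_result {p : Par} (hp : p.Ok) (w : ℕ → ℕ) (hw : ∀ t, w t < 2 ^ p.b) (hPb : p.P + p.P ≤ p.b) :
    floorStep p (mask p.b p.P p.boxS) (∑ T ∈ range (p.tot + p.Q), w T * (2 ^ p.b) ^ T)
      = ∑ t ∈ range p.tot,
          (if t < p.tot ∧ t % p.N < p.m then (w (p.sh + t) >>> p.P) % 2 ^ p.P else 0) * (2 ^ p.b) ^ t := by
  unfold floorStep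
  rw [floor_mask hPb w hw]
  unfold Par.boxS
  rw [Finset.sum_filter]
  refine Finset.sum_congr rfl fun t ht => ?_
  have ht' := Finset.mem_range.1 ht
  have hlt : p.sh + t < p.tot + p.Q := by
    have : p.sh ≤ p.Q := by
      unfold Par.sh Par.Q
      have := hp.hrX
      have h3 : p.N * p.r ≤ p.N * p.X := Nat.mul_le_mul_left _ this
      omega
    omega
  rw [if_pos hlt]
  by_cases h1 : t % p.N < p.m
  · rw [if_pos h1, if_pos ⟨ht', h1⟩]
  · rw [if_neg h1, if_neg fun h2 => h1 h2.2, zero_mul]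

theorem floor_digit_bound (y P : ℕ) {a : ℝ} (h : (y : ℝ) / (2 ^ P * 2 ^ P) ≤ a) :
    (((y >>> P) % 2 ^ P : ℕ) : ℝ) / 2 ^ P ≤ a := by
  refine le_trans ?_ h
  have h1 := floor_le y P P
  have h2 : (((y >>> P) % 2 ^ P : ℕ) : ℝ) * 2 ^ P ≤ y := by exact_mod_cast h1
  rw [div_le_div_iff₀ (by positivity) (by positivity)]
  nlinarith [pow_pos (by norm_num : (0 : ℝ) < 2) P]

/-- The partner data. -/
structure Partner (p : Par) (ρ : ℝ) (B : (Vec → ℝ) → ℝ) (as : List (ℕ × ℕ)) (γ : ℕ) : Prop where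
  pos : ∀ a ∈ as, a.2 % p.N ≤ p.X ∧ a.2 / p.N ≤ p.X
  wt : ∀ a ∈ as, a.1 < 2 ^ p.P
  sym : Sym (listMeas p as)
  gam : γ < 2 ^ p.P
  isFun : IsFun B
  dom : Dom ρ B (listMeas p as) (Finsupp.single 0 ((γ : ℝ) / 2 ^ p.P))

theorem listMeas_nonneg (p : Par) (as : List (ℕ × ℕ)) (n : Node) : 0 ≤ listMeas p as n := by
  induction as with
  | nil => simp [listMeas]
  | cons a as ih =>
    unfold listMeas at ih ⊢
    simp only [List.map_cons, List.sum_cons, Finsupp.coe_add, Pi.add_apply]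
    refine add_nonneg ?_ ih
    rw [Finsupp.single_apply]
    split_ifs
    · positivity
    · exact le_rfl

theorem atom_pos_le {p : Par} (hp : p.Ok) {a : ℕ × ℕ} (h : a.2 % p.N ≤ p.X ∧ a.2 / p.N ≤ p.X) : a.2 ≤ p.Q := by
  have e3 := Nat.mod_add_div a.2 p.N
  unfold Par.Q
  have : p.N * (a.2 / p.N) ≤ p.N * p.X := Nat.mul_le_mul_left _ h.2
  omega

/-- One step of the recursion: adding a centre atom and multiplying with the partner. -/
theorem Inv.step {p : Par} (hp : p.Ok) {ρ : ℝ} (hρ : 0 < ρ) {A B : (Vec → ℝ) → ℝ} (hA : IsFun A) {R G : ℕ}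
    (h : Inv p ρ A R G) {as : List (ℕ × ℕ)} {γ : ℕ} (hB : Partner p ρ B as γ) {q : ℕ} (hq : q ≤ 2 ^ p.P)
    (hb : (as.length + 2) * (2 ^ p.P * 2 ^ p.P) < 2 ^ p.b) (hPb : p.P + p.P ≤ p.b) :
    Inv p ρ (fun ψ => unitF ((q : ℝ) / 2 ^ p.P) ψ + tens A B ψ)
      (fStep p (mask p.b p.P p.boxS) (atomVal (2 ^ p.b) as) q R)
      (gStep p (mask p.b p.P p.boxS) (atomVal (2 ^ p.b) as) γ R G) := by
  obtain ⟨rr, gg, f, g, hR, hG, hrr, hgg, h0r, h0g, hler, hleg, hf, hg, Sf, dA⟩ := h.ex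
  have hcen : p.cen ∈ p.boxS := by
    have hN := hp.hN
    have hW := hp.hW
    have hlt : p.cen < p.tot := by
      unfold Par.cen Par.tot
      have : p.N * p.W + p.N ≤ p.N * p.m := by
        have : p.N * (p.W + 1) ≤ p.N * p.m := Nat.mul_le_mul_left _ hW
        linarith [this, Nat.mul_succ p.N p.W]
      omega
    refine Finset.mem_filter.2 ⟨Finset.mem_range.2 hlt, ?_⟩
    unfold Par.cen
    rw [Nat.add_mul_mod_self_left, Nat.mod_eq_of_lt (by omega)]
    exact hW
  have hndc : p.nd p.cen = 0 := by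
    unfold Par.nd Par.cen
    have hN := hp.hN
    have hW := hp.hW
    have h1 : (p.W + p.N * p.W) % p.N = p.W := by
      rw [Nat.add_mul_mod_self_left, Nat.mod_eq_of_lt (by omega)]
    have h2 : (p.W + p.N * p.W) / p.N = p.W := by
      rw [Nat.add_mul_div_left _ _ (by omega), Nat.div_eq_of_lt (by omega), zero_add]
    rw [h1, h2]
    simp
  set h' := listMeas p as with hh'
  have hh0 := listMeas_nonneg p as
  have hγ0 : (0 : ℝ) ≤ (γ : ℝ) / 2 ^ p.P := by positivity
  have hPpos : 0 < 2 ^ p.P := by positivity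
  -- the total range
  have hrange : ∀ a ∈ as, p.tot + a.2 ≤ p.tot + p.Q := fun a ha => by
    have := atom_pos_le hp (hB.pos a ha)
    omega
  have hcenlt : p.sh + p.cen < p.tot + p.Q := by
    have h1 : p.sh ≤ p.Q := by
      unfold Par.sh Par.Q
      have := hp.hrX
      have h3 : p.N * p.r ≤ p.N * p.X := Nat.mul_le_mul_left _ this
      omega
    have h2 := (Finset.mem_range.1 (Finset.mem_filter.1 hcen).1)
    omega
  -- the two slot functions
  set w1 : ℕ → ℕ := fun T => atomConv rr as T + if T = p.sh + p.cen then q * 2 ^ p.P else 0 with hw1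
  set e2 : ℕ → ℕ := fun t => γ * (rr t + gg t) with he2
  set w2 : ℕ → ℕ := fun T => atomConv gg as T + if p.sh ≤ T then e2 (T - p.sh) else 0 with hw2
  have hc1 : ∀ a ∈ as, a.1 ≤ 2 ^ p.P := fun a ha => (hB.wt a ha).le
  have bnd1 : ∀ T, atomConv rr as T ≤ as.length * (2 ^ p.P * 2 ^ p.P) := fun T =>
    atomConv_bound rr (fun t => (hrr t).le) as hc1 T
  have bnd2 : ∀ T, atomConv gg as T ≤ as.length * (2 ^ p.P * 2 ^ p.P) := fun T =>
    atomConv_bound gg (fun t => (hgg t).le) as hc1 T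
  have hsq : 0 < 2 ^ p.P * 2 ^ p.P := Nat.mul_pos hPpos hPpos
  have hb' : as.length * (2 ^ p.P * 2 ^ p.P) + 2 * (2 ^ p.P * 2 ^ p.P) < 2 ^ p.b := by
    have : (as.length + 2) * (2 ^ p.P * 2 ^ p.P) = as.length * (2 ^ p.P * 2 ^ p.P) + 2 * (2 ^ p.P * 2 ^ p.P) := by ring
    omega
  have hw1lt : ∀ T, w1 T < 2 ^ p.b := fun T => by
    have h1 := bnd1 T
    have h2 : (if T = p.sh + p.cen then q * 2 ^ p.P else 0) ≤ 2 ^ p.P * 2 ^ p.P := by
      split_ifs
      · exact Nat.mul_le_mul_right _ hq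
      · exact Nat.zero_le _
    simp only [hw1]
    omega
  have he2le : ∀ t, e2 t ≤ 2 * (2 ^ p.P * 2 ^ p.P) := fun t => by
    have h1 := hrr t
    have h2 := hgg t
    have h3 := hB.gam
    calc e2 t = γ * (rr t + gg t) := rfl
      _ ≤ 2 ^ p.P * (2 ^ p.P + 2 ^ p.P) := Nat.mul_le_mul h3.le (by omega)
      _ = _ := by ring
  have hw2lt : ∀ T, w2 T < 2 ^ p.b := fun T => by
    have h1 := bnd2 T
    have h2 : (if p.sh ≤ T then e2 (T - p.sh) else 0) ≤ 2 * (2 ^ p.P * 2 ^ p.P) := by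
      split_ifs
      · exact he2le _
      · exact Nat.zero_le _
    simp only [hw2]
    omega
  -- the products as sums of slots
  have hP1 : R * atomVal (2 ^ p.b) as + (q * 2 ^ p.P) * (2 ^ p.b) ^ (p.sh + p.cen)
      = ∑ T ∈ range (p.tot + p.Q), w1 T * (2 ^ p.b) ^ T := by
    have hz : ∀ t, p.tot ≤ t → rr t = 0 := fun t ht => h0r t fun hm => by
      have := Finset.mem_range.1 (Finset.mem_filter.1 hm).1
      omega
    rw [hR, mul_atomVal rr hz as hrange, sum_add_atom _ hcenlt]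
  have hP2 : G * atomVal (2 ^ p.b) as + (γ * (R + G)) * (2 ^ p.b) ^ p.sh
      = ∑ T ∈ range (p.tot + p.Q), w2 T * (2 ^ p.b) ^ T := by
    have hz : ∀ t, p.tot ≤ t → gg t = 0 := fun t ht => h0g t fun hm => by
      have := Finset.mem_range.1 (Finset.mem_filter.1 hm).1
      omega
    have hz' : ∀ t, p.tot ≤ t → rr t = 0 := fun t ht => h0r t fun hm => by
      have := Finset.mem_range.1 (Finset.mem_filter.1 hm).1
      omega
    have hz2 : ∀ t, p.tot ≤ t → e2 t = 0 := fun t ht => by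
      simp only [he2, hz t ht, hz' t ht, add_zero, mul_zero]
    have e1 : γ * (R + G) = ∑ t ∈ range p.tot, e2 t * (2 ^ p.b) ^ t := by
      rw [hR, hG, ← Finset.sum_add_distrib, Finset.mul_sum]
      refine Finset.sum_congr rfl fun t _ => ?_
      simp only [he2]
      ring
    have hsQ : p.sh ≤ p.Q := by
      unfold Par.sh Par.Q
      have := hp.hrX
      have h3 : p.N * p.r ≤ p.N * p.X := Nat.mul_le_mul_left _ this
      omega
    have e3 : p.tot + p.Q = p.sh + (p.tot + p.Q - p.sh) := by omega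
    rw [e1, hG, mul_atomVal gg hz as hrange, digits_shift e2 (m := p.tot + p.Q - p.sh) (by omega) hz2, ← e3,
      ← Finset.sum_add_distrib]
    refine Finset.sum_congr rfl fun T _ => ?_
    simp only [hw2]
    ring
  have hR' := floor_result hp w1 hw1lt hPb
  have hG' := floor_result hp w2 hw2lt hPb
  rw [← hP1] at hR'
  rw [← hP2] at hG'
  have hmem : ∀ t, t ∈ p.boxS ↔ (t < p.tot ∧ t % p.N < p.m) := fun t => by
    unfold Par.boxS
    rw [Finset.mem_filter, Finset.mem_range]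
  have hPR : (0 : ℝ) < 2 ^ p.P := by positivity
  refine ⟨⟨fun t => if t < p.tot ∧ t % p.N < p.m then (w1 (p.sh + t) >>> p.P) % 2 ^ p.P else 0,
    fun t => if t < p.tot ∧ t % p.N < p.m then (w2 (p.sh + t) >>> p.P) % 2 ^ p.P else 0,
    conv f h' + Finsupp.single 0 ((q : ℝ) / 2 ^ p.P),
    conv g h' + ((γ : ℝ) / 2 ^ p.P) • f + ((γ : ℝ) / 2 ^ p.P) • g, hR', hG', ?_, ?_, ?_, ?_, ?_, ?_, ?_, ?_, ?_, ?_⟩⟩
  · intro t
    simp only
    split_ifs
    · exact Nat.mod_lt _ (by positivity)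
    · positivity
  · intro t
    simp only
    split_ifs
    · exact Nat.mod_lt _ (by positivity)
    · positivity
  · intro t ht
    simp only
    rw [if_neg]
    exact fun h1 => ht ((hmem t).2 h1)
  · intro t ht
    simp only
    rw [if_neg]
    exact fun h1 => ht ((hmem t).2 h1)
  · intro t ht
    simp only
    rw [if_pos ((hmem t).1 ht)]
    refine floor_digit_bound _ _ ?_
    have h1 := conv_lower hp hf h0r hler as hB.pos ht
    have hsq' : (0 : ℝ) < 2 ^ p.P * 2 ^ p.P := by positivity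
    simp only [hw1]
    rw [Nat.cast_add, add_div, Finsupp.add_apply]
    refine add_le_add h1 ?_
    by_cases hc : p.sh + t = p.sh + p.cen
    · have htc : t = p.cen := by omega
      rw [if_pos hc, htc, hndc, Finsupp.single_apply, if_pos rfl]
      push_cast
      apply le_of_eq
      field_simp
    · rw [if_neg hc, Nat.cast_zero, zero_div, Finsupp.single_apply]
      split_ifs
      · positivity
      · exact le_rfl
  · intro t ht
    simp only
    rw [if_pos ((hmem t).1 ht)]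
    refine floor_digit_bound _ _ ?_
    have h1 := conv_lower hp hg h0g hleg as hB.pos ht
    have hsq' : (0 : ℝ) < 2 ^ p.P * 2 ^ p.P := by positivity
    simp only [hw2]
    rw [if_pos (Nat.le_add_right _ _), Nat.add_sub_cancel_left]
    simp only [he2]
    rw [Nat.cast_add, add_div, Finsupp.add_apply, Finsupp.add_apply, Finsupp.smul_apply, Finsupp.smul_apply, add_assoc]
    refine add_le_add h1 ?_
    have h2 := hler t ht
    have h3 := hleg t ht
    have h4 := mul_le_mul_of_nonneg_left h2 hγ0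
    have h5 := mul_le_mul_of_nonneg_left h3 hγ0
    simp only [smul_eq_mul]
    have e : ((γ * (rr t + gg t) : ℕ) : ℝ) / (2 ^ p.P * 2 ^ p.P)
        = (γ : ℝ) / 2 ^ p.P * ((rr t : ℝ) / 2 ^ p.P) + (γ : ℝ) / 2 ^ p.P * ((gg t : ℝ) / 2 ^ p.P) := by
      push_cast
      field_simp
    rw [e]
    exact add_le_add h4 h5
  · intro n
    rw [Finsupp.add_apply]
    refine add_nonneg (conv_nonneg hf hh0 n) ?_
    rw [Finsupp.single_apply]
    split_ifs
    · positivity
    · exact le_rfl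
  · intro n
    simp only [Finsupp.add_apply, Finsupp.smul_apply, smul_eq_mul]
    exact add_nonneg (add_nonneg (conv_nonneg hg hh0 n) (mul_nonneg hγ0 (hf n))) (mul_nonneg hγ0 (hg n))
  · exact (conv_sym Sf hB.sym).add (sym_single_zero _)
  · exact Dom.add_unit _ (Dom.tens hρ hA hB.isFun hh0 hγ0 Sf hB.sym dA hB.dom)

end Vale.Agent.Lib.P154B
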