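import Vale.Agent.Lib.P154B.Final

/-!
A faster evaluation of the next state: records are grouped, and each group reads its digits from a short window of
the parent polynomial.
-/

noncomputable section

open Finset

namespace Vale.Agent.Lib.P154B

/-- A group of records: offset and length of a window (in slots), and the records. -/
abbrev Grp := ℕ × ℕ × List Rec

/-- All records of a list of groups. -/
def grpRecs (gs : List Grp) : List Rec := gs.flatMap fun g => g.2.2

/-- The sum over the records of a group, from the window `y`. -/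
def gSum1 (b P y o : ℕ) (f : Rec → ℕ) (l : List Rec) : ℕ :=
  (l.map fun rc => ((y >>> (b * (rc.t - o))) % 2 ^ P) * f rc).sum

/-- The sum over all groups. -/
def gSum (b P x : ℕ) (f : Rec → ℕ) (gs : List Grp) : ℕ :=
  (gs.map fun g => gSum1 b P ((x >>> (b * g.1)) % 2 ^ (b * g.2.1)) g.1 f g.2.2).sum

/-- The windows contain their records. -/
def grpOK (b P : ℕ) (gs : List Grp) : Bool :=
  gs.all fun g => g.2.2.all fun rc => Nat.ble g.1 rc.t && Nat.ble (b * (rc.t - g.1) + P) (b * g.2.1)

theorem window_digit {x a c d P : ℕ} (h : d + P ≤ c) :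
    (((x >>> a) % 2 ^ c) >>> d) % 2 ^ P = (x >>> (a + d)) % 2 ^ P := by
  apply Nat.eq_of_testBit_eq
  intro i
  simp only [Nat.testBit_mod_two_pow, Nat.testBit_shiftRight]
  by_cases hi : i < P
  · have h1 : d + i < c := by omega
    simp only [hi, h1, decide_true, Bool.true_and]
    congr 1
    omega
  · simp [hi]

theorem gSum_eq {b P x : ℕ} {gs : List Grp} (h : grpOK b P gs = true) (f : Rec → ℕ) :
    gSum b P x f gs = ((grpRecs gs).map fun rc => dig b P x rc.t * f rc).sum := by
  induction gs with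
  | nil => simp [gSum, grpRecs]
  | cons g gs ih =>
    unfold grpOK at h ih
    simp only [List.all_cons, Bool.and_eq_true] at h
    obtain ⟨h1, h2⟩ := h
    have h3 := ih h2
    unfold gSum grpRecs at h3 ⊢
    simp only [List.map_cons, List.sum_cons, List.flatMap_cons, List.map_append, List.sum_append]
    rw [h3]
    congr 1
    unfold gSum1
    congr 1
    refine List.map_congr_left fun rc hrc => ?_
    rw [List.all_eq_true] at h1
    have h4 := h1 rc hrc
    simp only [Bool.and_eq_true] at h4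
    obtain ⟨h5, h6⟩ := h4
    have h7 := Nat.le_of_ble_eq_true h5
    have h8 := Nat.le_of_ble_eq_true h6
    rw [window_digit h8]
    unfold dig
    have e : b * g.1 + b * (rc.t - g.1) = b * rc.t := by
      rw [← Nat.mul_add]
      congr 1
      omega
    rw [e]

/-- The next state from grouped records. -/
def nextF (p : Par) (S Q : ℕ) (gl ge : List Grp) (hv : List ℕ) (R G : ℕ) : ℕ :=
  bif Nat.ble (gSum p.b p.P R (fun rc => rc.L) gl + gSum p.b p.P G (fun rc => rc.L) ge) (3 * 2 ^ (p.P + Q)) then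
    (gSum p.b p.P R (fun rc => hpack S rc.hs) gl + gSum p.b p.P G (fun rc => hpack S rc.hs) ge
      + vertD p Q (gSum p.b p.P R (fun rc => rc.L) gl + gSum p.b p.P G (fun rc => rc.L) ge) * hpack S hv) >>> Q
  else 0

theorem nextF_eq {p : Par} {S Q : ℕ} {gl ge : List Grp} {hv : List ℕ} {R G : ℕ} (h1 : grpOK p.b p.P gl = true)
    (h2 : grpOK p.b p.P ge = true) :
    nextF p S Q gl ge hv R G = nextSt p S Q (grpRecs gl) (grpRecs ge) hv R G := by
  have hT : gSum p.b p.P R (fun rc => rc.L) gl + gSum p.b p.P G (fun rc => rc.L) ge = tmass p R G (grpRecs gl) (grpRecs ge) := by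
    rw [gSum_eq h1, gSum_eq h2]
    rfl
  have hV : srcVal S (srcsOf p R G (grpRecs gl) (grpRecs ge) ++ [(vertD p Q (tmass p R G (grpRecs gl) (grpRecs ge)), hv)])
      = gSum p.b p.P R (fun rc => hpack S rc.hs) gl + gSum p.b p.P G (fun rc => hpack S rc.hs) ge
        + vertD p Q (tmass p R G (grpRecs gl) (grpRecs ge)) * hpack S hv := by
    rw [gSum_eq h1, gSum_eq h2]
    unfold srcVal srcsOf
    simp [List.map_append, List.sum_append, Function.comp_def]
    ring
  unfold nextF nextSt
  rw [hT, hV]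
  by_cases hc : tmass p R G (grpRecs gl) (grpRecs ge) ≤ 3 * 2 ^ (p.P + Q)
  · rw [if_pos hc, Nat.ble_eq_true_of_le hc]
    rfl
  · have : Nat.ble (tmass p R G (grpRecs gl) (grpRecs ge)) (3 * 2 ^ (p.P + Q)) = false := by
      rw [← Bool.not_eq_true, Nat.ble_eq]
      exact hc
    rw [if_neg hc, this]
    rfl

/-- One level from grouped records. -/
def Phase.stepF (ph : Phase) (gl ge : List Grp) (st : ℕ) : ℕ :=
  nextF ph.T.par ph.T.S ph.T.Q gl ge ph.T.hv (ph.parent st).1 (ph.parent st).2

/-- Iteration of one level from grouped records. -/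
def iterF (ph : Phase) (gl ge : List Grp) : ℕ → ℕ → ℕ
  | 0, s => s
  | k + 1, s => iterF ph gl ge k (ph.stepF gl ge s)

theorem iterF_eq {ph : Phase} {gl ge : List Grp} (h1 : ph.T.lats = grpRecs gl) (h2 : ph.T.edges = grpRecs ge)
    (h3 : grpOK ph.T.par.b ph.T.par.P gl = true) (h4 : grpOK ph.T.par.b ph.T.par.P ge = true) (k s : ℕ) :
    iterF ph gl ge k s = iterSt ph k s := by
  induction k generalizing s with
  | zero => rfl
  | succ k ih =>
    unfold iterF iterSt
    rw [ih]
    congr 1
    unfold Phase.stepF Phase.step Phase.ofParent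
    rw [nextF_eq h3 h4, h1, h2]

theorem ofParent_eq {ph : Phase} {gl ge : List Grp} (h1 : ph.T.lats = grpRecs gl) (h2 : ph.T.edges = grpRecs ge)
    (h3 : grpOK ph.T.par.b ph.T.par.P gl = true) (h4 : grpOK ph.T.par.b ph.T.par.P ge = true) (R G : ℕ) :
    nextF ph.T.par ph.T.S ph.T.Q gl ge ph.T.hv R G = ph.ofParent (R, G) := by
  unfold Phase.ofParent
  rw [nextF_eq h3 h4, h1, h2]

theorem run_of_beqF {ph : Phase} {gl ge : List Grp} (h1 : ph.T.lats = grpRecs gl) (h2 : ph.T.edges = grpRecs ge)
    (h3 : grpOK ph.T.par.b ph.T.par.P gl = true) (h4 : grpOK ph.T.par.b ph.T.par.P ge = true) {k s s' : ℕ}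
    (h : Nat.beq (iterF ph gl ge k s) s' = true) : iterSt ph k s = s' := by
  rw [← iterF_eq h1 h2 h3 h4]
  exact Nat.eq_of_beq_eq_true h

theorem step_of_beqF {ph : Phase} {gl ge : List Grp} (h1 : ph.T.lats = grpRecs gl) (h2 : ph.T.edges = grpRecs ge)
    (h3 : grpOK ph.T.par.b ph.T.par.P gl = true) (h4 : grpOK ph.T.par.b ph.T.par.P ge = true) {s s' : ℕ}
    (h : Nat.beq (iterF ph gl ge 1 s) s' = true) : ph.step s = s' := by
  have := run_of_beqF h1 h2 h3 h4 h
  exact this

theorem start_of_beq {ph : Phase} {gl ge : List Grp} (h1 : ph.T.lats = grpRecs gl) (h2 : ph.T.edges = grpRecs ge)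
    (h3 : grpOK ph.T.par.b ph.T.par.P gl = true) (h4 : grpOK ph.T.par.b ph.T.par.P ge = true) {s' : ℕ}
    (h : Nat.beq (nextF ph.T.par ph.T.S ph.T.Q gl ge ph.T.hv 0 0) s' = true) : ph.ofParent (0, 0) = s' := by
  rw [← ofParent_eq h1 h2 h3 h4]
  exact Nat.eq_of_beq_eq_true h

end Vale.Agent.Lib.P154B
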