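import Vale.Agent.Lib.P154B.Fast

/-!
A leaner evaluation of the next state: the folds are written with the recursors and with the primitive operations of
the natural numbers, so that the kernel spends less time and memory on each record.
-/

noncomputable section

namespace Vale.Agent.Lib.P154B

/-- The packed hints of one record; `K = 2 ^ 40`, `S2 = 2 ^ S`. -/
def hpackR (K S2 : ℕ) (l : List ℕ) : ℕ :=
  List.rec 0 (fun h _ ih => Nat.add (Nat.mul (Nat.mod h K) (Nat.pow S2 (Nat.shiftRight h 43))) ih) l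

theorem hpackR_eq (S : ℕ) (l : List ℕ) : hpackR (2 ^ 40) (2 ^ S) l = hpack S l := by
  induction l with
  | nil => rfl
  | cons h l ih =>
    have e : hpackR (2 ^ 40) (2 ^ S) (h :: l) = h % 2 ^ 40 * (2 ^ S) ^ (h >>> 43) + hpackR (2 ^ 40) (2 ^ S) l := rfl
    rw [e, ih]
    simp [hpack, hB, hS]

/-- The sum over the records of a group, masses. -/
def rL (b M y o : ℕ) (l : List Rec) : ℕ :=
  List.rec 0 (fun rc _ ih => Rec.rec (fun t L _ =>
    Nat.add (Nat.mul (Nat.mod (Nat.shiftRight y (Nat.mul b (Nat.sub t o))) M) L) ih) rc) l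

/-- The sum over the records of a group, hints. -/
def rV (b M K S2 y o : ℕ) (l : List Rec) : ℕ :=
  List.rec 0 (fun rc _ ih => Rec.rec (fun t _ hs =>
    Nat.add (Nat.mul (Nat.mod (Nat.shiftRight y (Nat.mul b (Nat.sub t o))) M) (hpackR K S2 hs)) ih) rc) l

/-- The sum over all groups, masses. -/
def sL (b M x : ℕ) (gs : List Grp) : ℕ :=
  List.rec 0 (fun g _ ih => Prod.rec (fun o r => Prod.rec (fun w l =>
    Nat.add (rL b M (Nat.mod (Nat.shiftRight x (Nat.mul b o)) (Nat.pow 2 (Nat.mul b w))) o l) ih) r) g) gs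

/-- The sum over all groups, hints. -/
def sV (b M K S2 x : ℕ) (gs : List Grp) : ℕ :=
  List.rec 0 (fun g _ ih => Prod.rec (fun o r => Prod.rec (fun w l =>
    Nat.add (rV b M K S2 (Nat.mod (Nat.shiftRight x (Nat.mul b o)) (Nat.pow 2 (Nat.mul b w))) o l) ih) r) g) gs

theorem rL_eq (b P y o : ℕ) (l : List Rec) : rL b (2 ^ P) y o l = gSum1 b P y o (fun rc => rc.L) l := by
  induction l with
  | nil => rfl
  | cons rc l ih =>
    have e : rL b (2 ^ P) y o (rc :: l) = (y >>> (b * (rc.t - o))) % 2 ^ P * rc.L + rL b (2 ^ P) y o l := rfl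
    rw [e, ih]
    simp [gSum1]

theorem rV_eq (b P S y o : ℕ) (l : List Rec) :
    rV b (2 ^ P) (2 ^ 40) (2 ^ S) y o l = gSum1 b P y o (fun rc => hpack S rc.hs) l := by
  induction l with
  | nil => rfl
  | cons rc l ih =>
    have e : rV b (2 ^ P) (2 ^ 40) (2 ^ S) y o (rc :: l)
        = (y >>> (b * (rc.t - o))) % 2 ^ P * hpackR (2 ^ 40) (2 ^ S) rc.hs + rV b (2 ^ P) (2 ^ 40) (2 ^ S) y o l := rfl
    rw [e, ih, hpackR_eq]
    simp [gSum1]

theorem sL_eq (b P x : ℕ) (gs : List Grp) : sL b (2 ^ P) x gs = gSum b P x (fun rc => rc.L) gs := by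
  induction gs with
  | nil => rfl
  | cons g gs ih =>
    have e : sL b (2 ^ P) x (g :: gs)
        = rL b (2 ^ P) ((x >>> (b * g.1)) % 2 ^ (b * g.2.1)) g.1 g.2.2 + sL b (2 ^ P) x gs := rfl
    rw [e, ih, rL_eq]
    simp [gSum]

theorem sV_eq (b P S x : ℕ) (gs : List Grp) :
    sV b (2 ^ P) (2 ^ 40) (2 ^ S) x gs = gSum b P x (fun rc => hpack S rc.hs) gs := by
  induction gs with
  | nil => rfl
  | cons g gs ih =>
    have e : sV b (2 ^ P) (2 ^ 40) (2 ^ S) x (g :: gs)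
        = rV b (2 ^ P) (2 ^ 40) (2 ^ S) ((x >>> (b * g.1)) % 2 ^ (b * g.2.1)) g.1 g.2.2
          + sV b (2 ^ P) (2 ^ 40) (2 ^ S) x gs := rfl
    rw [e, ih, rV_eq]
    simp [gSum]

/-- The next state from its parts. -/
def nextAux (p : Par) (Q M K S2 : ℕ) (gl ge : List Grp) (hv : List ℕ) (R G T : ℕ) : ℕ :=
  Bool.rec 0
    (Nat.shiftRight (Nat.add (Nat.add (sV p.b M K S2 R gl) (sV p.b M K S2 G ge))
      (Nat.mul (Nat.div (Nat.sub (Nat.mul 3 (Nat.pow 2 (Nat.add p.P Q))) T) (Nat.pow 2 Q)) (hpackR K S2 hv))) Q)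
    (Nat.ble T (Nat.mul 3 (Nat.pow 2 (Nat.add p.P Q))))

/-- The next state. -/
def nextG (p : Par) (S Q : ℕ) (gl ge : List Grp) (hv : List ℕ) (R G : ℕ) : ℕ :=
  nextAux p Q (Nat.pow 2 p.P) (Nat.pow 2 40) (Nat.pow 2 S) gl ge hv R G
    (Nat.add (sL p.b (Nat.pow 2 p.P) R gl) (sL p.b (Nat.pow 2 p.P) G ge))

theorem nextG_eq (p : Par) (S Q : ℕ) (gl ge : List Grp) (hv : List ℕ) (R G : ℕ) :
    nextG p S Q gl ge hv R G = nextF p S Q gl ge hv R G := by
  have h1 : ∀ x gs, sL p.b (2 ^ p.P) x gs = gSum p.b p.P x (fun rc => rc.L) gs := fun x gs => sL_eq _ _ _ _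
  have h2 : ∀ x gs, sV p.b (2 ^ p.P) (2 ^ 40) (2 ^ S) x gs
      = gSum p.b p.P x (fun rc => hpack S rc.hs) gs := fun x gs => sV_eq _ _ _ _ _
  have h3 : hpackR (2 ^ 40) (2 ^ S) hv = hpack S hv := hpackR_eq _ _
  have h5 : ∀ a c : ℕ, Nat.div a c = a / c := fun _ _ => rfl
  unfold nextG nextF nextAux vertD
  simp only [h5, Nat.add_eq, Nat.mul_eq, Nat.sub_eq, Nat.pow_eq, Nat.shiftRight_eq]
  simp only [h1, h2, h3]
  cases Nat.ble (gSum p.b p.P R (fun rc => rc.L) gl + gSum p.b p.P G (fun rc => rc.L) ge) (3 * 2 ^ (p.P + Q)) <;> rfl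

/-- One level from grouped records. -/
def Phase.stepG (ph : Phase) (gl ge : List Grp) (st : ℕ) : ℕ :=
  nextG ph.T.par ph.T.S ph.T.Q gl ge ph.T.hv (ph.parent st).1 (ph.parent st).2

/-- Iteration of one level from grouped records. -/
def iterG (ph : Phase) (gl ge : List Grp) (k s : ℕ) : ℕ :=
  Nat.rec (motive := fun _ => ℕ → ℕ) (fun s => s) (fun _ ih s => ih (ph.stepG gl ge s)) k s

theorem iterG_eq (ph : Phase) (gl ge : List Grp) (k s : ℕ) : iterG ph gl ge k s = iterF ph gl ge k s := by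
  induction k generalizing s with
  | zero => rfl
  | succ k ih =>
    have e : iterG ph gl ge (k + 1) s = iterG ph gl ge k (ph.stepG gl ge s) := rfl
    rw [e, ih]
    have e2 : iterF ph gl ge (k + 1) s = iterF ph gl ge k (ph.stepF gl ge s) := rfl
    rw [e2]
    congr 1
    exact nextG_eq _ _ _ _ _ _ _ _

theorem run_of_beqG {ph : Phase} {gl ge : List Grp} (h1 : ph.T.lats = grpRecs gl) (h2 : ph.T.edges = grpRecs ge)
    (h3 : grpOK ph.T.par.b ph.T.par.P gl = true) (h4 : grpOK ph.T.par.b ph.T.par.P ge = true) {k s s' : ℕ}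
    (h : Nat.beq (iterG ph gl ge k s) s' = true) : iterSt ph k s = s' := by
  rw [iterG_eq] at h
  exact run_of_beqF h1 h2 h3 h4 h

theorem step_of_beqG {ph : Phase} {gl ge : List Grp} (h1 : ph.T.lats = grpRecs gl) (h2 : ph.T.edges = grpRecs ge)
    (h3 : grpOK ph.T.par.b ph.T.par.P gl = true) (h4 : grpOK ph.T.par.b ph.T.par.P ge = true) {s s' : ℕ}
    (h : Nat.beq (iterG ph gl ge 1 s) s' = true) : ph.step s = s' := by
  rw [iterG_eq] at h
  exact step_of_beqF h1 h2 h3 h4 h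

end Vale.Agent.Lib.P154B
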