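import Vale.Agent.Lib.P154B.Run

/-!
Exact reading of a last level for a test function which is a computable bound on rational vectors; the test of the
quantity `sumF`.
-/

noncomputable section

open Finset

namespace Vale.Agent.Lib.P154B

open Vale.Agent.Lib.P154

/-- Facts on the positions of a checked table. -/
theorem Tab.vecParts {T : Tab} (h : T.check = true) :
    (∀ rc ∈ T.lats, V T.Lp.ρ (T.par.nd rc.t)
        = vecOf (T.Lp.pw (tripOf T.par rc.t).1, T.Lp.pw (tripOf T.par rc.t).2.1, T.Lp.pw (tripOf T.par rc.t).2.2) (T.Lp.D : ℝ)) ∧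
    (∀ rc ∈ T.edges, VE T.Lp.ρ (T.par.nd rc.t)
        = vecOf (0, T.Lp.pw (tripOf T.par rc.t).2.1, T.Lp.pw (tripOf T.par rc.t).2.2) (T.Lp.D : ℝ)) := by
  have h' := h
  unfold Tab.check at h'
  simp only [Bool.and_eq_true, List.all_eq_true] at h'
  obtain ⟨⟨⟨⟨⟨⟨⟨⟨⟨⟨⟨⟨⟨⟨⟨⟨⟨⟨h1, h2⟩, h3⟩, h4⟩, h5⟩, h6⟩, h7⟩, h8⟩, h9⟩, h10⟩, h11⟩, h12⟩, h13⟩, h14⟩, h15⟩, h16⟩, h17⟩, h18⟩, h19⟩ := h'
  have hp1 := blt_sound h1
  have hp2 := blt_sound h2
  have hrW : T.Lp.r = T.par.W := Nat.eq_of_beq_eq_true h7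
  have hrZ := Nat.le_of_ble_eq_true h8
  have hpos : ∀ t, T.chkPos t = true → t % T.par.N ≤ T.Lp.Z + T.Lp.r ∧ t / T.par.N ≤ T.Lp.Z + T.Lp.r := by
    intro t hc
    unfold Tab.chkPos at hc
    simp only [Bool.and_eq_true] at hc
    obtain ⟨⟨⟨a, b⟩, c⟩, d⟩ := hc
    exact ⟨Nat.le_of_ble_eq_true c, Nat.le_of_ble_eq_true d⟩
  constructor
  · intro rc hrc
    have := h13 rc hrc
    unfold Tab.chkLat at this
    simp only [Bool.and_eq_true] at this
    obtain ⟨⟨⟨⟨⟨a, b⟩, c⟩, d⟩, e⟩, f⟩ := this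
    obtain ⟨a2, a3⟩ := hpos _ a
    have hb := Nat.le_of_ble_eq_true b
    have hc := Nat.le_of_ble_eq_true c
    obtain ⟨t0, t1, t2⟩ := tri_nd T.par rc.t hb
    rw [← hrW] at t0 t1 t2
    exact V_vecOf hp1 hp2 hrZ t0 t1 t2 hc a2 a3
  · intro rc hrc
    have := h14 rc hrc
    unfold Tab.chkEdge at this
    simp only [Bool.and_eq_true] at this
    obtain ⟨⟨⟨a, b⟩, c⟩, d⟩ := this
    obtain ⟨a2, a3⟩ := hpos _ a
    refine VE_vecOf hp1 hp2 hrZ ?_ ?_ a2 a3
    · rw [hrW]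
      rfl
    · rw [hrW]
      rfl

/-- A computable upper bound for a test function on rational vectors. -/
def TestBd (ψ : Vec → ℝ) (Q' : ℕ) (a : Trip → ℕ → ℕ) : Prop :=
  ∀ (X : Trip) (D : ℕ), 0 < D → ψ (vecOf X (D : ℝ)) ≤ -((a X D : ℕ) : ℝ) / 2 ^ Q'

/-- The weighted sum of the bounds on a parent level. -/
def Tab.testSum (T : Tab) (a : Trip → ℕ → ℕ) (R G : ℕ) : ℕ :=
  (T.lats.map fun rc => dig T.par.b T.par.P R rc.t
      * (orbCount (tripOf T.par rc.t).1 (tripOf T.par rc.t).2.1 (tripOf T.par rc.t).2.2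
        * a (T.Lp.pw (tripOf T.par rc.t).1, T.Lp.pw (tripOf T.par rc.t).2.1, T.Lp.pw (tripOf T.par rc.t).2.2) T.Lp.D)).sum
    + (T.edges.map fun rc => dig T.par.b T.par.P G rc.t
      * (3 * a (0, T.Lp.pw (tripOf T.par rc.t).2.1, T.Lp.pw (tripOf T.par rc.t).2.2) T.Lp.D)).sum

theorem list_sum_bound {α : Type*} (l : List α) (f : α → ℝ) (g : α → ℕ) (c : ℝ)
    (h : ∀ x ∈ l, f x ≤ -((g x : ℕ) : ℝ) * c) : (l.map f).sum ≤ -(((l.map g).sum : ℕ) : ℝ) * c := by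
  induction l with
  | nil => simp
  | cons a l ih =>
    have h1 := ih fun x hx => h x (List.mem_cons_of_mem _ hx)
    have h2 := h a (by simp)
    rw [List.map_cons, List.map_cons, List.sum_cons, List.sum_cons, Nat.cast_add]
    have e : -(((g a : ℕ) : ℝ) + (((l.map g).sum : ℕ) : ℝ)) * c = -((g a : ℕ) : ℝ) * c + -(((l.map g).sum : ℕ) : ℝ) * c := by ring
    rw [e]
    exact add_le_add h2 h1

theorem mul_bound (d o a : ℕ) (y : ℝ) (P Q' : ℕ) (h : y ≤ -(a : ℝ) / 2 ^ Q') :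
    ((d : ℝ) / 2 ^ P) * ((o : ℝ) * y) ≤ -((d * (o * a) : ℕ) : ℝ) * (1 / (2 ^ P * 2 ^ Q')) := by
  have h2 : (0 : ℝ) ≤ (d : ℝ) / 2 ^ P := by positivity
  have h3 : (0 : ℝ) ≤ (o : ℝ) := by positivity
  refine (mul_le_mul_of_nonneg_left (mul_le_mul_of_nonneg_left h h3) h2).trans (le_of_eq ?_)
  push_cast
  field_simp

/-- Bound of a test on the parent digits of a checked table. -/
theorem Tab.test_bound {T : Tab} (h : T.check = true) (hp : T.par.P ≤ T.par.b) {A : (Vec → ℝ) → ℝ} {R G : ℕ}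
    (hI : Inv T.par T.Lp.ρ A R G) {ψ : Vec → ℝ} (hψ : IsTest ψ) {Q' : ℕ} {a : Trip → ℕ → ℕ} (hb : TestBd ψ Q' a) :
    A ψ ≤ -((T.testSum a R G : ℕ) : ℝ) * (1 / (2 ^ T.par.P * 2 ^ Q')) := by
  obtain ⟨hp1, hp2, -, -, -, hR⟩ := Tab.readOK h
  obtain ⟨hl, he⟩ := Tab.vecParts h
  have hρ := Lt.rho_pos hp1 hp2
  have hD : 0 < T.Lp.D := by
    unfold Lt.D
    positivity
  have h0 := Inv.bound hρ hI hp hR.lat_box hR.lat_tri hR.lat_disj hR.edge_box hR.edge_pos hψ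
  refine h0.trans ?_
  unfold Tab.testSum
  rw [Nat.cast_add, neg_add, add_mul]
  refine add_le_add ?_ ?_
  · refine list_sum_bound T.lats _ _ _ fun rc hrc => ?_
    rw [hl rc hrc]
    exact mul_bound _ _ _ _ _ _ (hb _ _ hD)
  · refine list_sum_bound T.edges _ _ _ fun rc hrc => ?_
    rw [he rc hrc]
    exact_mod_cast mul_bound _ 3 _ _ _ _ (hb _ _ hD)

/-- The reading of a level after a state. -/
theorem Phase.test_bound {ph : Phase} (hc : ph.check = true) (hc2 : ph.chk2 = true) {A : ℕ → (Vec → ℝ) → ℝ} {μ : ℝ}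
    (hF : FunSeq A μ ph.T.par.P ph.qs) (hρ : 0 < ph.T.Lp.ρ) {n st : ℕ}
    (hB : StOK ph.T.Lp.ρ ph.T.par.r ph.T.par.P ph.S₀ ph.ks₀ st (chanF μ (A n))) {ψ : Vec → ℝ} (hψ : IsTest ψ) {Q' : ℕ}
    {a : Trip → ℕ → ℕ} (hb : TestBd ψ Q' a) :
    A (n + 1) ψ ≤ -((ph.T.testSum a (ph.parent st).1 (ph.parent st).2 : ℕ) : ℝ) * (1 / (2 ^ ph.T.par.P * 2 ^ Q')) := by
  have hI := (Phase.parent_inv hc (Phase.partner_of_stok hc hc2 hB hρ) hρ).mono (hF.step n)
  have hc' := hc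
  unfold Phase.check at hc'
  simp only [Bool.and_eq_true, List.all_eq_true] at hc'
  obtain ⟨⟨⟨⟨⟨⟨⟨h1, h2⟩, h3⟩, h4⟩, h5⟩, h6⟩, h7⟩, h8⟩ := hc'
  obtain ⟨hp, hb1, hPb⟩ := parOk_sound h2
  have hPle : ph.T.par.P ≤ ph.T.par.b := by omega
  exact Tab.test_bound h1 hPle hI hψ hb

/-! ### The test of `sumF` -/

/-- The function `F3` minus the coordinate sum. -/
def xTest (x : Vec) : ℝ := F3 (x 0) (x 1) (x 2) - Lin x

theorem titu {a b s t : ℝ} (hs : 0 < s) (ht : 0 < t) : (a + b) ^ 2 / (s + t) ≤ a ^ 2 / s + b ^ 2 / t := by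
  rw [div_add_div _ _ hs.ne' ht.ne', div_le_div_iff₀ (by positivity) (by positivity)]
  nlinarith [sq_nonneg (a * t - b * s), mul_pos hs ht, mul_pos hs hs, mul_pos ht ht]

theorem F3_sub {x y : Vec} (hx : NN x) (hy : NN y) :
    F3 ((x + y) 0) ((x + y) 1) ((x + y) 2) ≤ F3 (x 0) (x 1) (x 2) + F3 (y 0) (y 1) (y 2) := by
  unfold F3
  simp only [Pi.add_apply]
  have hs : 0 ≤ x 0 + x 1 + x 2 := hx.lin
  have ht : 0 ≤ y 0 + y 1 + y 2 := hy.lin
  rcases hs.eq_or_lt with hs0 | hs0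
  · have e0 : x 0 = 0 := by linarith [hx 0, hx 1, hx 2]
    have e1 : x 1 = 0 := by linarith [hx 0, hx 1, hx 2]
    have e2 : x 2 = 0 := by linarith [hx 0, hx 1, hx 2]
    simp [e0, e1, e2]
  rcases ht.eq_or_lt with ht0 | ht0
  · have e0 : y 0 = 0 := by linarith [hy 0, hy 1, hy 2]
    have e1 : y 1 = 0 := by linarith [hy 0, hy 1, hy 2]
    have e2 : y 2 = 0 := by linarith [hy 0, hy 1, hy 2]
    simp [e0, e1, e2]
  have e : x 0 + y 0 + (x 1 + y 1) + (x 2 + y 2) = (x 0 + x 1 + x 2) + (y 0 + y 1 + y 2) := by ring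
  rw [e, add_div, add_div, add_div (x 0 ^ 2 + x 1 ^ 2), add_div (x 0 ^ 2), add_div (y 0 ^ 2 + y 1 ^ 2), add_div (y 0 ^ 2)]
  have h0 := titu (a := x 0) (b := y 0) hs0 ht0
  have h1 := titu (a := x 1) (b := y 1) hs0 ht0
  have h2 := titu (a := x 2) (b := y 2) hs0 ht0
  linarith

theorem xTest_isTest : IsTest xTest where
  sub := fun x y hx hy => by
    unfold xTest
    have h1 := F3_sub hx hy
    have h2 : Lin (x + y) = Lin x + Lin y := by
      unfold Lin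
      simp only [Pi.add_apply]
      ring
    rw [h2]
    linarith
  hom := fun c x hc hx => by
    unfold xTest F3 Lin
    simp only [Pi.smul_apply, smul_eq_mul]
    rcases hc.eq_or_lt with rfl | hc0
    · simp
    rcases hx.lin.eq_or_lt with hs | hs
    · unfold Lin at hs
      have e : c * x 0 + c * x 1 + c * x 2 = 0 := by
        rw [← mul_add, ← mul_add, ← hs, mul_zero]
      rw [e, ← hs]
      simp
    unfold Lin at hs
    have e : c * x 0 + c * x 1 + c * x 2 = c * (x 0 + x 1 + x 2) := by ring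
    rw [e]
    field_simp
  perm := fun σ x hx => by
    unfold xTest
    rw [Lin_comp]
    congr 1
    unfold F3
    have e1 := Equiv.sum_comp σ x
    have e2 := Equiv.sum_comp σ fun i => x i ^ 2
    simp only [Fin.sum_univ_three] at e1 e2
    simp only [Function.comp]
    rw [e1, e2]
  vert := by
    have h2 : (![1, 0, 0] : Vec) 2 = 0 := rfl
    unfold xTest F3 Lin
    simp only [Matrix.cons_val_zero, Matrix.cons_val_one, h2]
    norm_num

theorem sumF_eq_test {ι : Type*} [Fintype ι] (l : ι → Fin 3 → ℝ) (h : SSig l) : sigFun l xTest = sumF l - 3 := by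
  unfold sigFun xTest sumF
  rw [Finset.sum_sub_distrib]
  congr 1
  exact sigFun_lin h

/-- The second symmetric function. -/
def e2T (X : Trip) : ℕ := X.1 * X.2.1 + X.1 * X.2.2 + X.2.1 * X.2.2

/-- The bound of the test on a rational vector, with `40` bits. -/
def xA (X : Trip) (D : ℕ) : ℕ := (2 * e2T X * 2 ^ 40) / (sumT X * D)

theorem xTest_bd : TestBd xTest 40 xA := by
  intro X D hD
  have hDR : (0 : ℝ) < D := by exact_mod_cast hD
  unfold xTest F3 Lin vecOf xA e2T sumT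
  simp only [Matrix.cons_val_zero, Matrix.cons_val_one, Matrix.cons_val]
  set a := X.1
  set b := X.2.1
  set c := X.2.2
  have hfl := Nat.div_mul_le_self (2 * (a * b + a * c + b * c) * 2 ^ 40) ((a + b + c) * D)
  set w := (2 * (a * b + a * c + b * c) * 2 ^ 40) / ((a + b + c) * D)
  have hfl' : (w : ℝ) * (((a : ℝ) + b + c) * D) ≤ 2 * ((a : ℝ) * b + a * c + b * c) * 2 ^ 40 := by
    exact_mod_cast hfl
  by_cases hs : a + b + c = 0
  · have hw : w = 0 := by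
      simp only [w]
      rw [hs]
      simp
    have ha : a = 0 := by omega
    have hb : b = 0 := by omega
    have hc : c = 0 := by omega
    rw [hw, ha, hb, hc]
    simp
  have hsR : (0 : ℝ) < (a : ℝ) + b + c := by
    have : 0 < a + b + c := Nat.pos_of_ne_zero hs
    exact_mod_cast this
  have e : ((a : ℝ) / D) + (b : ℝ) / D + (c : ℝ) / D = ((a : ℝ) + b + c) / D := by ring
  rw [e]
  have e2 : (((a : ℝ) / D) ^ 2 + ((b : ℝ) / D) ^ 2 + ((c : ℝ) / D) ^ 2) / (((a : ℝ) + b + c) / D) - ((a : ℝ) + b + c) / D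
      = -(2 * ((a : ℝ) * b + a * c + b * c)) / (((a : ℝ) + b + c) * D) := by
    field_simp
    ring
  rw [e2, div_le_div_iff₀ (by positivity) (by positivity)]
  nlinarith

end Vale.Agent.Lib.P154B
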