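import Vale.Agent.Lib.P154B.Test

/-!
Functionals on functions of nonnegative vectors: the abstract form of a symmetric signal, closed under
products, mixtures and the channel.
-/

noncomputable section

open Finset

namespace Vale.Agent.Lib.P154B

/-- Functions bounded by a multiple of the coordinate sum on nonnegative vectors. -/
def Adm (g : Vec → ℝ) : Prop := ∃ M : ℝ, 0 ≤ M ∧ ∀ x, NN x → |g x| ≤ M * Lin x

theorem Adm.add {g h : Vec → ℝ} (hg : Adm g) (hh : Adm h) : Adm fun x => g x + h x := by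
  obtain ⟨M, hM, h1⟩ := hg
  obtain ⟨M', hM', h2⟩ := hh
  refine ⟨M + M', add_nonneg hM hM', fun x hx => ?_⟩
  have := abs_add_le (g x) (h x)
  have h3 := h1 x hx
  have h4 := h2 x hx
  nlinarith

theorem Adm.const_mul {g : Vec → ℝ} (hg : Adm g) (c : ℝ) : Adm fun x => c * g x := by
  obtain ⟨M, hM, h1⟩ := hg
  refine ⟨|c| * M, mul_nonneg (abs_nonneg c) hM, fun x hx => ?_⟩
  rw [abs_mul, mul_assoc]
  exact mul_le_mul_of_nonneg_left (h1 x hx) (abs_nonneg c)

theorem Adm.zero : Adm fun _ => 0 := ⟨0, le_rfl, fun x _ => by simp⟩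

theorem adm_lin : Adm Lin := ⟨1, zero_le_one, fun x hx => by
  rw [one_mul, abs_of_nonneg hx.lin]⟩

theorem Lin_comp (x : Vec) (σ : Equiv.Perm (Fin 3)) : Lin (x ∘ σ) = Lin x := by
  unfold Lin
  have e := Equiv.sum_comp σ x
  simp only [Fin.sum_univ_three] at e
  exact e

theorem Adm.comp_perm {g : Vec → ℝ} (hg : Adm g) (σ : Equiv.Perm (Fin 3)) : Adm fun x => g (x ∘ σ) := by
  obtain ⟨M, hM, h1⟩ := hg
  refine ⟨M, hM, fun x hx => ?_⟩
  have := h1 _ (hx.comp σ)
  rwa [Lin_comp] at this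

theorem Adm.sum {κ : Type*} (s : Finset κ) {g : κ → Vec → ℝ} (hg : ∀ j ∈ s, Adm (g j)) :
    Adm fun x => ∑ j ∈ s, g j x := by
  classical
  induction s using Finset.induction_on with
  | empty => simpa using Adm.zero
  | insert a s ha ih =>
    simp only [Finset.sum_insert ha]
    exact (hg a (Finset.mem_insert_self a s)).add (ih fun j hj => hg j (Finset.mem_insert_of_mem hj))

theorem IsTest.adm {ψ : Vec → ℝ} (h : IsTest ψ) : Adm ψ :=
  ⟨|ψ ![1, 1, 1]| / 3, by positivity, fun _ hx => h.abs_le hx⟩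

/-- Symmetric positive linear functionals. -/
structure IsFun (A : (Vec → ℝ) → ℝ) : Prop where
  add : ∀ g h, Adm g → Adm h → A (fun x => g x + h x) = A g + A h
  smul : ∀ (c : ℝ) g, Adm g → A (fun x => c * g x) = c * A g
  mono : ∀ g h, Adm g → Adm h → (∀ x, NN x → g x ≤ h x) → A g ≤ A h
  sym : ∀ (σ : Equiv.Perm (Fin 3)) g, Adm g → A (fun x => g (x ∘ σ)) = A g

section isFun
variable {A : (Vec → ℝ) → ℝ} (hA : IsFun A)
include hA

theorem IsFun.congr {g h : Vec → ℝ} (hg : Adm g) (hh : Adm h) (e : ∀ x, NN x → g x = h x) : A g = A h :=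
  le_antisymm (hA.mono g h hg hh fun x hx => (e x hx).le) (hA.mono h g hh hg fun x hx => (e x hx).ge)

theorem IsFun.zero : A (fun _ => 0) = 0 := by
  have := hA.smul 0 _ Adm.zero
  simpa using this

theorem IsFun.lin_nonneg : 0 ≤ A Lin := by
  have := hA.mono _ _ Adm.zero adm_lin fun x hx => hx.lin
  rwa [hA.zero] at this

theorem IsFun.sum {κ : Type*} (s : Finset κ) {g : κ → Vec → ℝ} (hg : ∀ j ∈ s, Adm (g j)) :
    A (fun x => ∑ j ∈ s, g j x) = ∑ j ∈ s, A (g j) := by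
  classical
  induction s using Finset.induction_on with
  | empty => simpa using hA.zero
  | insert a s ha ih =>
    simp only [Finset.sum_insert ha]
    rw [hA.add _ _ (hg a (Finset.mem_insert_self a s))
      (Adm.sum s fun j hj => hg j (Finset.mem_insert_of_mem hj)),
      ih fun j hj => hg j (Finset.mem_insert_of_mem hj)]

theorem IsFun.abs_le {g : Vec → ℝ} (hg : Adm g) {M : ℝ} (hM : ∀ x, NN x → |g x| ≤ M * Lin x) :
    |A g| ≤ M * A Lin := by
  have h1 := hA.mono g (fun x => M * Lin x) hg (adm_lin.const_mul M) fun x hx => (le_abs_self _).trans (hM x hx)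
  have h2 := hA.mono (fun x => (-M) * Lin x) g (adm_lin.const_mul (-M)) hg fun x hx => by
    have := neg_abs_le (g x)
    have h3 := hM x hx
    linarith
  rw [hA.smul _ _ adm_lin] at h1 h2
  rw [_root_.abs_le]
  constructor <;> linarith

/-- A functional applied to a symmetrization. -/
theorem IsFun.avg_sym {g : Vec → ℝ} (hg : Adm g) : A (fun y => avg fun π => g (y ∘ π)) = A g := by
  unfold avg
  rw [hA.smul _ _ (Adm.sum _ fun π _ => hg.comp_perm π), hA.sum _ fun π _ => hg.comp_perm π]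
  simp only [hA.sym _ g hg]
  rw [Finset.sum_const, card_perm3]
  simp

end isFun

/-! ### Products -/

/-- The product of two functionals. -/
def tens (A B : (Vec → ℝ) → ℝ) : (Vec → ℝ) → ℝ := fun g => A fun x => B fun y => g (x * y)

theorem Lin_mul_le {x y : Vec} (hx : NN x) (hy : NN y) : Lin (x * y) ≤ Lin x * Lin y := by
  unfold Lin
  simp only [Pi.mul_apply]
  nlinarith [mul_nonneg (hx 0) (hy 0), mul_nonneg (hx 0) (hy 1), mul_nonneg (hx 0) (hy 2),
    mul_nonneg (hx 1) (hy 0), mul_nonneg (hx 1) (hy 1), mul_nonneg (hx 1) (hy 2),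
    mul_nonneg (hx 2) (hy 0), mul_nonneg (hx 2) (hy 1), mul_nonneg (hx 2) (hy 2)]

theorem Adm.inner {g : Vec → ℝ} (hg : Adm g) {x : Vec} (hx : NN x) : Adm fun y => g (x * y) := by
  obtain ⟨M, hM, h1⟩ := hg
  refine ⟨M * Lin x, mul_nonneg hM hx.lin, fun y hy => ?_⟩
  have := h1 _ (hx.mul hy)
  have h2 := Lin_mul_le hx hy
  calc |g (x * y)| ≤ M * Lin (x * y) := this
    _ ≤ M * (Lin x * Lin y) := mul_le_mul_of_nonneg_left h2 hM
    _ = _ := by ring

theorem Adm.outer {B : (Vec → ℝ) → ℝ} (hB : IsFun B) {g : Vec → ℝ} (hg : Adm g) :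
    Adm fun x => B fun y => g (x * y) := by
  obtain ⟨M, hM, h1⟩ := id hg
  refine ⟨M * B Lin, mul_nonneg hM hB.lin_nonneg, fun x hx => ?_⟩
  have := hB.abs_le (hg.inner hx) (M := M * Lin x) fun y hy => by
    have h3 := h1 _ (hx.mul hy)
    have h2 := Lin_mul_le hx hy
    calc |g (x * y)| ≤ M * Lin (x * y) := h3
      _ ≤ M * (Lin x * Lin y) := mul_le_mul_of_nonneg_left h2 hM
      _ = _ := by ring
  calc _ ≤ _ := this
    _ = _ := by ring

theorem mul_comp (x y : Vec) (σ : Equiv.Perm (Fin 3)) : (x * y) ∘ σ = (x ∘ σ) * (y ∘ σ) := rfl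

theorem IsFun.tens {A B : (Vec → ℝ) → ℝ} (hA : IsFun A) (hB : IsFun B) : IsFun (tens A B) where
  add := fun g h hg hh => by
    unfold P154B.tens
    rw [← hA.add _ _ (hg.outer hB) (hh.outer hB)]
    refine hA.congr ((hg.add hh).outer hB) ((hg.outer hB).add (hh.outer hB)) fun x hx => ?_
    exact hB.add _ _ (hg.inner hx) (hh.inner hx)
  smul := fun c g hg => by
    unfold P154B.tens
    rw [← hA.smul _ _ (hg.outer hB)]
    refine hA.congr ((hg.const_mul c).outer hB) ((hg.outer hB).const_mul c) fun x hx => ?_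
    exact hB.smul _ _ (hg.inner hx)
  mono := fun g h hg hh hgh => by
    unfold P154B.tens
    refine hA.mono _ _ (hg.outer hB) (hh.outer hB) fun x hx => ?_
    exact hB.mono _ _ (hg.inner hx) (hh.inner hx) fun y hy => hgh _ (hx.mul hy)
  sym := fun σ g hg => by
    unfold P154B.tens
    rw [← hA.sym σ _ (hg.outer hB)]
    refine hA.congr ((hg.comp_perm σ).outer hB) ((hg.outer hB).comp_perm σ) fun x hx => ?_
    have h1 := hB.sym σ _ (hg.inner (hx.comp σ))
    rw [← h1]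
    rfl

/-! ### Sums and the unit -/

theorem IsFun.addF {A B : (Vec → ℝ) → ℝ} (hA : IsFun A) (hB : IsFun B) : IsFun fun g => A g + B g where
  add := fun g h hg hh => by
    rw [hA.add _ _ hg hh, hB.add _ _ hg hh]
    ring
  smul := fun c g hg => by
    rw [hA.smul _ _ hg, hB.smul _ _ hg]
    ring
  mono := fun g h hg hh hgh => add_le_add (hA.mono _ _ hg hh hgh) (hB.mono _ _ hg hh hgh)
  sym := fun σ g hg => by rw [hA.sym _ _ hg, hB.sym _ _ hg]

/-- The atom at the centre with a weight. -/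
def unitF (c : ℝ) : (Vec → ℝ) → ℝ := fun g => c * g ![1, 1, 1]

theorem nn_one : NN (![1, 1, 1] : Vec) := by
  intro i
  fin_cases i <;> simp

theorem isFun_unitF {c : ℝ} (hc : 0 ≤ c) : IsFun (unitF c) where
  add := fun g h _ _ => by
    unfold unitF
    ring
  smul := fun a g _ => by
    unfold unitF
    ring
  mono := fun g h _ _ hgh => mul_le_mul_of_nonneg_left (hgh _ nn_one) hc
  sym := fun σ g _ => by
    unfold unitF
    have : (![1, 1, 1] : Vec) ∘ σ = ![1, 1, 1] := by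
      funext i
      have h : ∀ j : Fin 3, (![1, 1, 1] : Vec) j = 1 := by
        intro j
        fin_cases j <;> simp
      simp [h]
    change c * g ((![1, 1, 1] : Vec) ∘ σ) = _
    rw [this]

theorem isFun_zero : IsFun fun _ => 0 where
  add := fun _ _ _ _ => by simp
  smul := fun _ _ _ => by simp
  mono := fun _ _ _ _ _ => le_rfl
  sym := fun _ _ _ => rfl

/-! ### The channel -/

/-- The channel map. -/
def Lμ (μ : ℝ) (x : Vec) : Vec := fun i => -μ * x i + (1 + μ) / 3 * Lin x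

theorem Lin_Lμ (μ : ℝ) (x : Vec) : Lin (Lμ μ x) = Lin x := by
  unfold Lin Lμ
  unfold Lin
  ring

theorem NN_Lμ {μ : ℝ} (h0 : 0 ≤ μ) (h1 : μ ≤ 1 / 2) {x : Vec} (hx : NN x) : NN (Lμ μ x) := by
  intro i
  unfold Lμ Lin
  have h00 := hx 0
  have h01 := hx 1
  have h02 := hx 2
  fin_cases i <;> simp <;> nlinarith [mul_nonneg h0 h00, mul_nonneg h0 h01, mul_nonneg h0 h02,
    mul_nonneg (sub_nonneg.2 h1) h00, mul_nonneg (sub_nonneg.2 h1) h01, mul_nonneg (sub_nonneg.2 h1) h02]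

theorem Lμ_comp (μ : ℝ) (x : Vec) (σ : Equiv.Perm (Fin 3)) : Lμ μ (x ∘ σ) = (Lμ μ x) ∘ σ := by
  funext i
  simp only [Lμ, Lin_comp, Function.comp]

theorem Lμ_add (μ : ℝ) (x y : Vec) : Lμ μ (x + y) = Lμ μ x + Lμ μ y := by
  funext i
  simp only [Lμ, Lin, Pi.add_apply]
  ring

theorem Lμ_smul (μ c : ℝ) (x : Vec) : Lμ μ (c • x) = c • Lμ μ x := by
  funext i
  simp only [Lμ, Lin, Pi.smul_apply, smul_eq_mul]
  ring

/-- The functional of the channel output. -/
def chanF (μ : ℝ) (A : (Vec → ℝ) → ℝ) : (Vec → ℝ) → ℝ := fun g => A fun x => g (Lμ μ x)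

theorem Adm.comp_L {g : Vec → ℝ} (hg : Adm g) {μ : ℝ} (h0 : 0 ≤ μ) (h1 : μ ≤ 1 / 2) :
    Adm fun x => g (Lμ μ x) := by
  obtain ⟨M, hM, h2⟩ := hg
  refine ⟨M, hM, fun x hx => ?_⟩
  have := h2 _ (NN_Lμ h0 h1 hx)
  rwa [Lin_Lμ] at this

theorem IsFun.chanF {A : (Vec → ℝ) → ℝ} (hA : IsFun A) {μ : ℝ} (h0 : 0 ≤ μ) (h1 : μ ≤ 1 / 2) :
    IsFun (chanF μ A) where
  add := fun g h hg hh => hA.add _ _ (hg.comp_L h0 h1) (hh.comp_L h0 h1)
  smul := fun c g hg => hA.smul _ _ (hg.comp_L h0 h1)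
  mono := fun g h hg hh hgh =>
    hA.mono _ _ (hg.comp_L h0 h1) (hh.comp_L h0 h1) fun x hx => hgh _ (NN_Lμ h0 h1 hx)
  sym := fun σ g hg => by
    unfold P154B.chanF
    rw [← hA.sym σ _ (hg.comp_L h0 h1)]
    refine congrArg A ?_
    funext x
    rw [Lμ_comp]

/-- The vertex image. -/
def Le0 (μ : ℝ) : Vec := Lμ μ ![1, 0, 0]

/-- The channel test. -/
def chanTest (μ : ℝ) (ψ : Vec → ℝ) : Vec → ℝ := fun x => ψ (Lμ μ x) - Lin x * ψ (Le0 μ)

theorem chanTest_isTest {ψ : Vec → ℝ} (h : IsTest ψ) {μ : ℝ} (h0 : 0 ≤ μ) (h1 : μ ≤ 1 / 2) :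
    IsTest (chanTest μ ψ) where
  sub := fun x y hx hy => by
    unfold chanTest
    rw [Lμ_add]
    have := h.sub _ _ (NN_Lμ h0 h1 hx) (NN_Lμ h0 h1 hy)
    have e : Lin (x + y) = Lin x + Lin y := by
      unfold Lin
      simp only [Pi.add_apply]
      ring
    rw [e]
    nlinarith
  hom := fun c x hc hx => by
    unfold chanTest
    rw [Lμ_smul, h.hom _ _ hc (NN_Lμ h0 h1 hx)]
    have e : Lin (c • x) = c * Lin x := by
      unfold Lin
      simp only [Pi.smul_apply, smul_eq_mul]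
      ring
    rw [e]
    ring
  perm := fun σ x hx => by
    unfold chanTest
    rw [Lμ_comp, h.perm σ _ (NN_Lμ h0 h1 hx), Lin_comp]
  vert := by
    unfold chanTest Le0
    have : Lin (![1, 0, 0] : Vec) = 1 := by
      unfold Lin
      simp
    rw [this]
    ring

/-- Monotonicity in the channel strength. -/
theorem IsTest.L_mono {ψ : Vec → ℝ} (h : IsTest ψ) {μ μ' : ℝ} (h0 : 0 ≤ μ) (hμ : μ ≤ μ') (h1 : μ' ≤ 1 / 2)
    {x : Vec} (hx : NN x) : ψ (Lμ μ x) ≤ ψ (Lμ μ' x) := by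
  rcases eq_or_lt_of_le (h0.trans hμ) with h2 | h2
  · have : μ = μ' := le_antisymm hμ (h2 ▸ h0)
    rw [this]
  have h3 : 0 ≤ μ / μ' := by positivity
  have h4 : μ / μ' ≤ 1 := by
    rw [div_le_one h2]
    exact hμ
  set t := μ / μ' with ht
  have hn := NN_Lμ (h0.trans hμ) h1 hx
  have e : Lμ μ x = t • Lμ μ' x + ((1 - t) * (Lin x / 3)) • (![1, 1, 1] : Vec) := by
    have hm : μ = t * μ' := by
      rw [ht]
      field_simp
    funext i
    have h5 : ∀ j : Fin 3, (![1, 1, 1] : Vec) j = 1 := by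
      intro j
      fin_cases j <;> simp
    simp only [Lμ, Pi.add_apply, Pi.smul_apply, smul_eq_mul, h5]
    rw [hm]
    ring
  have h6 : 0 ≤ (1 - t) * (Lin x / 3) := mul_nonneg (by linarith) (by have := hx.lin; positivity)
  rw [e]
  refine (h.sub _ _ (hn.smul h3) (nn_one.smul h6)).trans ?_
  rw [h.hom _ _ h3 hn, h.hom _ _ h6 nn_one]
  have h7 := h.center_le hn
  rw [Lin_Lμ] at h7
  have h8 := mul_le_mul_of_nonneg_left h7 (sub_nonneg.2 h4)
  nlinarith

end Vale.Agent.Lib.P154B
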