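import Vale.Agent.Lib.P154B.Child

/-!
The Horner recursion for the parent polynomial on big numbers, and the mask as a closed formula.
-/

noncomputable section

open Finset

namespace Vale.Agent.Lib.P154B

/-- A geometric sum of powers of two as a closed formula. -/
def geom (c m : ℕ) : ℕ := (2 ^ (c * m) - 1) / (2 ^ c - 1)

theorem geom_eq {c : ℕ} (hc : 1 ≤ c) (m : ℕ) : geom c m = ∑ k ∈ range m, (2 ^ c) ^ k := by
  have h2 : 2 ≤ 2 ^ c := by
    calc 2 = 2 ^ 1 := by norm_num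
      _ ≤ 2 ^ c := Nat.pow_le_pow_right (by norm_num) hc
  rw [Nat.geomSum_eq h2 m, geom, pow_mul]

/-- The mask of the box. -/
def maskNum (p : Par) : ℕ := (2 ^ p.P - 1) * (geom p.b p.m * geom (p.b * p.N) p.m)

theorem sum_box (p : Par) (hm : p.m < p.N) (g : ℕ → ℕ) :
    ∑ t ∈ p.boxS, g t = ∑ i ∈ range p.m, ∑ j ∈ range p.m, g (i + p.N * j) := by
  rw [← Finset.sum_product']
  symm
  refine Finset.sum_bij' (fun x _ => x.1 + p.N * x.2) (fun t _ => (t % p.N, t / p.N)) ?_ ?_ ?_ ?_ ?_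
  · intro x hx
    obtain ⟨h1, h2⟩ := Finset.mem_product.1 hx
    have h1' := Finset.mem_range.1 h1
    have h2' := Finset.mem_range.1 h2
    unfold Par.boxS Par.tot
    refine Finset.mem_filter.2 ⟨Finset.mem_range.2 ?_, ?_⟩
    · have : p.N * (x.2 + 1) ≤ p.N * p.m := Nat.mul_le_mul_left _ h2'
      rw [Nat.mul_succ] at this
      omega
    · rw [Nat.add_mul_mod_self_left, Nat.mod_eq_of_lt (by omega)]
      exact h1'
  · intro t ht
    obtain ⟨h1, h2⟩ := Finset.mem_filter.1 ht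
    have h1' := Finset.mem_range.1 h1
    unfold Par.tot at h1'
    refine Finset.mem_product.2 ⟨Finset.mem_range.2 h2, Finset.mem_range.2 ?_⟩
    exact Nat.div_lt_of_lt_mul h1'
  · intro x hx
    obtain ⟨h1, h2⟩ := Finset.mem_product.1 hx
    have h1' := Finset.mem_range.1 h1
    ext
    · simp only
      rw [Nat.add_mul_mod_self_left, Nat.mod_eq_of_lt (by omega)]
    · simp only
      rw [Nat.add_mul_div_left _ _ (by omega), Nat.div_eq_of_lt (by omega), zero_add]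
  · intro t _
    exact Nat.mod_add_div t p.N
  · intro x _
    rfl

theorem maskNum_eq (p : Par) (hm : p.m < p.N) (hb : 1 ≤ p.b) : maskNum p = mask p.b p.P p.boxS := by
  unfold maskNum mask
  rw [sum_box p hm, geom_eq hb, geom_eq (by
    have : 1 ≤ p.N := by omega
    exact Nat.mul_pos hb this), Finset.sum_mul_sum, Finset.mul_sum]
  refine Finset.sum_congr rfl fun i _ => ?_
  rw [Finset.mul_sum]
  refine Finset.sum_congr rfl fun j _ => ?_
  rw [pow_mul, pow_add, pow_mul]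

/-- Horner recursion on numbers. -/
def hornerNat (p : Par) (M C γ : ℕ) : List ℕ → ℕ × ℕ
  | [] => (0, 0)
  | q :: qs =>
    let rg := hornerNat p M C γ qs
    (fStep p M C q rg.1, gStep p M C γ rg.1 rg.2)

/-- The corresponding functional. -/
def hornerFn (B : (Vec → ℝ) → ℝ) (P : ℕ) : List ℕ → (Vec → ℝ) → ℝ
  | [] => fun _ => 0
  | q :: qs => fun ψ => unitF ((q : ℝ) / 2 ^ P) ψ + tens (hornerFn B P qs) B ψ

theorem hornerFn_isFun {B : (Vec → ℝ) → ℝ} (hB : IsFun B) (P : ℕ) : ∀ qs, IsFun (hornerFn B P qs)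
  | [] => isFun_zero
  | q :: qs => (isFun_unitF (by positivity)).addF ((hornerFn_isFun hB P qs).tens hB)

theorem Inv.zero (p : Par) (ρ : ℝ) : Inv p ρ (fun _ => 0) 0 0 :=
  ⟨⟨fun _ => 0, fun _ => 0, 0, 0, by simp, by simp, fun _ => by positivity, fun _ => by positivity,
    fun _ _ => rfl, fun _ _ => rfl, fun _ _ => by simp, fun _ _ => by simp, fun _ => le_rfl, fun _ => le_rfl,
    fun _ _ => by simp, Dom.zero⟩⟩

theorem horner_inv {p : Par} (hp : p.Ok) {ρ : ℝ} (hρ : 0 < ρ) {as : List (ℕ × ℕ)} {γ : ℕ} {B : (Vec → ℝ) → ℝ}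
    (hB : Partner p ρ B as γ) (hb : (as.length + 2) * (2 ^ p.P * 2 ^ p.P) < 2 ^ p.b) (hPb : p.P + p.P ≤ p.b) :
    ∀ qs : List ℕ, (∀ q ∈ qs, q ≤ 2 ^ p.P) →
      Inv p ρ (hornerFn B p.P qs) (hornerNat p (mask p.b p.P p.boxS) (atomVal (2 ^ p.b) as) γ qs).1
        (hornerNat p (mask p.b p.P p.boxS) (atomVal (2 ^ p.b) as) γ qs).2
  | [], _ => Inv.zero p ρ
  | q :: qs, h => by
    have ih := horner_inv hp hρ hB hb hPb qs fun q' h' => h q' (List.mem_cons_of_mem _ h')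
    exact ih.step hp hρ (hornerFn_isFun hB.isFun _ _) hB (h q (by simp)) hb hPb

theorem Inv.mono {p : Par} {ρ : ℝ} {A A' : (Vec → ℝ) → ℝ} {R G : ℕ} (h : Inv p ρ A' R G) (hA : ∀ ψ, IsTest ψ → A ψ ≤ A' ψ) :
    Inv p ρ A R G := by
  obtain ⟨rr, gg, f, g, h1, h2, h3, h4, h5, h6, h7, h8, h9, h10, h11, h12⟩ := h.ex
  exact ⟨⟨rr, gg, f, g, h1, h2, h3, h4, h5, h6, h7, h8, h9, h10, h11, fun ψ hψ => (hA ψ hψ).trans (h12 ψ hψ)⟩⟩

end Vale.Agent.Lib.P154B
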