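import Vale.Agent.Lib.P154B.Fun

/-!
The log-lattice: atoms `V n = (ρ ^ n₀, ρ ^ n₁, ρ ^ n₂)` with `n₀ + n₁ + n₂ = 0`, the edge atoms with a zero
first coordinate, measures on the lattice, their convolution and the product rule for domination.
-/

noncomputable section

open Finset

namespace Vale.Agent.Lib.P154B

/-- Lattice nodes. -/
abbrev Node := ℤ × ℤ

/-- The three exponents of a node. -/
def tri (n : Node) : Fin 3 → ℤ := ![-n.1 - n.2, n.1, n.2]

theorem tri_sum (n : Node) : tri n 0 + tri n 1 + tri n 2 = 0 := by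
  simp [tri]
  ring

/-- The action of a permutation on nodes. -/
def act (σ : Equiv.Perm (Fin 3)) (n : Node) : Node := (tri n (σ 1), tri n (σ 2))

theorem tri_perm_sum (σ : Equiv.Perm (Fin 3)) (n : Node) : tri n (σ 0) + tri n (σ 1) + tri n (σ 2) = 0 := by
  have e := Equiv.sum_comp σ (tri n)
  simp only [Fin.sum_univ_three] at e
  rw [e, tri_sum]

theorem tri_act (σ : Equiv.Perm (Fin 3)) (n : Node) (i : Fin 3) : tri (act σ n) i = tri n (σ i) := by
  have h := tri_perm_sum σ n
  have h0 : tri (act σ n) 0 = tri n (σ 0) := by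
    change - tri n (σ 1) - tri n (σ 2) = tri n (σ 0)
    linarith
  have h1 : tri (act σ n) 1 = tri n (σ 1) := rfl
  have h2 : tri (act σ n) 2 = tri n (σ 2) := rfl
  fin_cases i
  · exact h0
  · exact h1
  · exact h2

theorem act_one (n : Node) : act 1 n = n := by
  simp [act, tri]

theorem act_act (σ τ : Equiv.Perm (Fin 3)) (n : Node) : act σ (act τ n) = act (τ * σ) n := by
  change (tri (act τ n) (σ 1), tri (act τ n) (σ 2)) = (tri n ((τ * σ) 1), tri n ((τ * σ) 2))
  rw [tri_act, tri_act]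
  rfl

theorem act_inv (σ : Equiv.Perm (Fin 3)) (n : Node) : act σ (act σ⁻¹ n) = n := by
  rw [act_act]
  simp [act_one]

theorem act_inv' (σ : Equiv.Perm (Fin 3)) (n : Node) : act σ⁻¹ (act σ n) = n := by
  rw [act_act]
  simp [act_one]

theorem tri_add (a b : Node) (i : Fin 3) : tri (a + b) i = tri a i + tri b i := by
  fin_cases i <;> simp [tri] <;> ring

theorem tri_sub (a b : Node) (i : Fin 3) : tri (a - b) i = tri a i - tri b i := by
  fin_cases i <;> simp [tri] <;> ring

theorem act_add (σ : Equiv.Perm (Fin 3)) (a b : Node) : act σ (a + b) = act σ a + act σ b := by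
  simp [act, tri_add]

theorem act_sub (σ : Equiv.Perm (Fin 3)) (a b : Node) : act σ (a - b) = act σ a - act σ b := by
  simp [act, tri_sub]

/-- The bijection of nodes defined by a permutation. -/
def actEquiv (σ : Equiv.Perm (Fin 3)) : Node ≃ Node where
  toFun := act σ
  invFun := act σ⁻¹
  left_inv := act_inv' σ
  right_inv := act_inv σ

/-- The lattice atoms. -/
def V (ρ : ℝ) (n : Node) : Vec := fun i => ρ ^ tri n i

/-- The edge atoms. -/
def VE (ρ : ℝ) (n : Node) : Vec := ![0, ρ ^ n.1, ρ ^ n.2]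

/-- The edge atom at the origin. -/
def E0 : Vec := ![0, 1, 1]

theorem VE_zero (ρ : ℝ) : VE ρ 0 = E0 := by
  funext i
  fin_cases i <;> simp [VE, E0]

section rho
variable {ρ : ℝ} (hρ : 0 < ρ)
include hρ

theorem V_nn (n : Node) : NN (V ρ n) := fun i => (zpow_pos hρ _).le

theorem VE_nn (n : Node) : NN (VE ρ n) := by
  intro i
  fin_cases i
  · simp [VE]
  · exact (zpow_pos hρ _).le
  · exact (zpow_pos hρ _).le

theorem V_add (a b : Node) : V ρ (a + b) = V ρ a * V ρ b := by
  funext i
  simp only [V, Pi.mul_apply, tri_add]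
  exact zpow_add₀ hρ.ne' _ _

theorem V_mul_E0 (a : Node) : V ρ a * E0 = VE ρ a := by
  funext i
  fin_cases i <;> simp [V, E0, VE, tri]

theorem VE_mul_V (a b : Node) : VE ρ a * V ρ b = VE ρ (a + b) := by
  funext i
  fin_cases i
  · simp [V, VE, tri]
  · simp [V, VE, tri]
    exact (zpow_add₀ hρ.ne' _ _).symm
  · simp [V, VE, tri]
    exact (zpow_add₀ hρ.ne' _ _).symm

end rho

theorem V_act (ρ : ℝ) (σ : Equiv.Perm (Fin 3)) (n : Node) : V ρ (act σ n) = V ρ n ∘ σ := by
  funext i
  simp only [V, tri_act, Function.comp]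

theorem V_zero (ρ : ℝ) : V ρ 0 = ![1, 1, 1] := by
  funext i
  fin_cases i <;> simp [V, tri]

theorem E0_nn : NN E0 := by
  intro i
  fin_cases i <;> simp [E0]

/-! ### Measures -/

/-- Integration of a function against a finitely supported weight. -/
def evalF (u : Node → ℝ) (f : Node →₀ ℝ) : ℝ := f.sum fun n c => c * u n

theorem evalF_add (u : Node → ℝ) (f g : Node →₀ ℝ) : evalF u (f + g) = evalF u f + evalF u g := by
  unfold evalF
  refine Finsupp.sum_add_index' (fun a => by simp) (fun a b c => by ring)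

theorem evalF_single (u : Node → ℝ) (n : Node) (c : ℝ) : evalF u (Finsupp.single n c) = c * u n := by
  unfold evalF
  exact Finsupp.sum_single_index (by simp)

theorem evalF_smul (u : Node → ℝ) (c : ℝ) (f : Node →₀ ℝ) : evalF u (c • f) = c * evalF u f := by
  unfold evalF
  rw [Finsupp.sum_smul_index (fun i => by simp), Finsupp.mul_sum]
  refine Finsupp.sum_congr fun n _ => by ring

theorem evalF_zero (u : Node → ℝ) : evalF u 0 = 0 := by
  unfold evalF
  simp

theorem evalF_fadd (u v : Node → ℝ) (f : Node →₀ ℝ) :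
    evalF (fun n => u n + v n) f = evalF u f + evalF v f := by
  unfold evalF Finsupp.sum
  rw [← Finset.sum_add_distrib]
  refine Finset.sum_congr rfl fun n _ => by ring

theorem evalF_fmul (c : ℝ) (u : Node → ℝ) (f : Node →₀ ℝ) :
    evalF (fun n => c * u n) f = c * evalF u f := by
  unfold evalF Finsupp.sum
  rw [Finset.mul_sum]
  refine Finset.sum_congr rfl fun n _ => by ring

theorem evalF_congr {u v : Node → ℝ} (h : ∀ n, u n = v n) (f : Node →₀ ℝ) : evalF u f = evalF v f := by
  have : u = v := funext h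
  rw [this]

theorem evalF_fsum {κ : Type*} (s : Finset κ) (u : κ → Node → ℝ) (f : Node →₀ ℝ) :
    evalF (fun n => ∑ j ∈ s, u j n) f = ∑ j ∈ s, evalF (u j) f := by
  unfold evalF Finsupp.sum
  rw [Finset.sum_comm]
  refine Finset.sum_congr rfl fun n _ => ?_
  simp only [Finset.mul_sum]

theorem evalF_mono {u v : Node → ℝ} (h : ∀ n, u n ≤ v n) {f : Node →₀ ℝ} (hf : ∀ n, 0 ≤ f n) :
    evalF u f ≤ evalF v f := by
  unfold evalF Finsupp.sum
  exact Finset.sum_le_sum fun n _ => mul_le_mul_of_nonneg_left (h n) (hf n)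

theorem evalF_nonpos {u : Node → ℝ} (h : ∀ n, u n ≤ 0) {f : Node →₀ ℝ} (hf : ∀ n, 0 ≤ f n) :
    evalF u f ≤ 0 := by
  unfold evalF Finsupp.sum
  exact Finset.sum_nonpos fun n _ => mul_nonpos_of_nonneg_of_nonpos (hf n) (h n)

theorem evalF_comm (u : Node → Node → ℝ) (f g : Node →₀ ℝ) :
    evalF (fun a => evalF (fun b => u a b) g) f = evalF (fun b => evalF (fun a => u a b) f) g := by
  unfold evalF Finsupp.sum
  simp only [Finset.mul_sum]
  rw [Finset.sum_comm]
  refine Finset.sum_congr rfl fun a _ => Finset.sum_congr rfl fun b _ => by ring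

/-- The evaluation over a large finite set. -/
theorem evalF_eq_sum (u : Node → ℝ) (f : Node →₀ ℝ) {s : Finset Node} (hs : f.support ⊆ s) :
    evalF u f = ∑ n ∈ s, f n * u n := by
  unfold evalF
  exact Finsupp.sum_of_support_subset f hs _ (fun n _ => by simp)

/-- Symmetric measures. -/
def Sym (f : Node →₀ ℝ) : Prop := ∀ (σ : Equiv.Perm (Fin 3)) n, f (act σ n) = f n

theorem evalF_reindex {f : Node →₀ ℝ} (hf : Sym f) (σ : Equiv.Perm (Fin 3)) (u : Node → ℝ) :
    evalF (fun n => u (act σ n)) f = evalF u f := by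
  unfold evalF Finsupp.sum
  refine Finset.sum_equiv (actEquiv σ) (fun n => ?_) (fun n _ => ?_)
  · simp only [Finsupp.mem_support_iff, ne_eq]
    change _ ↔ ¬ f (act σ n) = 0
    rw [hf]
  · change f n * u (act σ n) = f (act σ n) * u (act σ n)
    rw [hf]

/-- Translate of a measure. -/
def shift (b : Node) (f : Node →₀ ℝ) : Node →₀ ℝ := f.equivMapDomain (Equiv.addRight b)

theorem shift_apply (b : Node) (f : Node →₀ ℝ) (n : Node) : shift b f n = f (n - b) := by
  unfold shift
  rw [Finsupp.equivMapDomain_apply]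
  rfl

theorem evalF_shift (u : Node → ℝ) (b : Node) (f : Node →₀ ℝ) :
    evalF u (shift b f) = evalF (fun a => u (a + b)) f := by
  unfold evalF shift
  rw [Finsupp.sum_equivMapDomain]
  rfl

/-- Convolution, the second factor being the partner. -/
def conv (f h : Node →₀ ℝ) : Node →₀ ℝ := h.sum fun b e => e • shift b f

theorem conv_apply (f h : Node →₀ ℝ) (n : Node) : conv f h n = evalF (fun b => f (n - b)) h := by
  unfold conv evalF Finsupp.sum
  rw [Finsupp.finsetSum_apply]
  refine Finset.sum_congr rfl fun b _ => ?_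
  simp [shift_apply]

theorem evalF_conv (u : Node → ℝ) (f h : Node →₀ ℝ) :
    evalF u (conv f h) = evalF (fun a => evalF (fun b => u (a + b)) h) f := by
  rw [evalF_comm (fun a b => u (a + b))]
  unfold conv
  conv_lhs => unfold Finsupp.sum
  have key : ∀ s : Finset Node, evalF u (∑ b ∈ s, h b • shift b f) = ∑ b ∈ s, h b * evalF (fun a => u (a + b)) f := by
    intro s
    classical
    induction s using Finset.induction_on with
    | empty => simp [evalF_zero]
    | insert a s ha ih =>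
      rw [Finset.sum_insert ha, Finset.sum_insert ha, evalF_add, evalF_smul, evalF_shift, ih]
  rw [key]
  rfl

theorem conv_sym {f h : Node →₀ ℝ} (hf : Sym f) (hh : Sym h) : Sym (conv f h) := by
  intro σ n
  rw [conv_apply, conv_apply, ← evalF_reindex hh σ]
  refine evalF_congr (fun b => ?_) h
  rw [← act_sub, hf]

theorem conv_nonneg {f h : Node →₀ ℝ} (hf : ∀ n, 0 ≤ f n) (hh : ∀ n, 0 ≤ h n) (n : Node) : 0 ≤ conv f h n := by
  rw [conv_apply]
  unfold evalF Finsupp.sum
  exact Finset.sum_nonneg fun b _ => mul_nonneg (hh b) (hf _)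

theorem Sym.add {f g : Node →₀ ℝ} (hf : Sym f) (hg : Sym g) : Sym (f + g) := by
  intro σ n
  simp [hf σ n, hg σ n]

theorem Sym.smul {f : Node →₀ ℝ} (hf : Sym f) (c : ℝ) : Sym (c • f) := by
  intro σ n
  simp [hf σ n]

theorem act_zero (σ : Equiv.Perm (Fin 3)) : act σ 0 = 0 := by
  have : ∀ i, tri 0 i = 0 := by
    intro i
    fin_cases i <;> simp [tri]
  simp [act, this]

theorem sym_single_zero (c : ℝ) : Sym (Finsupp.single (0 : Node) c) := by
  intro σ n
  by_cases h : n = 0
  · subst h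
    rw [act_zero]
  · have h2 : act σ n ≠ 0 := by
      intro h3
      apply h
      have := act_inv' σ n
      rw [h3, act_zero] at this
      exact this.symm
    rw [Finsupp.single_apply, Finsupp.single_apply, if_neg (Ne.symm h), if_neg (Ne.symm h2)]

/-- The orbit measure of a node: six atoms with multiplicity. -/
def orbitF (K : Node) (c : ℝ) : Node →₀ ℝ := ∑ σ : Equiv.Perm (Fin 3), Finsupp.single (act σ K) c

theorem orbitF_apply (K : Node) (c : ℝ) (n : Node) :
    orbitF K c n = ∑ σ : Equiv.Perm (Fin 3), if act σ K = n then c else 0 := by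
  unfold orbitF
  rw [Finsupp.finsetSum_apply]
  refine Finset.sum_congr rfl fun σ _ => ?_
  rw [Finsupp.single_apply]

theorem orbitF_sym (K : Node) (c : ℝ) : Sym (orbitF K c) := by
  intro τ n
  rw [orbitF_apply, orbitF_apply]
  rw [← Equiv.sum_comp (Equiv.mulRight τ⁻¹) (fun σ => if act σ K = n then c else 0)]
  refine Finset.sum_congr rfl fun σ _ => ?_
  have : act σ K = act τ n ↔ act (σ * τ⁻¹) K = n := by
    rw [← act_act]
    constructor
    · intro h
      rw [h, act_inv']
    · intro h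
      rw [← h, act_inv]
  have h2 : (if act σ K = act τ n then c else 0) = (if act (σ * τ⁻¹) K = n then c else 0) := by
    by_cases h : act (σ * τ⁻¹) K = n
    · rw [if_pos h, if_pos (this.2 h)]
    · rw [if_neg h, if_neg (fun h' => h (this.1 h'))]
  exact h2

theorem orbitF_nonneg {c : ℝ} (hc : 0 ≤ c) (K : Node) (n : Node) : 0 ≤ orbitF K c n := by
  rw [orbitF_apply]
  refine Finset.sum_nonneg fun σ _ => ?_
  split_ifs
  · exact hc
  · exact le_rfl

/-! ### Domination -/

/-- Integration of a test against lattice atoms. -/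
def val (ρ : ℝ) (ψ : Vec → ℝ) (f : Node →₀ ℝ) : ℝ := evalF (fun n => ψ (V ρ n)) f

/-- Integration of a test against edge atoms. -/
def valE (ρ : ℝ) (ψ : Vec → ℝ) (f : Node →₀ ℝ) : ℝ := evalF (fun n => ψ (VE ρ n)) f

/-- Domination of a functional by a pair of measures on lattice atoms and edge atoms. -/
def Dom (ρ : ℝ) (A : (Vec → ℝ) → ℝ) (f g : Node →₀ ℝ) : Prop :=
  ∀ ψ, IsTest ψ → A ψ ≤ val ρ ψ f + 3 * valE ρ ψ g

/-! ### Closure of tests -/

theorem IsTest.add {φ ψ : Vec → ℝ} (hφ : IsTest φ) (hψ : IsTest ψ) : IsTest fun x => φ x + ψ x where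
  sub := fun x y hx hy => by
    have h1 := hφ.sub x y hx hy
    have h2 := hψ.sub x y hx hy
    linarith
  hom := fun c x hc hx => by
    rw [hφ.hom c x hc hx, hψ.hom c x hc hx]
    ring
  perm := fun σ x hx => by rw [hφ.perm σ x hx, hψ.perm σ x hx]
  vert := by rw [hφ.vert, hψ.vert]; ring

theorem IsTest.smul {ψ : Vec → ℝ} (hψ : IsTest ψ) {a : ℝ} (ha : 0 ≤ a) : IsTest fun x => a * ψ x where
  sub := fun x y hx hy => by
    have h2 := mul_le_mul_of_nonneg_left (hψ.sub x y hx hy) ha
    linarith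
  hom := fun c x hc hx => by
    rw [hψ.hom c x hc hx]
    ring
  perm := fun σ x hx => by rw [hψ.perm σ x hx]
  vert := by rw [hψ.vert]; ring

theorem IsTest.evalF {u : Node → Vec → ℝ} (hu : ∀ b, IsTest (u b)) {h : Node →₀ ℝ} (hh : ∀ n, 0 ≤ h n) :
    IsTest fun x => P154B.evalF (fun b => u b x) h where
  sub := fun x y hx hy => by
    rw [← evalF_fadd]
    exact evalF_mono (fun b => (hu b).sub x y hx hy) hh
  hom := fun c x hc hx => by
    rw [← evalF_fmul]
    exact evalF_congr (fun b => (hu b).hom c x hc hx) h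
  perm := fun σ x hx => evalF_congr (fun b => (hu b).perm σ x hx) h
  vert := by
    have : P154B.evalF (fun b => u b ![1, 0, 0]) h = P154B.evalF (fun _ => 0) h :=
      evalF_congr (fun b => (hu b).vert) h
    rw [this]
    unfold P154B.evalF
    simp

/-! ### The product rule -/

theorem symR_swap {ψ : Vec → ℝ} (h : IsTest ψ) {x y : Vec} (hx : NN x) (hy : NN y) : symR ψ x y = symR ψ y x := by
  unfold symR
  rw [← avg_inv (fun π => ψ (y * (x ∘ π)))]
  refine avg_congr fun π => ?_
  have e : y * (x ∘ ⇑π⁻¹) = (x * (y ∘ π)) ∘ ⇑π⁻¹ := by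
    funext i
    simp [mul_comm]
  rw [e, h.perm _ _ (hx.mul (hy.comp π))]

section partner
variable {ρ : ℝ} (hρ : 0 < ρ) {ψ : Vec → ℝ} (hψ : IsTest ψ)

theorem avg_eval (g : Equiv.Perm (Fin 3) → Node → ℝ) (h : Node →₀ ℝ) :
    P154B.evalF (fun b => avg fun π => g π b) h = avg fun π => P154B.evalF (g π) h := by
  unfold avg
  rw [evalF_fmul, evalF_fsum]

include hψ in
theorem sym_partner {h : Node →₀ ℝ} (Sh : Sym h) (u : Vec) :
    P154B.evalF (fun b => symR ψ u (V ρ b)) h = P154B.evalF (fun b => ψ (u * V ρ b)) h := by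
  unfold symR
  rw [avg_eval (fun π b => ψ (u * (V ρ b ∘ π))) h]
  have : ∀ π : Equiv.Perm (Fin 3), P154B.evalF (fun b => ψ (u * (V ρ b ∘ π))) h
      = P154B.evalF (fun b => ψ (u * V ρ b)) h := by
    intro π
    have := evalF_reindex Sh π (fun b => ψ (u * V ρ b))
    simp only [V_act] at this
    exact this
  simp only [this]
  exact avg_const _

include hρ hψ in
theorem sym_edge {f : Node →₀ ℝ} (Sf : Sym f) :
    P154B.evalF (fun a => symR ψ (V ρ a) E0) f = P154B.evalF (fun a => ψ (VE ρ a)) f := by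
  unfold symR
  rw [avg_eval (fun π a => ψ (V ρ a * (E0 ∘ π))) f]
  have : ∀ π : Equiv.Perm (Fin 3), P154B.evalF (fun a => ψ (V ρ a * (E0 ∘ π))) f
      = P154B.evalF (fun a => ψ (VE ρ a)) f := by
    intro π
    rw [← evalF_reindex Sf π⁻¹ (fun a => ψ (VE ρ a))]
    refine evalF_congr (fun a => ?_) f
    have e : V ρ a * (E0 ∘ π) = (VE ρ (act π⁻¹ a)) ∘ π := by
      rw [← V_mul_E0 hρ, mul_comp, ← V_act, act_inv]
    rw [e, hψ.perm _ _ (VE_nn hρ _)]
  simp only [this]
  exact avg_const _

theorem E0_apply (j : Fin 3) : E0 j = if j = 0 then 0 else 1 := by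
  fin_cases j <;> simp [E0]

include hρ hψ in
theorem edge_edge_perm (a : Node) (π : Equiv.Perm (Fin 3)) :
    ψ (VE ρ a * (E0 ∘ π)) = if π 0 = 0 then ψ (VE ρ a) else 0 := by
  have h01 : π 0 ≠ π 1 := fun e => by simpa using π.injective e
  have h02 : π 0 ≠ π 2 := fun e => by simpa using π.injective e
  have h12 : π 1 ≠ π 2 := fun e => by simpa using π.injective e
  have hp : ∀ i : Fin 3, (E0 ∘ π) i = if π i = 0 then 0 else 1 := fun i => E0_apply _
  by_cases h0 : π 0 = 0
  · rw [if_pos h0]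
    congr 1
    funext i
    have h1 : π 1 ≠ 0 := fun e => h01 (h0.trans e.symm)
    have h2 : π 2 ≠ 0 := fun e => h02 (h0.trans e.symm)
    simp only [Pi.mul_apply, hp]
    fin_cases i
    · simp [VE]
    · simp [h1]
    · simp [h2]
  · rw [if_neg h0]
    obtain ⟨i, hi⟩ := π.surjective 0
    have hi0 : i ≠ 0 := by
      intro e
      rw [e] at hi
      exact h0 hi
    have : i = 1 ∨ i = 2 := by
      fin_cases i <;> simp at hi0 ⊢
    rcases this with rfl | rfl
    · have e : VE ρ a * (E0 ∘ π) = ![0, 0, ρ ^ a.2] := by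
        funext j
        have h2 : π 2 ≠ 0 := fun e => h12 (hi.trans e.symm)
        simp only [Pi.mul_apply, hp]
        fin_cases j
        · simp [VE]
        · simp [VE, hi]
        · simp [VE, h2]
      rw [e]
      exact hψ.single2 _ (zpow_pos hρ _).le
    · have e : VE ρ a * (E0 ∘ π) = ![0, ρ ^ a.1, 0] := by
        funext j
        have h1 : π 1 ≠ 0 := fun e => h12 (e.trans hi.symm)
        simp only [Pi.mul_apply, hp]
        fin_cases j
        · simp [VE]
        · simp [VE, h1]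
        · simp [VE, hi]
      rw [e]
      exact hψ.single1 _ (zpow_pos hρ _).le

include hρ hψ in
theorem edge_edge (a : Node) : symR ψ (VE ρ a) E0 = (1 / 3) * ψ (VE ρ a) := by
  unfold symR avg
  simp only [edge_edge_perm hρ hψ a]
  rw [Finset.sum_ite, Finset.sum_const, Finset.sum_const_zero]
  have : (Finset.univ.filter fun π : Equiv.Perm (Fin 3) => π 0 = 0).card = 2 := by decide
  rw [this]
  simp only [nsmul_eq_mul, add_zero]
  push_cast
  ring

end partner

theorem val_nonpos {ρ : ℝ} (hρ : 0 < ρ) {ψ : Vec → ℝ} (hψ : IsTest ψ) {f : Node →₀ ℝ} (hf : ∀ n, 0 ≤ f n) :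
    val ρ ψ f ≤ 0 :=
  evalF_nonpos (fun n => hψ.nonpos (V_nn hρ n)) hf

theorem valE_nonpos {ρ : ℝ} (hρ : 0 < ρ) {ψ : Vec → ℝ} (hψ : IsTest ψ) {f : Node →₀ ℝ} (hf : ∀ n, 0 ≤ f n) :
    valE ρ ψ f ≤ 0 :=
  evalF_nonpos (fun n => hψ.nonpos (VE_nn hρ n)) hf

/-- The product rule for domination. -/
theorem Dom.tens {ρ : ℝ} (hρ : 0 < ρ) {A B : (Vec → ℝ) → ℝ} (hA : IsFun A) (hB : IsFun B) {f g h : Node →₀ ℝ} {γ : ℝ}
    (hh : ∀ n, 0 ≤ h n) (hγ : 0 ≤ γ) (Sf : Sym f) (Sh : Sym h)
    (dA : Dom ρ A f g) (dB : Dom ρ B h (Finsupp.single 0 γ)) :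
    Dom ρ (P154B.tens A B) (conv f h) (conv g h + γ • f + γ • g) := by
  intro ψ hψ
  set Φ : Vec → ℝ := fun x => P154B.evalF (fun b => symR ψ (V ρ b) x) h + 3 * (γ * symR ψ E0 x) with hΦdef
  have hΦ : IsTest Φ := by
    refine IsTest.add (IsTest.evalF (fun b => symR_isTest hψ (V_nn hρ b)) hh) ?_
    exact IsTest.smul (IsTest.smul (symR_isTest hψ E0_nn) hγ) (by norm_num)
  -- for a fixed nonnegative first factor
  have hin : ∀ x, NN x → B (fun y => ψ (x * y)) ≤ Φ x := by
    intro x hx
    have e1 : B (fun y => ψ (x * y)) = B (symR ψ x) := by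
      unfold symR
      exact (hB.avg_sym (hψ.adm.inner hx)).symm
    rw [e1]
    refine (dB _ (symR_isTest hψ hx)).trans (le_of_eq ?_)
    rw [hΦdef]
    unfold val valE
    rw [evalF_single, VE_zero]
    congr 1
    · refine evalF_congr (fun b => ?_) h
      exact symR_swap hψ hx (V_nn hρ b)
    · rw [symR_swap hψ hx E0_nn]
  have h1 : P154B.tens A B ψ ≤ A Φ :=
    hA.mono _ _ (hψ.adm.outer hB) hΦ.adm hin
  refine h1.trans ((dA Φ hΦ).trans (le_of_eq ?_))
  have e2 : val ρ Φ f = val ρ ψ (conv f h) + 3 * (γ * valE ρ ψ f) := by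
    unfold val valE
    rw [evalF_conv]
    have : (fun n => Φ (V ρ n)) = fun a => P154B.evalF (fun b => ψ (V ρ (a + b))) h + 3 * γ * symR ψ (V ρ a) E0 := by
      funext a
      rw [hΦdef]
      simp only
      rw [symR_swap hψ E0_nn (V_nn hρ a)]
      have : P154B.evalF (fun b => symR ψ (V ρ b) (V ρ a)) h = P154B.evalF (fun b => ψ (V ρ (a + b))) h := by
        rw [evalF_congr (fun b => symR_swap hψ (V_nn hρ b) (V_nn hρ a)) h, sym_partner hψ Sh]
        refine evalF_congr (fun b => ?_) h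
        rw [V_add hρ]
      rw [this]
      ring
    rw [this, evalF_fadd, evalF_fmul, sym_edge hρ hψ Sf]
    ring
  have e3 : valE ρ Φ g = valE ρ ψ (conv g h) + γ * valE ρ ψ g := by
    unfold valE
    rw [evalF_conv]
    have : (fun n => Φ (VE ρ n)) = fun a => P154B.evalF (fun b => ψ (VE ρ (a + b))) h + γ * ψ (VE ρ a) := by
      funext a
      rw [hΦdef]
      simp only
      rw [symR_swap hψ E0_nn (VE_nn hρ a), edge_edge hρ hψ]
      have : P154B.evalF (fun b => symR ψ (V ρ b) (VE ρ a)) h = P154B.evalF (fun b => ψ (VE ρ (a + b))) h := by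
        rw [evalF_congr (fun b => symR_swap hψ (V_nn hρ b) (VE_nn hρ a)) h, sym_partner hψ Sh]
        refine evalF_congr (fun b => ?_) h
        rw [VE_mul_V hρ]
      rw [this]
      ring
    rw [this, evalF_fadd, evalF_fmul]
  rw [e2, e3]
  unfold valE
  rw [evalF_add, evalF_add, evalF_smul, evalF_smul]
  ring

/-- Adding a centre atom. -/
theorem Dom.add_unit {ρ : ℝ} {A : (Vec → ℝ) → ℝ} {f g : Node →₀ ℝ} (c : ℝ) (dA : Dom ρ A f g) :
    Dom ρ (fun ψ => unitF c ψ + A ψ) (f + Finsupp.single 0 c) g := by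
  intro ψ hψ
  have := dA ψ hψ
  unfold val at this ⊢
  rw [evalF_add, evalF_single, V_zero]
  unfold unitF
  linarith

/-- The zero functional. -/
theorem Dom.zero {ρ : ℝ} : Dom ρ (fun _ => 0) 0 0 := by
  intro ψ _
  unfold val valE
  simp [evalF_zero]

end Vale.Agent.Lib.P154B
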