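import Vale.Agent.Lib.P154B.Table

/-!
One level of the table as a function on states, and its soundness.
-/

noncomputable section

open Finset

namespace Vale.Agent.Lib.P154B

/-- Check of packing parameters. -/
def parOk (p : Par) : Bool :=
  Nat.blt (p.m + p.X) p.N && Nat.ble p.r p.X && Nat.blt p.W p.m && Nat.ble 1 p.P && Nat.ble 1 p.b && Nat.ble (p.P + p.P) p.b

theorem parOk_sound {p : Par} (h : parOk p = true) : p.Ok ∧ 1 ≤ p.b ∧ p.P + p.P ≤ p.b := by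
  unfold parOk at h
  simp only [Bool.and_eq_true] at h
  obtain ⟨⟨⟨⟨⟨a, b⟩, c⟩, d⟩, e⟩, f⟩ := h
  exact ⟨⟨blt_sound a, Nat.le_of_ble_eq_true b, blt_sound c, Nat.le_of_ble_eq_true d⟩, Nat.le_of_ble_eq_true e,
    Nat.le_of_ble_eq_true f⟩

/-- One phase of the computation. -/
structure Phase where
  /-- slot bits of the incoming state -/
  S₀ : ℕ
  /-- representatives of the incoming state -/
  ks₀ : List Trip
  /-- the offspring weights -/
  qs : List ℕ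
  /-- table of hints -/
  T : Tab
  /-- packing of the next level -/
  p₁ : Par

namespace Phase
variable (ph : Phase)

/-- The parent polynomials from a state. -/
def parent (st : ℕ) : ℕ × ℕ :=
  let p := ph.T.par
  hornerNat p (maskNum p) (natC p.b p.N (kcOf ph.S₀ p.P st 0 ph.ks₀)) (dig ph.S₀ p.P st ph.ks₀.length) ph.qs

/-- The next state from the parent polynomials. -/
def ofParent (rg : ℕ × ℕ) : ℕ := nextSt ph.T.par ph.T.S ph.T.Q ph.T.lats ph.T.edges ph.T.hv rg.1 rg.2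

/-- One level. -/
def step (st : ℕ) : ℕ := ph.ofParent (ph.parent st)

/-- The check of a phase. -/
def check : Bool :=
  ph.T.check && parOk ph.T.par && parOk ph.p₁ && Nat.beq ph.p₁.r ph.T.Lc.r && Nat.beq ph.p₁.X ph.T.Xc
    && Nat.beq ph.p₁.P ph.T.par.P
    && Nat.blt ((6 * ph.ks₀.length + 2) * (2 ^ ph.T.par.P * 2 ^ ph.T.par.P)) (2 ^ ph.T.par.b)
    && ph.qs.all fun q => Nat.ble q (2 ^ ph.T.par.P)

end Phase

theorem length_atomsOf (N S P st k : ℕ) (ks : List Trip) : (atomsOf N (kcOf S P st k ks)).length = 6 * ks.length := by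
  induction ks generalizing k with
  | nil => simp [atomsOf, kcOf]
  | cons x xs ih =>
    have h1 := ih (k + 1)
    unfold atomsOf at h1 ⊢
    simp only [kcOf, List.flatMap_cons, List.length_append, List.length_cons]
    rw [h1]
    simp only [atoms1, List.length_cons, List.length_nil]
    ring

/-- The parent polynomials satisfy the invariant. -/
theorem Phase.parent_inv {ph : Phase} (hc : ph.check = true) {st : ℕ} {B : (Vec → ℝ) → ℝ}
    (hB : PartnerSt ph.T.par ph.T.Lp.ρ ph.S₀ ph.ks₀ st B) (hρ : 0 < ph.T.Lp.ρ) :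
    Inv ph.T.par ph.T.Lp.ρ (hornerFn B ph.T.par.P ph.qs) (ph.parent st).1 (ph.parent st).2 := by
  unfold Phase.check at hc
  simp only [Bool.and_eq_true, List.all_eq_true] at hc
  obtain ⟨⟨⟨⟨⟨⟨⟨h1, h2⟩, h3⟩, h4⟩, h5⟩, h6⟩, h7⟩, h8⟩ := hc
  obtain ⟨hp, hb1, hPb⟩ := parOk_sound h2
  have hcnt := blt_sound h7
  have hmask := maskNum_eq ph.T.par (by have := hp.hN; omega) hb1
  have := horner_inv hp hρ hB (by
    rw [length_atomsOf]
    exact hcnt) hPb ph.qs (fun q hq => Nat.le_of_ble_eq_true (h8 q hq))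
  rw [atomVal_atomsOf, ← hmask] at this
  exact this

/-- The next child from an invariant of the parent. -/
theorem Phase.child_of_inv {ph : Phase} (hc : ph.check = true) {R G : ℕ} {A : (Vec → ℝ) → ℝ} (hA : IsFun A) (hm : A Lin = 3)
    (hI : Inv ph.T.par ph.T.Lp.ρ A R G) {μ : ℝ} (h0 : 0 ≤ μ) (hμ : μ ≤ (ph.T.u : ℝ) / ph.T.w) :
    PartnerSt ph.p₁ ph.T.Lc.ρ ph.T.S ph.T.ks (ph.ofParent (R, G)) (chanF μ A) := by
  have hc0 := hc
  unfold Phase.check at hc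
  simp only [Bool.and_eq_true, List.all_eq_true] at hc
  obtain ⟨⟨⟨⟨⟨⟨⟨h1, h2⟩, h3⟩, h4⟩, h5⟩, h6⟩, h7⟩, h8⟩ := hc
  obtain ⟨hp, hb1, hPb⟩ := parOk_sound h2
  obtain ⟨hp', hb1', hPb'⟩ := parOk_sound h3
  have hr : ph.p₁.r = ph.T.Lc.r := Nat.eq_of_beq_eq_true h4
  have hX : ph.p₁.X = ph.T.Xc := Nat.eq_of_beq_eq_true h5
  have hP : ph.p₁.P = ph.T.par.P := Nat.eq_of_beq_eq_true h6
  have h1' := h1
  unfold Tab.check at h1'
  simp only [Bool.and_eq_true, List.all_eq_true] at h1'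
  obtain ⟨⟨⟨⟨⟨⟨⟨⟨⟨⟨⟨⟨⟨⟨⟨⟨⟨⟨a1, a2⟩, a3⟩, a4⟩, a5⟩, a6⟩, a7⟩, a8⟩, a9⟩, a10⟩, a11⟩, a12⟩, a13⟩, a14⟩, a15⟩, a16⟩, a17⟩, a18⟩, a19⟩ := h1'
  obtain ⟨hp1, hp2, hp3, hp4, hks, hR⟩ := Tab.readOK h1
  have hw : 0 < ph.T.w := blt_sound a5
  have huw : 2 * ph.T.u ≤ ph.T.w := Nat.le_of_ble_eq_true a6
  have hρ := Lt.rho_pos hp1 hp2
  have hρ' := Lt.rho_pos hp3 hp4
  have hμ12 : (ph.T.u : ℝ) / ph.T.w ≤ 1 / 2 := by
    have h2u : (2 : ℝ) * ph.T.u ≤ ph.T.w := by exact_mod_cast huw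
    have hwR : (0 : ℝ) < ph.T.w := by exact_mod_cast hw
    rw [div_le_iff₀ hwR]
    linarith
  have hF : IsFun (chanF μ A) := hA.chanF h0 (hμ.trans hμ12)
  refine partner_of_bound hp' hρ' hF (by rw [hr, hX]; exact hks) fun ψ hψ => ?_
  have := read_sound hρ hA hm hI h0 hμ hμ12 hR (by omega) hψ
  rw [hP, hr]
  exact this

/-- Soundness of one level. -/
theorem Phase.sound {ph : Phase} (hc : ph.check = true) {st : ℕ} {B A : (Vec → ℝ) → ℝ} (hA : IsFun A) (hm : A Lin = 3)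
    (hB : PartnerSt ph.T.par ph.T.Lp.ρ ph.S₀ ph.ks₀ st B) (hAB : ∀ ψ, IsTest ψ → A ψ ≤ hornerFn B ph.T.par.P ph.qs ψ)
    (hρ : 0 < ph.T.Lp.ρ) {μ : ℝ} (h0 : 0 ≤ μ) (hμ : μ ≤ (ph.T.u : ℝ) / ph.T.w) :
    PartnerSt ph.p₁ ph.T.Lc.ρ ph.T.S ph.T.ks (ph.step st) (chanF μ A) :=
  Phase.child_of_inv hc hA hm ((Phase.parent_inv hc hB hρ).mono hAB) h0 hμ

/-- The first level: only the mass at the vertices. -/
theorem Phase.sound_start {ph : Phase} (hc : ph.check = true) {A : (Vec → ℝ) → ℝ} (hA : IsFun A) (hm : A Lin = 3)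
    (hA0 : ∀ ψ, IsTest ψ → A ψ ≤ 0) {μ : ℝ} (h0 : 0 ≤ μ) (hμ : μ ≤ (ph.T.u : ℝ) / ph.T.w) :
    PartnerSt ph.p₁ ph.T.Lc.ρ ph.T.S ph.T.ks (ph.ofParent (0, 0)) (chanF μ A) :=
  Phase.child_of_inv hc hA hm ((Inv.zero ph.T.par ph.T.Lp.ρ).mono hA0) h0 hμ

end Vale.Agent.Lib.P154B
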