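import Vale.Agent.Lib.P154B.Factor

/-!
Reading a symmetric measure through representatives of orbits.
-/

noncomputable section

open Finset

namespace Vale.Agent.Lib.P154B

/-- Dropping everything outside a family of disjoint sets. -/
theorem evalF_le_family {u : Node → ℝ} (hu : ∀ n, u n ≤ 0) {f : Node →₀ ℝ} (hf : ∀ n, 0 ≤ f n) {ι : Type*}
    (rs : List ι) (O : ι → Finset Node) (hdis : rs.Pairwise fun i j => Disjoint (O i) (O j)) (b : ι → ℝ)
    (hb : ∀ i ∈ rs, ∑ n ∈ O i, f n * u n ≤ b i) : evalF u f ≤ (rs.map b).sum := by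
  classical
  set U : Finset Node := (rs.map O).foldr (· ∪ ·) ∅ with hU
  have key : ∀ l : List ι, (l.Pairwise fun i j => Disjoint (O i) (O j)) → (∀ i ∈ l, ∑ n ∈ O i, f n * u n ≤ b i) →
      ∑ n ∈ (l.map O).foldr (· ∪ ·) ∅, f n * u n ≤ (l.map b).sum := by
    intro l
    induction l with
    | nil => simp
    | cons a l ih =>
      intro hp hb'
      have hp' := List.pairwise_cons.1 hp
      simp only [List.map_cons, List.foldr_cons, List.sum_cons]
      have hd : Disjoint (O a) ((l.map O).foldr (· ∪ ·) ∅) := by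
        have : ∀ l' : List ι, (∀ j ∈ l', Disjoint (O a) (O j)) → Disjoint (O a) ((l'.map O).foldr (· ∪ ·) ∅) := by
          intro l'
          induction l' with
          | nil => simp
          | cons c l' ih' =>
            intro h
            simp only [List.map_cons, List.foldr_cons]
            rw [Finset.disjoint_union_right]
            exact ⟨h c (by simp), ih' fun j hj => h j (List.mem_cons_of_mem _ hj)⟩
        exact this l hp'.1
      rw [Finset.sum_union hd]
      exact add_le_add (hb' a (by simp)) (ih hp'.2 fun i hi => hb' i (List.mem_cons_of_mem _ hi))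
  refine le_trans ?_ (key rs hdis hb)
  rw [evalF_eq_sum u f (s := f.support ∪ (rs.map O).foldr (· ∪ ·) ∅) Finset.subset_union_left]
  have hs : (rs.map O).foldr (· ∪ ·) ∅ ⊆ f.support ∪ (rs.map O).foldr (· ∪ ·) ∅ := Finset.subset_union_right
  rw [← Finset.sum_sdiff hs]
  have : ∑ n ∈ (f.support ∪ (rs.map O).foldr (· ∪ ·) ∅) \ (rs.map O).foldr (· ∪ ·) ∅, f n * u n ≤ 0 :=
    Finset.sum_nonpos fun n _ => mul_nonpos_of_nonneg_of_nonpos (hf n) (hu n)
  linarith

/-- The orbit of a node. -/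
def orbit (n : Node) : Finset Node := (Finset.univ : Finset (Equiv.Perm (Fin 3))).image fun σ => act σ n

theorem orbit_sum {ρ : ℝ} (hρ : 0 < ρ) {f : Node →₀ ℝ} (Sf : Sym f) {φ : Vec → ℝ} (hφ : IsTest φ) (n : Node) :
    ∑ m ∈ orbit n, f m * φ (V ρ m) = ((orbit n).card : ℝ) * (f n * φ (V ρ n)) := by
  rw [← nsmul_eq_mul, ← Finset.sum_const]
  refine Finset.sum_congr rfl fun m hm => ?_
  obtain ⟨σ, -, rfl⟩ := Finset.mem_image.1 hm
  rw [Sf, V_act, hφ.perm _ _ (V_nn hρ n)]

/-- Rotation of three letters. -/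
def rot : Equiv.Perm (Fin 3) := ⟨![1, 2, 0], ![2, 0, 1], by decide, by decide⟩

/-- Number of images of a triple which are certainly different. -/
def orbCount (x0 x1 x2 : ℕ) : ℕ :=
  if x0 ≠ x1 ∧ x1 ≠ x2 ∧ x0 ≠ x2 then 6 else if x0 = x1 ∧ x1 = x2 then 1 else 3

theorem orbCount_le {n : Node} {W : ℕ} {x0 x1 x2 : ℕ} (h0 : tri n 0 = (x0 : ℤ) - W) (h1 : tri n 1 = (x1 : ℤ) - W)
    (h2 : tri n 2 = (x2 : ℤ) - W) : orbCount x0 x1 x2 ≤ (orbit n).card := by
  have hact : ∀ σ τ : Equiv.Perm (Fin 3), act σ n = act τ n → ∀ i, tri n (σ i) = tri n (τ i) := by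
    intro σ τ h i
    rw [← tri_act, ← tri_act, h]
  unfold orbCount
  split_ifs with c1 c2
  · have hinj : Function.Injective fun σ : Equiv.Perm (Fin 3) => act σ n := by
      intro σ τ h
      have h3 := hact σ τ h
      have htri : Function.Injective (tri n) := by
        obtain ⟨c10, c11, c12⟩ := c1
        intro i j hij
        fin_cases i <;> fin_cases j <;> first | rfl | (exfalso; simp only [Fin.zero_eta, Fin.mk_one, Fin.reduceFinMk] at hij; simp only [h0, h1, h2] at hij; omega)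
      exact Equiv.ext fun i => htri (h3 i)
    unfold orbit
    rw [Finset.card_image_of_injective _ hinj, card_perm3]
  · have : n ∈ orbit n := Finset.mem_image.2 ⟨1, Finset.mem_univ _, act_one n⟩
    exact Finset.card_pos.2 ⟨n, this⟩
  · have hsub : ({act 1 n, act rot n, act (rot * rot) n} : Finset Node) ⊆ orbit n := by
      intro m hm
      simp only [Finset.mem_insert, Finset.mem_singleton] at hm
      rcases hm with rfl | rfl | rfl <;> exact Finset.mem_image.2 ⟨_, Finset.mem_univ _, rfl⟩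
    refine le_trans ?_ (Finset.card_le_card hsub)
    have r0 : rot 0 = 1 := rfl
    have r1 : rot 1 = 2 := rfl
    have r2 : rot 2 = 0 := rfl
    have allEq : x0 = x1 → x1 = x2 → False := fun a b => c2 ⟨a, b⟩
    have e01 : act 1 n ≠ act rot n := by
      intro h
      have h3 := hact _ _ h
      have a := h3 0
      have b := h3 1
      simp only [Equiv.Perm.coe_one, id_eq, r0, r1] at a b
      rw [h0, h1] at a
      rw [h1, h2] at b
      exact allEq (by omega) (by omega)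
    have e12 : act rot n ≠ act (rot * rot) n := by
      intro h
      have h3 := hact _ _ h
      have a := h3 0
      have b := h3 1
      simp only [Equiv.Perm.coe_mul, Function.comp_apply, r0, r1, r2] at a b
      rw [h1, h2] at a
      rw [h2, h0] at b
      exact allEq (by omega) (by omega)
    have e02 : act 1 n ≠ act (rot * rot) n := by
      intro h
      have h3 := hact _ _ h
      have a := h3 0
      have b := h3 1
      simp only [Equiv.Perm.coe_one, id_eq, Equiv.Perm.coe_mul, Function.comp_apply, r0, r1, r2] at a b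
      rw [h0, h2] at a
      rw [h1, h0] at b
      exact allEq (by omega) (by omega)
    rw [Finset.card_eq_three.2 ⟨_, _, _, e01, e02, e12, rfl⟩]

/-- A symmetric function of an offset triple which separates orbits. -/
def keyN (x0 x1 x2 : ℕ) : ℕ := (x0 ^ 2 + x1 ^ 2 + x2 ^ 2) * 2 ^ 40 + x0 * x1 * x2

/-- Invariants of a node. -/
def nodeInv (W : ℕ) (n : Node) : ℤ × ℤ :=
  ((tri n 0 + W) ^ 2 + (tri n 1 + W) ^ 2 + (tri n 2 + W) ^ 2, (tri n 0 + W) * (tri n 1 + W) * (tri n 2 + W))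

theorem nodeInv_act (W : ℕ) (σ : Equiv.Perm (Fin 3)) (n : Node) : nodeInv W (act σ n) = nodeInv W n := by
  have e1 := Equiv.sum_comp σ fun i => (tri n i + W) ^ 2
  have e2 := Equiv.prod_comp σ fun i => tri n i + (W : ℤ)
  simp only [Fin.sum_univ_three, Fin.prod_univ_three] at e1 e2
  unfold nodeInv
  simp only [tri_act]
  rw [e1, e2]

theorem orbit_disjoint {W : ℕ} {n n' : Node} {x0 x1 x2 y0 y1 y2 : ℕ} (h0 : tri n 0 = (x0 : ℤ) - W)
    (h1 : tri n 1 = (x1 : ℤ) - W) (h2 : tri n 2 = (x2 : ℤ) - W) (h0' : tri n' 0 = (y0 : ℤ) - W)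
    (h1' : tri n' 1 = (y1 : ℤ) - W) (h2' : tri n' 2 = (y2 : ℤ) - W) (hk : keyN x0 x1 x2 ≠ keyN y0 y1 y2) :
    Disjoint (orbit n) (orbit n') := by
  rw [Finset.disjoint_left]
  intro m hm hm'
  obtain ⟨σ, -, rfl⟩ := Finset.mem_image.1 hm
  obtain ⟨τ, -, hτ⟩ := Finset.mem_image.1 hm'
  have h3 := nodeInv_act W σ n
  have h4 := nodeInv_act W τ n'
  have hτ' : act τ n' = act σ n := hτ
  rw [hτ', h3] at h4
  unfold nodeInv at h4
  rw [h0, h1, h2, h0', h1', h2'] at h4
  simp only [sub_add_cancel, Prod.mk.injEq] at h4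
  apply hk
  unfold keyN
  obtain ⟨a, b⟩ := h4
  have a' : x0 ^ 2 + x1 ^ 2 + x2 ^ 2 = y0 ^ 2 + y1 ^ 2 + y2 ^ 2 := by exact_mod_cast a
  have b' : x0 * x1 * x2 = y0 * y1 * y2 := by exact_mod_cast b
  rw [a', b']

theorem orbit_disjoint_sorted {W : ℕ} {n n' : Node} {x0 x1 x2 y0 y1 y2 : ℕ} (h0 : tri n 0 = (x0 : ℤ) - W)
    (h1 : tri n 1 = (x1 : ℤ) - W) (h2 : tri n 2 = (x2 : ℤ) - W) (h0' : tri n' 0 = (y0 : ℤ) - W)
    (h1' : tri n' 1 = (y1 : ℤ) - W) (h2' : tri n' 2 = (y2 : ℤ) - W) (hx : x0 ≤ x1) (hx' : x1 ≤ x2) (hy : y0 ≤ y1)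
    (hy' : y1 ≤ y2) (hne : x1 = y1 → x2 = y2 → False) : Disjoint (orbit n) (orbit n') := by
  rw [Finset.disjoint_left]
  intro m hm hm'
  obtain ⟨σ, -, rfl⟩ := Finset.mem_image.1 hm
  obtain ⟨τ, -, hτ⟩ := Finset.mem_image.1 hm'
  have hτ' : act τ n' = act σ n := hτ
  have key : ∀ i, tri n' (τ i) = tri n (σ i) := fun i => by
    have := congrArg (fun k => tri k i) hτ'
    simpa only [tri_act] using this
  have hsum := Equiv.sum_comp τ fun i => tri n' i
  have hs1 : ∀ i, tri n' i = tri n (σ (τ.symm i)) := fun i => by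
    have := key (τ.symm i)
    rwa [Equiv.apply_symm_apply] at this
  set π : Equiv.Perm (Fin 3) := τ.symm.trans σ with hπ
  have hs2 : ∀ i, tri n' i = tri n (π i) := fun i => hs1 i
  have a0 := hs2 0
  have a1 := hs2 1
  have a2 := hs2 2
  rw [h0'] at a0
  rw [h1'] at a1
  rw [h2'] at a2
  have hu : π 0 ≠ π 1 ∧ π 0 ≠ π 2 ∧ π 1 ≠ π 2 :=
    ⟨fun h => by simpa using π.injective h, fun h => by simpa using π.injective h, fun h => by simpa using π.injective h⟩
  obtain ⟨u1, u2, u3⟩ := hu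
  have vals : ∀ j : Fin 3, tri n j = (x0 : ℤ) - W ∧ j = 0 ∨ tri n j = (x1 : ℤ) - W ∧ j = 1 ∨ tri n j = (x2 : ℤ) - W ∧ j = 2 := by
    intro j
    fin_cases j
    · exact Or.inl ⟨h0, rfl⟩
    · exact Or.inr (Or.inl ⟨h1, rfl⟩)
    · exact Or.inr (Or.inr ⟨h2, rfl⟩)
  apply hne
  all_goals
    rcases vals (π 0) with ⟨c0, d0⟩ | ⟨c0, d0⟩ | ⟨c0, d0⟩ <;>
    rcases vals (π 1) with ⟨c1, d1⟩ | ⟨c1, d1⟩ | ⟨c1, d1⟩ <;>
    rcases vals (π 2) with ⟨c2, d2⟩ | ⟨c2, d2⟩ | ⟨c2, d2⟩ <;>
    first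
    | (exfalso; rw [d0, d1] at u1; exact u1 rfl)
    | (exfalso; rw [d0, d2] at u2; exact u2 rfl)
    | (exfalso; rw [d1, d2] at u3; exact u3 rfl)
    | (rw [c0] at a0; rw [c1] at a1; rw [c2] at a2; omega)

end Vale.Agent.Lib.P154B
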