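import Vale.Agent.Lib.P154B.Horner

/-!
The exact check of a table of hints on natural numbers, and its real meaning.
-/

noncomputable section

open Finset

namespace Vale.Agent.Lib.P154B

/-- A rational lattice with an offset and a bound for the exponents. -/
structure Lt where
  p : ℕ
  q : ℕ
  r : ℕ
  Z : ℕ

namespace Lt
variable (L : Lt)

/-- The ratio. -/
def ρ : ℝ := (L.p : ℝ) / L.q

/-- The common denominator. -/
def D : ℕ := (L.p * L.q) ^ L.Z

/-- The numerator of a power of the ratio. -/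
def pw (x : ℕ) : ℕ := L.p ^ (x + L.Z - L.r) * L.q ^ (L.Z + L.r - x)

end Lt

theorem Lt.rho_pos {L : Lt} (h1 : 0 < L.p) (h2 : 0 < L.q) : 0 < L.ρ := by
  unfold Lt.ρ
  positivity

theorem Lt.pow_eq {L : Lt} (h1 : 0 < L.p) (h2 : 0 < L.q) (hr : L.r ≤ L.Z) {x : ℕ} (hx : x ≤ L.Z + L.r) :
    L.ρ ^ ((x : ℤ) - L.r) = (L.pw x : ℝ) / L.D := by
  have hp : (L.p : ℝ) ≠ 0 := by positivity
  have hq : (L.q : ℝ) ≠ 0 := by positivity
  unfold Lt.ρ Lt.pw Lt.D
  push_cast
  rw [div_zpow, eq_div_iff (by positivity)]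
  have e1 : (L.p : ℝ) ^ (x + L.Z - L.r) = (L.p : ℝ) ^ ((x : ℤ) - L.r) * (L.p : ℝ) ^ L.Z := by
    rw [← zpow_natCast, ← zpow_natCast (L.p : ℝ) L.Z, ← zpow_add₀ hp]
    congr 1
    omega
  have e2 : (L.q : ℝ) ^ (L.Z + L.r - x) * (L.q : ℝ) ^ ((x : ℤ) - L.r) = (L.q : ℝ) ^ L.Z := by
    rw [← zpow_natCast, ← zpow_natCast (L.q : ℝ) L.Z, ← zpow_add₀ hq]
    congr 1
    omega
  rw [e1, mul_pow, ← e2]
  have hz : (L.q : ℝ) ^ ((x : ℤ) - L.r) ≠ 0 := zpow_ne_zero _ hq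
  field_simp

/-- Permutation of a triple. -/
def permT (s : ℕ) (x : Trip) : Trip :=
  match s with
  | 0 => (x.1, x.2.1, x.2.2)
  | 1 => (x.1, x.2.2, x.2.1)
  | 2 => (x.2.1, x.1, x.2.2)
  | 3 => (x.2.1, x.2.2, x.1)
  | 4 => (x.2.2, x.1, x.2.1)
  | _ => (x.2.2, x.2.1, x.1)

/-- Edge targets as a triple. -/
def tE (s : ℕ) : Trip :=
  match s with
  | 0 => (0, 1, 1)
  | 1 => (1, 0, 1)
  | _ => (1, 1, 0)

/-- Lookup in a list. -/
def lookupT : List Trip → ℕ → Option Trip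
  | [], _ => none
  | x :: _, 0 => some x
  | _ :: xs, k + 1 => lookupT xs k

theorem lookupT_eq (ks : List Trip) (k : ℕ) : lookupT ks k = ks[k]? := by
  induction ks generalizing k with
  | nil => simp [lookupT]
  | cons x xs ih =>
    cases k with
    | zero => simp [lookupT]
    | succ k => simp [lookupT, ih]

/-- The numerators of a target; the denominator is twice that of the lattice. -/
def tgtInt (L : Lt) (ks : List Trip) (h : ℕ) : Trip :=
  match lookupT ks (hS h) with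
  | some x =>
    let y := permT (hG h) x
    (2 * L.pw y.1, 2 * L.pw y.2.1, 2 * L.pw y.2.2)
  | none =>
    let y := tE (hG h)
    (L.D * y.1, L.D * y.2.1, L.D * y.2.2)

/-- A triple as a vector with a denominator. -/
def vecOf (X : Trip) (D : ℝ) : Vec := ![(X.1 : ℝ) / D, (X.2.1 : ℝ) / D, (X.2.2 : ℝ) / D]

/-- The real target of a hint. -/
def tgtR (L : Lt) (ks : List Trip) (h : ℕ) : Vec := vecOf (tgtInt L ks h) (2 * (L.D : ℝ))

/-- Sum of the triple entries. -/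
def sumT (X : Trip) : ℕ := X.1 + X.2.1 + X.2.2

/-- Weighted sums of the targets of a list of hints. -/
def hSum (L : Lt) (ks : List Trip) (hs : List ℕ) : Trip :=
  hs.foldr (fun h a =>
    let t := tgtInt L ks h
    let b := hB h
    (b * t.1 + a.1, b * t.2.1 + a.2.1, b * t.2.2 + a.2.2)) (0, 0, 0)

/-- One coordinate of the check. -/
def chkC (o u w K D X sX B : ℕ) : Bool :=
  Nat.ble (o * (3 * u * X) * K + 18 * w * D * B) (o * ((w + u) * sX) * K)

/-- The check of a list of hints for a source. -/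
def chkHints (Lc : Lt) (ks : List Trip) (Q o u w D : ℕ) (X : Trip) (hs : List ℕ) : Bool :=
  let K := 2 ^ (Q + 1) * Lc.D
  let s := hSum Lc ks hs
  let sX := sumT X
  chkC o u w K D X.1 sX s.1 && chkC o u w K D X.2.1 sX s.2.1 && chkC o u w K D X.2.2 sX s.2.2

theorem Lμ_vecOf {u w : ℕ} (hw : 0 < w) {D : ℝ} (hD : 0 < D) (X : Trip) (i : Fin 3) :
    Lμ ((u : ℝ) / w) (vecOf X D) i
      = ((((w : ℝ) + u) * (sumT X : ℝ)) - 3 * u * (vecOf X (1 : ℝ) i)) / (3 * w * D) := by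
  have hw' : (w : ℝ) ≠ 0 := by positivity
  unfold Lμ Lin sumT
  fin_cases i <;> simp [vecOf] <;> field_simp <;> ring

theorem hSum_sum (L : Lt) (ks : List Trip) (Q : ℕ) (hs : List ℕ) (hD : (0 : ℝ) < L.D) (i : Fin 3) :
    (hs.map fun h => ((6 / 2 ^ Q : ℝ) * (hB h : ℝ)) • tgtR L ks h).sum i
      = (6 / 2 ^ Q : ℝ) * (vecOf (hSum L ks hs) (2 * (L.D : ℝ)) i) := by
  induction hs with
  | nil =>
    simp only [List.map_nil, List.sum_nil, Pi.zero_apply]
    unfold hSum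
    fin_cases i <;> simp [vecOf]
  | cons a l ih =>
    simp only [List.map_cons, List.sum_cons, Pi.add_apply, Pi.smul_apply, smul_eq_mul]
    rw [ih]
    unfold hSum tgtR
    simp only [List.foldr_cons]
    fin_cases i <;> simp [vecOf] <;> field_simp

/-- The check implies the hint inequality. -/
theorem chkHints_ok {Lc : Lt} {ks : List Trip} {Q o u w D : ℕ} {X : Trip} {hs : List ℕ} (hw : 0 < w) (hD : 0 < D)
    (hDc : 0 < Lc.D) (h : chkHints Lc ks Q o u w D X hs = true) :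
    HintOK Q (tgtR Lc ks) ((o : ℝ) • Lμ ((u : ℝ) / w) (vecOf X (D : ℝ))) hs := by
  intro i
  rw [Pi.sub_apply, hSum_sum Lc ks Q hs (by exact_mod_cast hDc), Pi.smul_apply, Lμ_vecOf hw (by exact_mod_cast hD),
    smul_eq_mul]
  unfold chkHints at h
  simp only [Bool.and_eq_true] at h
  obtain ⟨⟨h0, h1⟩, h2⟩ := h
  unfold chkC at h0 h1 h2
  have key : ∀ Xi B : ℕ, Nat.ble (o * (3 * u * Xi) * (2 ^ (Q + 1) * Lc.D) + 18 * w * D * B)
        (o * ((w + u) * sumT X) * (2 ^ (Q + 1) * Lc.D)) = true →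
      0 ≤ (o : ℝ) * ((((w : ℝ) + u) * (sumT X : ℝ) - 3 * u * (Xi : ℝ)) / (3 * w * (D : ℝ)))
        - (6 / 2 ^ Q : ℝ) * ((B : ℝ) / (2 * (Lc.D : ℝ))) := by
    intro Xi B hb
    have hb' := Nat.le_of_ble_eq_true hb
    have hb2 : ((o * (3 * u * Xi) * (2 ^ (Q + 1) * Lc.D) + 18 * w * D * B : ℕ) : ℝ)
        ≤ ((o * ((w + u) * sumT X) * (2 ^ (Q + 1) * Lc.D) : ℕ) : ℝ) := by exact_mod_cast hb'
    push_cast at hb2
    have hwR : (0 : ℝ) < w := by exact_mod_cast hw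
    have hDR : (0 : ℝ) < D := by exact_mod_cast hD
    have hDcR : (0 : ℝ) < Lc.D := by exact_mod_cast hDc
    have hQR : (0 : ℝ) < 2 ^ Q := by positivity
    have e : (o : ℝ) * ((((w : ℝ) + u) * (sumT X : ℝ) - 3 * u * (Xi : ℝ)) / (3 * w * (D : ℝ)))
        - (6 / 2 ^ Q : ℝ) * ((B : ℝ) / (2 * (Lc.D : ℝ)))
        = ((o : ℝ) * (((w : ℝ) + u) * (sumT X : ℝ)) * (2 ^ (Q + 1) * (Lc.D : ℝ))
            - ((o : ℝ) * (3 * u * (Xi : ℝ)) * (2 ^ (Q + 1) * (Lc.D : ℝ)) + 18 * w * D * B))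
          / (3 * w * D * 2 ^ (Q + 1) * Lc.D) := by
      field_simp
      ring
    rw [e]
    refine div_nonneg (by linarith) (by positivity)
  have k0 := key _ _ h0
  have k1 := key _ _ h1
  have k2 := key _ _ h2
  fin_cases i
  · simpa [vecOf] using k0
  · simpa [vecOf] using k1
  · simpa [vecOf] using k2

end Vale.Agent.Lib.P154B
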