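import Vale.Agent.Lib.P154B.Orbit

/-!
Reading a parent level: from the digits of the parent to the child polynomial of the next level.
-/

noncomputable section

open Finset

namespace Vale.Agent.Lib.P154B

/-- A digit of a packed number. -/
def dig (b P x t : ℕ) : ℕ := (x >>> (b * t)) % 2 ^ P

theorem dig_eq {b P : ℕ} (hP : P ≤ b) {r : ℕ → ℕ} (hr : ∀ t, r t < 2 ^ P) {n t : ℕ} (ht : t < n) :
    dig b P (∑ T ∈ range n, r T * (2 ^ b) ^ T) t = r t := by
  unfold dig
  have hPb : 2 ^ P ≤ 2 ^ b := Nat.pow_le_pow_right (by norm_num) hP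
  have h1 := digit_sum (B := 2 ^ b) (by positivity) t r (fun t => lt_of_lt_of_le (hr t) hPb) n
  rw [if_pos ht] at h1
  rw [Nat.shiftRight_eq_div_pow, pow_mul]
  have h2 : (2 : ℕ) ^ P ∣ 2 ^ b := pow_dvd_pow 2 hP
  rw [← Nat.mod_mod_of_dvd _ h2, h1]
  exact Nat.mod_eq_of_lt (hr t)

/-- Test values on a list of atoms: a split of a vector into a list. -/
theorem IsTest.split_list {ψ : Vec → ℝ} (h : IsTest ψ) {κ : Type*} (l : List κ) (β : κ → ℝ) (v : κ → Vec)
    (hβ : ∀ j ∈ l, 0 ≤ β j) (hv : ∀ j ∈ l, NN (v j)) {x : Vec} (hx : NN (x - (l.map fun j => β j • v j).sum)) :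
    ψ x ≤ (l.map fun j => β j * ψ (v j)).sum := by
  induction l generalizing x with
  | nil =>
    simp only [List.map_nil, List.sum_nil, sub_zero] at hx ⊢
    exact h.nonpos hx
  | cons a l ih =>
    simp only [List.map_cons, List.sum_cons] at hx ⊢
    have ha := hβ a (by simp)
    have hva := hv a (by simp)
    have hx' : NN ((x - β a • v a) - (l.map fun j => β j • v j).sum) := by
      intro i
      have := hx i
      simp only [Pi.sub_apply, Pi.add_apply] at this ⊢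
      linarith
    have h1 := ih (fun j hj => hβ j (List.mem_cons_of_mem _ hj)) (fun j hj => hv j (List.mem_cons_of_mem _ hj)) hx'
    have hrest : NN (x - β a • v a) := by
      have hs : NN (l.map fun j => β j • v j).sum := by
        have : ∀ l' : List κ, (∀ j ∈ l', 0 ≤ β j) → (∀ j ∈ l', NN (v j)) → NN (l'.map fun j => β j • v j).sum := by
          intro l'
          induction l' with
          | nil =>
            intro _ _ i
            simp
          | cons c l' ih' =>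
            intro h1 h2
            simp only [List.map_cons, List.sum_cons]
            exact ((h2 c (by simp)).smul (h1 c (by simp))).add
              (ih' (fun j hj => h1 j (List.mem_cons_of_mem _ hj)) fun j hj => h2 j (List.mem_cons_of_mem _ hj))
        exact this l (fun j hj => hβ j (List.mem_cons_of_mem _ hj)) fun j hj => hv j (List.mem_cons_of_mem _ hj)
      intro i
      have h2 := hx' i
      have h3 := hs i
      simp only [Pi.sub_apply] at h2 ⊢
      linarith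
    have e : x = β a • v a + (x - β a • v a) := by abel
    have h2 := h.sub _ _ (hva.smul ha) hrest
    rw [← e, h.hom _ _ ha hva] at h2
    linarith

/-- Weights of a hint. -/
def hB (h : ℕ) : ℕ := h % 2 ^ 40

/-- Slot of a hint. -/
def hS (h : ℕ) : ℕ := h >>> 43

/-- Permutation index of a hint. -/
def hG (h : ℕ) : ℕ := (h >>> 40) % 8

/-- The packed hints. -/
def hpack (S : ℕ) (hs : List ℕ) : ℕ := (hs.map fun h => hB h * (2 ^ S) ^ hS h).sum

/-- Total weight of hints in a given slot. -/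
def hSlot (hs : List ℕ) (k : ℕ) : ℕ := (hs.map fun h => if hS h = k then hB h else 0).sum

/-- Slot weights of a list of sources. -/
def wOf (srcs : List (ℕ × List ℕ)) (k : ℕ) : ℕ := (srcs.map fun s => s.1 * hSlot s.2 k).sum

/-- The packed sum of sources. -/
def srcVal (S : ℕ) (srcs : List (ℕ × List ℕ)) : ℕ := (srcs.map fun s => s.1 * hpack S s.2).sum

theorem hpack_eq (S : ℕ) (hs : List ℕ) {n : ℕ} (hn : ∀ h ∈ hs, hS h < n) :
    hpack S hs = ∑ k ∈ range n, hSlot hs k * (2 ^ S) ^ k := by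
  induction hs with
  | nil => simp [hpack, hSlot]
  | cons a l ih =>
    have h1 := ih fun h hh => hn h (List.mem_cons_of_mem _ hh)
    unfold hpack hSlot at h1 ⊢
    simp only [List.map_cons, List.sum_cons]
    rw [h1, add_comm, sum_add_atom _ (hn a (by simp))]
    refine Finset.sum_congr rfl fun k _ => ?_
    have : (if hS a = k then hB a else 0) = (if k = hS a then hB a else 0) := by
      simp only [eq_comm]
    rw [this]
    ring

theorem srcVal_eq (S : ℕ) (srcs : List (ℕ × List ℕ)) {n : ℕ} (hn : ∀ s ∈ srcs, ∀ h ∈ s.2, hS h < n) :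
    srcVal S srcs = ∑ k ∈ range n, wOf srcs k * (2 ^ S) ^ k := by
  induction srcs with
  | nil => simp [srcVal, wOf]
  | cons a l ih =>
    have h1 := ih fun s hs => hn s (List.mem_cons_of_mem _ hs)
    unfold srcVal wOf at h1 ⊢
    simp only [List.map_cons, List.sum_cons]
    rw [h1, hpack_eq S a.2 (hn a (by simp)), Finset.mul_sum, ← Finset.sum_add_distrib]
    refine Finset.sum_congr rfl fun k _ => by ring

/-- A bound for the slot weights. -/
theorem hSlot_le (hs : List ℕ) (k : ℕ) : hSlot hs k ≤ hs.length * 2 ^ 40 := by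
  induction hs with
  | nil => simp [hSlot]
  | cons a l ih =>
    unfold hSlot at ih ⊢
    simp only [List.map_cons, List.sum_cons, List.length_cons]
    have h : (if hS a = k then hB a else 0) ≤ 2 ^ 40 := by
      split_ifs
      · exact (Nat.mod_lt _ (by positivity)).le
      · exact Nat.zero_le _
    have : (l.length + 1) * 2 ^ 40 = l.length * 2 ^ 40 + 2 ^ 40 := by ring
    omega

/-- Number of hints. -/
def nHints (srcs : List (ℕ × List ℕ)) : ℕ := (srcs.map fun s => s.2.length).sum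

theorem wOf_le (srcs : List (ℕ × List ℕ)) {D : ℕ} (hD : ∀ s ∈ srcs, s.1 ≤ D) (k : ℕ) :
    wOf srcs k ≤ nHints srcs * (D * 2 ^ 40) := by
  induction srcs with
  | nil => simp [wOf, nHints]
  | cons a l ih =>
    have h1 := ih fun s hs => hD s (List.mem_cons_of_mem _ hs)
    unfold wOf nHints at h1 ⊢
    simp only [List.map_cons, List.sum_cons]
    have h2 : a.1 * hSlot a.2 k ≤ D * (a.2.length * 2 ^ 40) :=
      Nat.mul_le_mul (hD a (by simp)) (hSlot_le _ _)
    have e : ((a.2.length + (l.map fun s => s.2.length).sum)) * (D * 2 ^ 40)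
        = D * (a.2.length * 2 ^ 40) + (l.map fun s => s.2.length).sum * (D * 2 ^ 40) := by ring
    rw [e]
    omega

/-- Collecting the test values. -/
theorem collect_hints (U : ℕ → ℝ) (hs : List ℕ) {n : ℕ} (hn : ∀ h ∈ hs, hS h < n) :
    (hs.map fun h => (hB h : ℝ) * U (hS h)).sum = ∑ k ∈ range n, (hSlot hs k : ℝ) * U k := by
  induction hs with
  | nil => simp [hSlot]
  | cons a l ih =>
    have h1 := ih fun h hh => hn h (List.mem_cons_of_mem _ hh)
    unfold hSlot at h1 ⊢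
    simp only [List.map_cons, List.sum_cons]
    rw [h1]
    push_cast
    simp only [add_mul]
    rw [Finset.sum_add_distrib]
    congr 1
    have hm : hS a ∈ range n := Finset.mem_range.2 (hn a (by simp))
    rw [Finset.sum_eq_single_of_mem _ hm (fun k _ hk => by rw [if_neg (Ne.symm hk)]; simp)]
    rw [if_pos rfl]

theorem collect_srcs (U : ℕ → ℝ) (srcs : List (ℕ × List ℕ)) {n : ℕ} (hn : ∀ s ∈ srcs, ∀ h ∈ s.2, hS h < n) :
    (srcs.map fun s => (s.1 : ℝ) * (s.2.map fun h => (hB h : ℝ) * U (hS h)).sum).sum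
      = ∑ k ∈ range n, (wOf srcs k : ℝ) * U k := by
  induction srcs with
  | nil => simp [wOf]
  | cons a l ih =>
    have h1 := ih fun s hs => hn s (List.mem_cons_of_mem _ hs)
    unfold wOf at h1 ⊢
    simp only [List.map_cons, List.sum_cons]
    rw [h1, collect_hints U a.2 (hn a (by simp)), Finset.mul_sum]
    push_cast
    simp only [add_mul]
    rw [Finset.sum_add_distrib]
    refine congrArg₂ _ (Finset.sum_congr rfl fun k _ => by ring) rfl

/-- A record of a source: position, mass bound and hints. -/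
structure Rec where
  t : ℕ
  L : ℕ
  hs : List ℕ

/-- The total mass read from the digits. -/
def tmass (p : Par) (R G : ℕ) (lats edges : List Rec) : ℕ :=
  (lats.map fun rc => dig p.b p.P R rc.t * rc.L).sum + (edges.map fun rc => dig p.b p.P G rc.t * rc.L).sum

/-- The sources read from the digits. -/
def srcsOf (p : Par) (R G : ℕ) (lats edges : List Rec) : List (ℕ × List ℕ) :=
  (lats.map fun rc => (dig p.b p.P R rc.t, rc.hs)) ++ (edges.map fun rc => (dig p.b p.P G rc.t, rc.hs))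

/-- The mass returned to the vertex image. -/
def vertD (p : Par) (Q T : ℕ) : ℕ := (3 * 2 ^ (p.P + Q) - T) / 2 ^ Q

/-- The next state: all slots of the child, still with some bits above the digits. -/
def nextSt (p : Par) (S Q : ℕ) (lats edges : List Rec) (hv : List ℕ) (R G : ℕ) : ℕ :=
  if tmass p R G lats edges ≤ 3 * 2 ^ (p.P + Q) then
    srcVal S (srcsOf p R G lats edges ++ [(vertD p Q (tmass p R G lats edges), hv)]) >>> Q
  else 0

/-- The triple of a position. -/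
def tripOf (p : Par) (t : ℕ) : ℕ × ℕ × ℕ := (3 * p.W - t % p.N - t / p.N, t % p.N, t / p.N)

theorem tri_nd (p : Par) (t : ℕ) (h : t % p.N + t / p.N ≤ 3 * p.W) :
    tri (p.nd t) 0 = (((tripOf p t).1 : ℕ) : ℤ) - p.W ∧ tri (p.nd t) 1 = (((tripOf p t).2.1 : ℕ) : ℤ) - p.W ∧
      tri (p.nd t) 2 = (((tripOf p t).2.2 : ℕ) : ℤ) - p.W := by
  unfold tripOf Par.nd
  refine ⟨?_, rfl, rfl⟩
  change -(((t % p.N : ℕ) : ℤ) - p.W) - (((t / p.N : ℕ) : ℤ) - p.W) = _
  simp only
  omega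

/-- Validity of a list of hints for a vector. -/
def HintOK (Q : ℕ) (tgt : ℕ → Vec) (y : Vec) (hs : List ℕ) : Prop :=
  NN (y - (hs.map fun h => ((6 / 2 ^ Q : ℝ) * (hB h : ℝ)) • tgt h).sum)

theorem src_bound {ψ : Vec → ℝ} (hψ : IsTest ψ) {Q : ℕ} {tgt : ℕ → Vec} {U : ℕ → ℝ} {y : Vec} {hs : List ℕ}
    (hn : ∀ h ∈ hs, NN (tgt h)) (hu : ∀ h ∈ hs, ψ (tgt h) = U (hS h)) (hy : HintOK Q tgt y hs) :
    ψ y ≤ (6 / 2 ^ Q : ℝ) * (hs.map fun h => (hB h : ℝ) * U (hS h)).sum := by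
  have := hψ.split_list hs (fun h => (6 / 2 ^ Q : ℝ) * (hB h : ℝ)) tgt (fun h _ => by positivity) hn hy
  refine this.trans (le_of_eq ?_)
  rw [← List.sum_map_mul_left]
  congr 1
  refine List.map_congr_left fun h hh => ?_
  rw [hu h hh]
  ring

/-- The hypotheses on the table of one level, in real form. -/
structure ReadOK (p : Par) (ρ μ' : ℝ) (S Q n : ℕ) (lats edges : List Rec) (hv : List ℕ) (tgt : ℕ → Vec)
    (U : (Vec → ℝ) → ℕ → ℝ) : Prop where
  lat_box : ∀ rc ∈ lats, rc.t ∈ p.boxS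
  lat_tri : ∀ rc ∈ lats, rc.t % p.N + rc.t / p.N ≤ 3 * p.W
  lat_hint : ∀ rc ∈ lats, HintOK Q tgt
    (((orbCount (tripOf p rc.t).1 (tripOf p rc.t).2.1 (tripOf p rc.t).2.2 : ℕ) : ℝ) • Lμ μ' (V ρ (p.nd rc.t))) rc.hs
  lat_mass : ∀ rc ∈ lats,
    ((orbCount (tripOf p rc.t).1 (tripOf p rc.t).2.1 (tripOf p rc.t).2.2 : ℕ) : ℝ) * Lin (V ρ (p.nd rc.t))
      ≤ (rc.L : ℝ) / 2 ^ Q
  lat_disj : lats.Pairwise fun a b => Disjoint (orbit (p.nd a.t)) (orbit (p.nd b.t))
  edge_box : ∀ rc ∈ edges, rc.t ∈ p.boxS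
  edge_hint : ∀ rc ∈ edges, HintOK Q tgt ((3 : ℝ) • Lμ μ' (VE ρ (p.nd rc.t))) rc.hs
  edge_mass : ∀ rc ∈ edges, 3 * Lin (VE ρ (p.nd rc.t)) ≤ (rc.L : ℝ) / 2 ^ Q
  edge_pos : (edges.map fun rc => rc.t).Nodup
  vert_hint : HintOK Q tgt (Le0 μ') hv
  slots : (∀ rc ∈ lats, ∀ h ∈ rc.hs, hS h < n) ∧ (∀ rc ∈ edges, ∀ h ∈ rc.hs, hS h < n) ∧ ∀ h ∈ hv, hS h < n
  tgt_nn : ∀ h, NN (tgt h)
  tgt_val : ∀ ψ, IsTest ψ → ∀ h, ψ (tgt h) = U ψ (hS h)
  U_nonpos : ∀ ψ, IsTest ψ → ∀ k, U ψ k ≤ 0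
  hQ : Q + p.P ≤ S
  count : (((lats.map fun rc => rc.hs.length).sum + (edges.map fun rc => rc.hs.length).sum + hv.length)
    * (4 * 2 ^ p.P * 2 ^ 40)) < 2 ^ S

theorem nHints_srcs (p : Par) (R G D : ℕ) (lats edges : List Rec) (hv : List ℕ) :
    nHints (srcsOf p R G lats edges ++ [(D, hv)])
      = (lats.map fun rc => rc.hs.length).sum + (edges.map fun rc => rc.hs.length).sum + hv.length := by
  unfold nHints srcsOf
  simp [List.map_append, List.sum_append, Function.comp_def]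
  ring

/-- The list form of the bound for a part of the sources. -/
theorem list_part {α : Type*} (l : List α) (a D L : α → ℝ) (y : α → Vec) (ℓ : α → ℝ) (V₀ : α → Vec) (hs : α → List ℕ)
    {ψ : Vec → ℝ} {P Q : ℕ} {c : ℝ} (hc : c ≤ 0) {U : ℕ → ℝ} (ha : ∀ x ∈ l, a x = D x / 2 ^ P)
    (hD : ∀ x ∈ l, 0 ≤ D x)
    (hy : ∀ x ∈ l, ψ (y x) ≤ (6 / 2 ^ Q : ℝ) * ((hs x).map fun h => (hB h : ℝ) * U (hS h)).sum)
    (hl : ∀ x ∈ l, ℓ x ≤ L x / 2 ^ Q) :
    (l.map fun x => a x * (ψ (y x) - ℓ x * c)).sum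
      ≤ (6 / (2 ^ P * 2 ^ Q) : ℝ) * (l.map fun x => D x * ((hs x).map fun h => (hB h : ℝ) * U (hS h)).sum).sum
        - ((l.map fun x => D x * L x).sum / (2 ^ P * 2 ^ Q)) * c := by
  induction l with
  | nil => simp
  | cons x l ih =>
    have h1 := ih (fun z hz => ha z (List.mem_cons_of_mem _ hz)) (fun z hz => hD z (List.mem_cons_of_mem _ hz))
      (fun z hz => hy z (List.mem_cons_of_mem _ hz)) (fun z hz => hl z (List.mem_cons_of_mem _ hz))
    simp only [List.map_cons, List.sum_cons]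
    have h2 := hy x (by simp)
    have h3 := hl x (by simp)
    have h4 := ha x (by simp)
    have h5 := hD x (by simp)
    rw [h4]
    have hPQ : (0 : ℝ) < 2 ^ P * 2 ^ Q := by positivity
    have hP : (0 : ℝ) < 2 ^ P := by positivity
    have hQ : (0 : ℝ) < 2 ^ Q := by positivity
    have h6 : D x / 2 ^ P * ψ (y x) ≤ D x / 2 ^ P * ((6 / 2 ^ Q : ℝ) * ((hs x).map fun h => (hB h : ℝ) * U (hS h)).sum) :=
      mul_le_mul_of_nonneg_left h2 (by positivity)
    have h7 : -(D x / 2 ^ P * (ℓ x * c)) ≤ -(D x / 2 ^ P * (L x / 2 ^ Q * c)) := by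
      have : (L x / 2 ^ Q) * c ≤ ℓ x * c := mul_le_mul_of_nonpos_right h3 hc
      have h8 := mul_le_mul_of_nonneg_left this (show 0 ≤ D x / 2 ^ P by positivity)
      linarith
    have e1 : D x / 2 ^ P * ((6 / 2 ^ Q : ℝ) * ((hs x).map fun h => (hB h : ℝ) * U (hS h)).sum)
        = (6 / (2 ^ P * 2 ^ Q) : ℝ) * (D x * ((hs x).map fun h => (hB h : ℝ) * U (hS h)).sum) := by
      field_simp
    have e2 : D x / 2 ^ P * (L x / 2 ^ Q * c) = (D x * L x) / (2 ^ P * 2 ^ Q) * c := by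
      field_simp
    rw [e1] at h6
    rw [e2] at h7
    rw [mul_add, add_div, add_mul]
    have e3 : D x / 2 ^ P * (ψ (y x) - ℓ x * c) = D x / 2 ^ P * ψ (y x) - D x / 2 ^ P * (ℓ x * c) := by ring
    rw [e3]
    linarith

/-- Reading a level. -/
theorem read_sound {p : Par} {ρ : ℝ} (hρ : 0 < ρ) {A : (Vec → ℝ) → ℝ} (hA : IsFun A) (hm : A Lin = 3) {R G : ℕ}
    (hI : Inv p ρ A R G) {μ μ' : ℝ} (h0 : 0 ≤ μ) (hμ : μ ≤ μ') (h1 : μ' ≤ 1 / 2) {S Q n : ℕ} {lats edges : List Rec}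
    {hv : List ℕ} {tgt : ℕ → Vec} {U : (Vec → ℝ) → ℕ → ℝ} (hR : ReadOK p ρ μ' S Q n lats edges hv tgt U)
    (hPb : p.P ≤ p.b) {ψ : Vec → ℝ} (hψ : IsTest ψ) :
    chanF μ A ψ ≤ (6 / 2 ^ p.P : ℝ) * ∑ k ∈ range n, (dig S p.P (nextSt p S Q lats edges hv R G) k : ℝ) * U ψ k := by
  obtain ⟨rr, gg, f, g, hRe, hGe, hrr, hgg, h0r, h0g, hler, hleg, hf, hg, Sf, dA⟩ := hI.ex
  have hm0 : 0 ≤ μ' := h0.trans hμ
  have hm1 : μ ≤ 1 / 2 := hμ.trans h1
  have hP : (0 : ℝ) < 2 ^ p.P := by positivity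
  have hQ : (0 : ℝ) < 2 ^ Q := by positivity
  -- the trivial case
  by_cases hT : tmass p R G lats edges ≤ 3 * 2 ^ (p.P + Q)
  swap
  · have h2 : chanF μ A ψ ≤ 0 := by
      have := hA.mono _ _ (hψ.adm.comp_L h0 hm1) Adm.zero fun x hx => hψ.nonpos (NN_Lμ h0 hm1 hx)
      rwa [hA.zero] at this
    unfold nextSt
    rw [if_neg hT]
    have : ∀ k, dig S p.P 0 k = 0 := fun k => by simp [dig]
    simpa [this] using h2
  -- digits of the parent
  have hdR : ∀ rc : Rec, rc.t ∈ p.boxS → dig p.b p.P R rc.t = rr rc.t := fun rc hb => by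
    rw [hRe]
    exact dig_eq hPb hrr (Finset.mem_range.1 (Finset.mem_filter.1 hb).1)
  have hdG : ∀ rc : Rec, rc.t ∈ p.boxS → dig p.b p.P G rc.t = gg rc.t := fun rc hb => by
    rw [hGe]
    exact dig_eq hPb hgg (Finset.mem_range.1 (Finset.mem_filter.1 hb).1)
  set φ := chanTest μ' ψ with hφdef
  have hφ : IsTest φ := chanTest_isTest hψ hm0 h1
  set c := ψ (Le0 μ') with hcdef
  have hLe : NN (Le0 μ') := NN_Lμ hm0 h1 (by intro i; fin_cases i <;> simp)
  have hc : c ≤ 0 := hψ.nonpos hLe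
  -- the channel
  have h2 : chanF μ A ψ ≤ A φ + 3 * c := by
    have h3 : chanF μ A ψ ≤ chanF μ' A ψ :=
      hA.mono _ _ (hψ.adm.comp_L h0 hm1) (hψ.adm.comp_L hm0 h1) fun x hx => hψ.L_mono h0 hμ h1 hx
    refine h3.trans (le_of_eq ?_)
    unfold chanF
    rw [← hm, mul_comm (A Lin), ← hA.smul _ _ adm_lin, ← hA.add _ _ hφ.adm (adm_lin.const_mul _)]
    refine hA.congr (hψ.adm.comp_L hm0 h1) (hφ.adm.add (adm_lin.const_mul _)) fun x _ => ?_
    rw [hφdef]
    unfold chanTest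
    ring
  have h3 := dA φ hφ
  -- reading through orbits
  set oo : Rec → ℝ := fun rc => ((orbCount (tripOf p rc.t).1 (tripOf p rc.t).2.1 (tripOf p rc.t).2.2 : ℕ) : ℝ) with hoo
  have hval : val ρ φ f ≤ (lats.map fun rc => ((dig p.b p.P R rc.t : ℝ) / 2 ^ p.P) * (oo rc * φ (V ρ (p.nd rc.t)))).sum := by
    refine evalF_le_family (fun n => hφ.nonpos (V_nn hρ n)) hf lats (fun rc => orbit (p.nd rc.t)) ?_ _ ?_
    · exact hR.lat_disj
    · intro rc hrc
      rw [orbit_sum hρ Sf hφ, hdR rc (hR.lat_box rc hrc)]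
      obtain ⟨a0, a1, a2⟩ := tri_nd p rc.t (hR.lat_tri rc hrc)
      have hcard := orbCount_le a0 a1 a2
      have h4 := hler rc.t (hR.lat_box rc hrc)
      have hv0 : φ (V ρ (p.nd rc.t)) ≤ 0 := hφ.nonpos (V_nn hρ _)
      have hcard' : oo rc ≤ ((orbit (p.nd rc.t)).card : ℝ) := by
        simp only [hoo]
        exact_mod_cast hcard
      have ho0 : 0 ≤ oo rc := by positivity
      have hr0 : (0 : ℝ) ≤ (rr rc.t : ℝ) / 2 ^ p.P := by positivity
      have h5 : oo rc * ((rr rc.t : ℝ) / 2 ^ p.P) ≤ ((orbit (p.nd rc.t)).card : ℝ) * f (p.nd rc.t) :=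
        mul_le_mul hcard' h4 hr0 (by positivity)
      have h6 := mul_le_mul_of_nonpos_right h5 hv0
      calc _ = ((orbit (p.nd rc.t)).card : ℝ) * f (p.nd rc.t) * φ (V ρ (p.nd rc.t)) := by ring
        _ ≤ _ := h6
        _ = _ := by ring
  have hvalE : valE ρ φ g ≤ (edges.map fun rc => ((dig p.b p.P G rc.t : ℝ) / 2 ^ p.P) * φ (VE ρ (p.nd rc.t))).sum := by
    refine evalF_le_family (fun n => hφ.nonpos (VE_nn hρ n)) hg edges (fun rc => {p.nd rc.t}) ?_ _ ?_
    · have := hR.edge_pos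
      rw [List.nodup_iff_pairwise_ne, List.pairwise_map] at this
      refine this.imp_of_mem fun {a b} ha hb hne => ?_
      rw [Finset.disjoint_singleton]
      intro hab
      apply hne
      have ha' := hR.edge_box a ha
      have hb' := hR.edge_box b hb
      have e1 := Nat.mod_add_div a.t p.N
      have e2 := Nat.mod_add_div b.t p.N
      unfold Par.nd at hab
      simp only [Prod.mk.injEq, sub_left_inj, Nat.cast_inj] at hab
      rw [← e1, ← e2, hab.1, hab.2]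
    · intro rc hrc
      rw [Finset.sum_singleton, hdG rc (hR.edge_box rc hrc)]
      exact mul_le_mul_of_nonpos_right (hleg rc.t (hR.edge_box rc hrc)) (hφ.nonpos (VE_nn hρ _))
  -- expansion
  have hU := hR.U_nonpos ψ hψ
  have hsb : ∀ {y : Vec} {hs : List ℕ}, HintOK Q tgt y hs →
      ψ y ≤ (6 / 2 ^ Q : ℝ) * (hs.map fun h => (hB h : ℝ) * U ψ (hS h)).sum := fun hy =>
    src_bound hψ (fun h _ => hR.tgt_nn h) (fun h _ => hR.tgt_val ψ hψ h) hy
  have hlatpart := list_part lats (fun rc => (dig p.b p.P R rc.t : ℝ) / 2 ^ p.P) (fun rc => (dig p.b p.P R rc.t : ℝ))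
    (fun rc => (rc.L : ℝ)) (fun rc => oo rc • Lμ μ' (V ρ (p.nd rc.t))) (fun rc => oo rc * Lin (V ρ (p.nd rc.t)))
    (fun _ => 0) (fun rc => rc.hs) (ψ := ψ) (P := p.P) (Q := Q) hc (U := U ψ) (fun _ _ => rfl) (fun _ _ => by positivity)
    (fun rc hrc => hsb (hR.lat_hint rc hrc)) (fun rc hrc => hR.lat_mass rc hrc)
  have hedgepart := list_part edges (fun rc => (dig p.b p.P G rc.t : ℝ) / 2 ^ p.P) (fun rc => (dig p.b p.P G rc.t : ℝ))
    (fun rc => (rc.L : ℝ)) (fun rc => (3 : ℝ) • Lμ μ' (VE ρ (p.nd rc.t))) (fun rc => 3 * Lin (VE ρ (p.nd rc.t)))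
    (fun _ => 0) (fun rc => rc.hs) (ψ := ψ) (P := p.P) (Q := Q) hc (U := U ψ) (fun _ _ => rfl) (fun _ _ => by positivity)
    (fun rc hrc => hsb (hR.edge_hint rc hrc)) (fun rc hrc => hR.edge_mass rc hrc)
  have hlatE : (lats.map fun rc => ((dig p.b p.P R rc.t : ℝ) / 2 ^ p.P) * (oo rc * φ (V ρ (p.nd rc.t)))).sum
      = (lats.map fun rc => ((dig p.b p.P R rc.t : ℝ) / 2 ^ p.P)
          * (ψ (oo rc • Lμ μ' (V ρ (p.nd rc.t))) - (oo rc * Lin (V ρ (p.nd rc.t))) * c)).sum := by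
    congr 1
    refine List.map_congr_left fun rc _ => ?_
    have ho0 : 0 ≤ oo rc := by positivity
    rw [hψ.hom _ _ ho0 (NN_Lμ hm0 h1 (V_nn hρ _)), hφdef]
    unfold chanTest
    ring
  have hedgeE : 3 * (edges.map fun rc => ((dig p.b p.P G rc.t : ℝ) / 2 ^ p.P) * φ (VE ρ (p.nd rc.t))).sum
      = (edges.map fun rc => ((dig p.b p.P G rc.t : ℝ) / 2 ^ p.P)
          * (ψ ((3 : ℝ) • Lμ μ' (VE ρ (p.nd rc.t))) - (3 * Lin (VE ρ (p.nd rc.t))) * c)).sum := by
    rw [← List.sum_map_mul_left]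
    congr 1
    refine List.map_congr_left fun rc _ => ?_
    rw [hψ.hom _ _ (by norm_num) (NN_Lμ hm0 h1 (VE_nn hρ _)), hφdef]
    unfold chanTest
    ring
  -- the vertex
  set T := tmass p R G lats edges with hTdef
  set Dc := vertD p Q T with hDc
  have hTcast : (T : ℝ) = (lats.map fun rc => (dig p.b p.P R rc.t : ℝ) * (rc.L : ℝ)).sum
      + (edges.map fun rc => (dig p.b p.P G rc.t : ℝ) * (rc.L : ℝ)).sum := by
    rw [hTdef]
    unfold tmass
    push_cast
    simp only [Nat.cast_list_sum, List.map_map, Function.comp_def, Nat.cast_mul]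
  have hcomp : (3 - (T : ℝ) / (2 ^ p.P * 2 ^ Q)) * c ≤ ((Dc : ℝ) / 2 ^ p.P) * c := by
    refine mul_le_mul_of_nonpos_right ?_ hc
    have h7 : Dc * 2 ^ Q ≤ 3 * 2 ^ (p.P + Q) - T := Nat.div_mul_le_self _ _
    have h8 : (Dc : ℝ) * 2 ^ Q ≤ 3 * 2 ^ (p.P + Q) - (T : ℝ) := by
      have : ((Dc * 2 ^ Q : ℕ) : ℝ) ≤ ((3 * 2 ^ (p.P + Q) - T : ℕ) : ℝ) := by exact_mod_cast h7
      rw [Nat.cast_sub hT] at this
      push_cast at this
      exact this
    rw [pow_add] at h8
    have hPQ : (0 : ℝ) < 2 ^ p.P * 2 ^ Q := by positivity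
    rw [div_le_iff₀ hP, sub_mul, div_mul_eq_mul_div, le_sub_iff_add_le, ← le_sub_iff_add_le', div_le_iff₀ hPQ]
    nlinarith
  have hvert := hsb hR.vert_hint
  have hvert2 : ((Dc : ℝ) / 2 ^ p.P) * c
      ≤ (6 / (2 ^ p.P * 2 ^ Q) : ℝ) * ((Dc : ℝ) * (hv.map fun h => (hB h : ℝ) * U ψ (hS h)).sum) := by
    have := mul_le_mul_of_nonneg_left hvert (show 0 ≤ (Dc : ℝ) / 2 ^ p.P by positivity)
    refine this.trans (le_of_eq ?_)
    field_simp
  -- collecting
  set srcs := srcsOf p R G lats edges ++ [(Dc, hv)] with hsrcs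
  have hslots : ∀ s ∈ srcs, ∀ h ∈ s.2, hS h < n := by
    intro s hs h hh
    rw [hsrcs] at hs
    unfold srcsOf at hs
    simp only [List.mem_append, List.mem_map, List.mem_singleton] at hs
    rcases hs with (⟨rc, hrc, rfl⟩ | ⟨rc, hrc, rfl⟩) | rfl
    · exact hR.slots.1 rc hrc h hh
    · exact hR.slots.2.1 rc hrc h hh
    · exact hR.slots.2.2 h hh
  have hcoll := collect_srcs (U ψ) srcs hslots
  have hsplit : (srcs.map fun s => (s.1 : ℝ) * (s.2.map fun h => (hB h : ℝ) * U ψ (hS h)).sum).sum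
      = (lats.map fun rc => (dig p.b p.P R rc.t : ℝ) * (rc.hs.map fun h => (hB h : ℝ) * U ψ (hS h)).sum).sum
        + (edges.map fun rc => (dig p.b p.P G rc.t : ℝ) * (rc.hs.map fun h => (hB h : ℝ) * U ψ (hS h)).sum).sum
        + (Dc : ℝ) * (hv.map fun h => (hB h : ℝ) * U ψ (hS h)).sum := by
    rw [hsrcs]
    unfold srcsOf
    simp [List.map_append, List.sum_append, Function.comp_def]
    ring
  have hchain : chanF μ A ψ ≤ (6 / (2 ^ p.P * 2 ^ Q) : ℝ) * ∑ k ∈ range n, (wOf srcs k : ℝ) * U ψ k := by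
    rw [← hcoll, hsplit]
    have hPQ : (0 : ℝ) < 2 ^ p.P * 2 ^ Q := by positivity
    have e9 : (3 - (T : ℝ) / (2 ^ p.P * 2 ^ Q)) * c = 3 * c - (T : ℝ) / (2 ^ p.P * 2 ^ Q) * c := by ring
    rw [e9] at hcomp
    rw [hTcast, add_div, add_mul] at hcomp
    rw [mul_add, mul_add]
    linarith [hlatpart, hedgepart, hcomp, hvert2, h2, h3, hval, hvalE, hlatE, hedgeE]
  -- digits of the state
  have hDmax : ∀ s ∈ srcs, s.1 ≤ 4 * 2 ^ p.P := by
    intro s hs
    rw [hsrcs] at hs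
    unfold srcsOf at hs
    simp only [List.mem_append, List.mem_map, List.mem_singleton] at hs
    have hlt : ∀ x t, dig p.b p.P x t ≤ 4 * 2 ^ p.P := fun x t => by
      have : dig p.b p.P x t < 2 ^ p.P := Nat.mod_lt _ (by positivity)
      omega
    rcases hs with (⟨rc, hrc, rfl⟩ | ⟨rc, hrc, rfl⟩) | rfl
    · exact hlt _ _
    · exact hlt _ _
    · have h7 : Dc * 2 ^ Q ≤ 3 * 2 ^ (p.P + Q) - T := Nat.div_mul_le_self _ _
      have h8 : Dc * 2 ^ Q ≤ (4 * 2 ^ p.P) * 2 ^ Q := by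
        calc _ ≤ 3 * 2 ^ (p.P + Q) - T := h7
          _ ≤ 3 * 2 ^ (p.P + Q) := Nat.sub_le _ _
          _ ≤ 4 * 2 ^ (p.P + Q) := by omega
          _ = _ := by rw [pow_add]; ring
      exact Nat.le_of_mul_le_mul_right h8 (by positivity)
  have hwlt : ∀ k, wOf srcs k < 2 ^ S := fun k => by
    have h7 := wOf_le srcs hDmax k
    have h8 := hR.count
    rw [hsrcs, nHints_srcs] at h7
    have e : 4 * 2 ^ p.P * 2 ^ 40 = 4 * 2 ^ p.P * 2 ^ 40 := rfl
    exact lt_of_le_of_lt h7 h8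
  have hstate : nextSt p S Q lats edges hv R G = (∑ k ∈ range n, wOf srcs k * (2 ^ S) ^ k) >>> Q := by
    unfold nextSt
    rw [if_pos hT, ← srcVal_eq S srcs hslots]
  have hdig : ∀ k ∈ range n, dig S p.P (nextSt p S Q lats edges hv R G) k = ((wOf srcs k) >>> Q) % 2 ^ p.P := by
    intro k hk
    rw [hstate]
    unfold dig
    have := shift_digit (b := S) (u := Q) (P := p.P) hR.hQ (wOf srcs) hwlt n 0 k
    simp only [mul_zero, add_zero, zero_add] at this
    rw [this, if_pos (Finset.mem_range.1 hk)]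
  refine hchain.trans ?_
  rw [show (6 / 2 ^ p.P : ℝ) = (6 / (2 ^ p.P * 2 ^ Q)) * 2 ^ Q by field_simp, mul_assoc]
  refine mul_le_mul_of_nonneg_left ?_ (by positivity)
  rw [Finset.mul_sum]
  refine Finset.sum_le_sum fun k hk => ?_
  rw [hdig k hk]
  have h9 := floor_le (wOf srcs k) Q p.P
  have h10 : (((wOf srcs k >>> Q) % 2 ^ p.P : ℕ) : ℝ) * 2 ^ Q ≤ (wOf srcs k : ℝ) := by exact_mod_cast h9
  have := mul_le_mul_of_nonpos_right h10 (hU k)
  calc _ ≤ _ := this
    _ = _ := by ring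

end Vale.Agent.Lib.P154B
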