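import Vale.Agent.Lib.P154B.Lat
import Vale.Agent.Lib.P154.Tree

/-!
Signals as functionals, comparison of functionals in the test order, and monotonicity of the tree levels in
the channel strength and in the level.
-/

noncomputable section

open Finset Filter Topology

namespace Vale.Agent.Lib.P154B

open Vale.Agent.Lib.P154

variable {ι κ : Type*} [Fintype ι] [Fintype κ]

/-- The functional of a signal. -/
def sigFun (l : ι → Fin 3 → ℝ) : (Vec → ℝ) → ℝ := fun g => ∑ t, g (l t)

/-- A signal with nonnegative entries, unit columns and relabelling symmetry (entries may all vanish). -/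
structure SSig (l : ι → Fin 3 → ℝ) : Prop where
  nonneg : ∀ t i, 0 ≤ l t i
  tot : ∀ i, ∑ t, l t i = 1
  sym : ∀ σ : Equiv.Perm (Fin 3), ∃ π : Equiv.Perm ι, ∀ t i, l (π t) i = l t (σ i)

theorem wsig_toS {l : ι → Fin 3 → ℝ} (h : WSig l) : SSig l := ⟨h.nonneg, h.tot, h.sym⟩

theorem isFun_sigFun {l : ι → Fin 3 → ℝ} (h : SSig l) : IsFun (sigFun l) where
  add := fun g k _ _ => by
    unfold sigFun
    rw [Finset.sum_add_distrib]
  smul := fun c g _ => by
    unfold sigFun
    rw [Finset.mul_sum]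
  mono := fun g k _ _ hgk => Finset.sum_le_sum fun t _ => hgk _ (h.nonneg t)
  sym := fun σ g _ => by
    unfold sigFun
    obtain ⟨π, hπ⟩ := h.sym σ
    rw [← Equiv.sum_comp π (fun t => g (l t))]
    refine Finset.sum_congr rfl fun t _ => ?_
    change g (l t ∘ σ) = g (l (π t))
    congr 1
    funext i
    exact (hπ t i).symm

theorem sigFun_lin {l : ι → Fin 3 → ℝ} (h : SSig l) : sigFun l Lin = 3 := by
  unfold sigFun Lin
  simp only [Finset.sum_add_distrib]
  rw [h.tot, h.tot, h.tot]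
  norm_num

theorem chan_eq_L (μ : ℝ) (l : ι → Fin 3 → ℝ) (t : ι) : chan (-μ) l t = Lμ μ (l t) := by
  funext i
  unfold chan Lμ Lin
  ring

theorem sigFun_chan (μ : ℝ) (l : ι → Fin 3 → ℝ) (g : Vec → ℝ) : sigFun (chan (-μ) l) g = chanF μ (sigFun l) g := by
  unfold sigFun chanF
  refine Finset.sum_congr rfl fun t _ => ?_
  rw [chan_eq_L]

theorem SSig.chan {l : ι → Fin 3 → ℝ} (h : SSig l) {μ : ℝ} (h0 : 0 ≤ μ) (h1 : μ ≤ 1 / 2) : SSig (chan (-μ) l) where
  nonneg := fun t i => by
    rw [chan_eq_L]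
    exact NN_Lμ h0 h1 (h.nonneg t) i
  tot := fun i => by
    unfold P154.chan
    rw [Finset.sum_add_distrib, ← Finset.mul_sum, ← Finset.mul_sum, h.tot]
    simp only [Finset.sum_add_distrib]
    rw [h.tot, h.tot, h.tot]
    ring
  sym := fun σ => by
    obtain ⟨π, hπ⟩ := h.sym σ
    refine ⟨π, fun t i => ?_⟩
    rw [chan_eq_L, chan_eq_L, Lμ, Lμ]
    have e : Lin (l (π t)) = Lin (l t) := by
      have : l (π t) = l t ∘ σ := by
        funext j
        exact hπ t j
      rw [this, Lin_comp]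
    rw [e, hπ]

theorem SSig.powS {l : ι → Fin 3 → ℝ} (h : SSig l) (k : ℕ) : SSig (powS k l) where
  nonneg := fun τ i => Finset.prod_nonneg fun c _ => h.nonneg _ _
  tot := fun i => by
    unfold P154.powS
    have := Finset.prod_univ_sum (fun _ : Fin k => (Finset.univ : Finset ι)) (fun _ t => l t i)
    rw [Fintype.piFinset_univ] at this
    rw [← this]
    simp [h.tot]
  sym := fun σ => by
    obtain ⟨π, hπ⟩ := h.sym σ
    refine ⟨Equiv.arrowCongr (Equiv.refl _) π, fun τ i => ?_⟩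
    unfold P154.powS
    refine Finset.prod_congr rfl fun c _ => ?_
    exact hπ (τ c) i

theorem sigFun_powS_succ (k : ℕ) (l : ι → Fin 3 → ℝ) (g : Vec → ℝ) :
    sigFun (powS (k + 1) l) g = tens (sigFun (powS k l)) (sigFun l) g := by
  unfold sigFun tens
  rw [← Equiv.sum_comp (Fin.consEquiv (fun _ : Fin (k + 1) => ι)), Fintype.sum_prod_type, Finset.sum_comm]
  refine Finset.sum_congr rfl fun τ _ => Finset.sum_congr rfl fun t _ => ?_
  congr 1
  funext i
  unfold P154.powS
  simp only [Pi.mul_apply]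
  rw [mul_comm]
  exact Fin.prod_univ_succ _

theorem sigFun_powS_zero (l : ι → Fin 3 → ℝ) (g : Vec → ℝ) : sigFun (powS 0 l) g = unitF 1 g := by
  unfold sigFun unitF
  have : ∀ τ, powS 0 l τ = ![1, 1, 1] := by
    intro τ
    funext i
    unfold P154.powS
    have h : ∀ j : Fin 3, (![1, 1, 1] : Vec) j = 1 := by
      intro j
      fin_cases j <;> simp
    simp [h]
  simp [this]

/-! ### The test order -/

/-- The order of functionals given by tests. -/
def BOrd (A B : (Vec → ℝ) → ℝ) : Prop := ∀ ψ, IsTest ψ → A ψ ≤ B ψ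

theorem BOrd.refl (A : (Vec → ℝ) → ℝ) : BOrd A A := fun _ _ => le_rfl

theorem BOrd.trans {A B C : (Vec → ℝ) → ℝ} (h1 : BOrd A B) (h2 : BOrd B C) : BOrd A C :=
  fun ψ hψ => (h1 ψ hψ).trans (h2 ψ hψ)

/-- The outer function of a product with a functional is a test. -/
theorem outer_isTest {B : (Vec → ℝ) → ℝ} (hB : IsFun B) {ψ : Vec → ℝ} (hψ : IsTest ψ) :
    IsTest fun x => B fun y => ψ (x * y) where
  sub := fun x z hx hz => by
    rw [← hB.add _ _ (hψ.adm.inner hx) (hψ.adm.inner hz)]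
    refine hB.mono _ _ (hψ.adm.inner (hx.add hz)) ((hψ.adm.inner hx).add (hψ.adm.inner hz)) fun y hy => ?_
    rw [add_mul]
    exact hψ.sub _ _ (hx.mul hy) (hz.mul hy)
  hom := fun c x hc hx => by
    rw [← hB.smul _ _ (hψ.adm.inner hx)]
    refine hB.congr (hψ.adm.inner (hx.smul hc)) ((hψ.adm.inner hx).const_mul c) fun y hy => ?_
    rw [smul_mul_assoc]
    exact hψ.hom _ _ hc (hx.mul hy)
  perm := fun σ x hx => by
    have h1 := hB.sym σ (fun y => ψ ((x ∘ σ) * y)) (hψ.adm.inner (hx.comp σ))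
    rw [← h1]
    refine hB.congr ((hψ.adm.inner (hx.comp σ)).comp_perm σ) (hψ.adm.inner hx) fun y hy => ?_
    rw [← mul_comp]
    exact hψ.perm σ _ (hx.mul hy)
  vert := by
    have : (B fun y => ψ ((![1, 0, 0] : Vec) * y)) = B fun _ => 0 := by
      refine hB.congr (hψ.adm.inner (by intro i; fin_cases i <;> simp)) Adm.zero fun y hy => ?_
      have e : (![1, 0, 0] : Vec) * y = ![y 0, 0, 0] := by
        funext i
        fin_cases i <;> simp
      rw [e]
      exact hψ.single0 _ (hy 0)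
    rw [this, hB.zero]

/-- Products respect the test order. -/
theorem BOrd.tens {A A' B B' : (Vec → ℝ) → ℝ} (hA : IsFun A) (hB : IsFun B) (hB' : IsFun B')
    (h1 : BOrd A A') (h2 : BOrd B B') : BOrd (tens A B) (tens A' B') := by
  intro ψ hψ
  have hin : ∀ x, NN x → (B fun y => ψ (x * y)) ≤ B' fun y => ψ (x * y) := by
    intro x hx
    have e1 : ∀ C : (Vec → ℝ) → ℝ, IsFun C → C (fun y => ψ (x * y)) = C (symR ψ x) := fun C hC => by
      unfold symR
      exact (hC.avg_sym (hψ.adm.inner hx)).symm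
    rw [e1 B hB, e1 B' hB']
    exact h2 _ (symR_isTest hψ hx)
  have h3 : P154B.tens A B ψ ≤ A fun x => B' fun y => ψ (x * y) :=
    hA.mono _ _ (hψ.adm.outer hB) (hψ.adm.outer hB') hin
  exact h3.trans (h1 _ (outer_isTest hB' hψ))

/-- The channel respects the test order, with a stronger channel above. -/
theorem BOrd.chan {A A' : (Vec → ℝ) → ℝ} (hA : IsFun A) (hA' : IsFun A') (hm : A Lin = A' Lin)
    (h1 : BOrd A A') {μ μ' : ℝ} (h0 : 0 ≤ μ) (hμ : μ ≤ μ') (h2 : μ' ≤ 1 / 2) :
    BOrd (chanF μ A) (chanF μ' A') := by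
  intro ψ hψ
  have h3 : chanF μ A ψ ≤ chanF μ' A ψ :=
    hA.mono _ _ (hψ.adm.comp_L h0 (hμ.trans h2)) (hψ.adm.comp_L (h0.trans hμ) h2) fun x hx => hψ.L_mono h0 hμ h2 hx
  refine h3.trans ?_
  have hT := chanTest_isTest hψ (h0.trans hμ) h2
  have h4 := h1 _ hT
  have e : ∀ C : (Vec → ℝ) → ℝ, IsFun C → chanF μ' C ψ = C (chanTest μ' ψ) + C Lin * ψ (Le0 μ') := by
    intro C hC
    unfold P154B.chanF
    rw [mul_comm (C Lin), ← hC.smul _ _ adm_lin, ← hC.add _ _ hT.adm (adm_lin.const_mul _)]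
    refine hC.congr (hψ.adm.comp_L (h0.trans hμ) h2) (hT.adm.add (adm_lin.const_mul _)) fun x _ => ?_
    unfold chanTest
    ring
  rw [e A hA, e A' hA', hm]
  linarith

theorem BOrd.powS {l : ι → Fin 3 → ℝ} {l' : κ → Fin 3 → ℝ} (hl : SSig l) (hl' : SSig l')
    (h : BOrd (sigFun l) (sigFun l')) (k : ℕ) : BOrd (sigFun (powS k l)) (sigFun (powS k l')) := by
  induction k with
  | zero =>
    intro ψ _
    rw [sigFun_powS_zero, sigFun_powS_zero]
  | succ k ih =>
    intro ψ hψ
    rw [sigFun_powS_succ, sigFun_powS_succ]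
    exact BOrd.tens (isFun_sigFun (hl.powS k)) (isFun_sigFun hl) (isFun_sigFun hl') ih h ψ hψ

/-! ### The levels of the tree -/

theorem lev_zero_s (d : ℕ) (lam : ℝ) : SSig (lev d lam 0) := wsig_toS (lev_zero_wsig d lam)

theorem lev_ssig (d : ℕ) {μ : ℝ} (h0 : 0 ≤ μ) (h1 : μ ≤ 1 / 2) : ∀ n, SSig (lev d (-μ) n)
  | 0 => lev_zero_s d _
  | n + 1 => by
    rw [lev_succ]
    exact ((lev_ssig d h0 h1 n).chan h0 h1).powS d

/-- Levels are monotone in the channel strength. -/
theorem lev_mono_mu (d : ℕ) {μ μ' : ℝ} (h0 : 0 ≤ μ) (hμ : μ ≤ μ') (h1 : μ' ≤ 1 / 2) (n : ℕ) :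
    BOrd (sigFun (lev d (-μ) n)) (sigFun (lev d (-μ') n)) := by
  have hm1 : μ ≤ 1 / 2 := hμ.trans h1
  have hm2 : 0 ≤ μ' := h0.trans hμ
  induction n with
  | zero =>
    intro ψ _
    exact le_of_eq rfl
  | succ n ih =>
    rw [lev_succ, lev_succ]
    have hs := lev_ssig d h0 hm1 n
    have hs' := lev_ssig d hm2 h1 n
    refine BOrd.powS (hs.chan h0 hm1) (hs'.chan hm2 h1) ?_ d
    intro ψ hψ
    rw [sigFun_chan, sigFun_chan]
    exact BOrd.chan (isFun_sigFun hs) (isFun_sigFun hs') (by rw [sigFun_lin hs, sigFun_lin hs']) ih h0 hμ h1 ψ hψ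

/-- Tests vanish on the vertices: at level zero. -/
theorem sigFun_lev_zero (d : ℕ) (lam : ℝ) {ψ : Vec → ℝ} (hψ : IsTest ψ) : sigFun (lev d lam 0) ψ = 0 := by
  unfold sigFun
  refine Finset.sum_eq_zero fun t _ => ?_
  have key : ∀ s : Fin 3, ψ (fun i => if i = s then (1 : ℝ) else 0) = 0 := by
    intro s
    have e0 : (fun i : Fin 3 => if i = (0 : Fin 3) then (1 : ℝ) else 0) = ![1, 0, 0] := by
      funext i
      fin_cases i <;> simp
    have e1 : (fun i : Fin 3 => if i = (1 : Fin 3) then (1 : ℝ) else 0) = ![0, 1, 0] := by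
      funext i
      fin_cases i <;> simp
    have e2 : (fun i : Fin 3 => if i = (2 : Fin 3) then (1 : ℝ) else 0) = ![0, 0, 1] := by
      funext i
      fin_cases i <;> simp
    fin_cases s
    · exact e0 ▸ hψ.vert
    · exact e1 ▸ hψ.e1
    · exact e2 ▸ hψ.e2
  exact key _

/-- Levels are monotone in the level. -/
theorem lev_mono_level (d : ℕ) {μ : ℝ} (h0 : 0 ≤ μ) (h1 : μ ≤ 1 / 2) (n : ℕ) :
    BOrd (sigFun (lev d (-μ) (n + 1))) (sigFun (lev d (-μ) n)) := by
  induction n with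
  | zero =>
    intro ψ hψ
    rw [sigFun_lev_zero d _ hψ]
    unfold sigFun
    have hs := lev_ssig d h0 h1 1
    exact Finset.sum_nonpos fun t _ => hψ.nonpos (hs.nonneg t)
  | succ n ih =>
    have hs := lev_ssig d h0 h1 n
    have hs' := lev_ssig d h0 h1 (n + 1)
    have key := BOrd.powS (hs'.chan h0 h1) (hs.chan h0 h1) (fun ψ hψ => by
      rw [sigFun_chan, sigFun_chan]
      exact BOrd.chan (isFun_sigFun hs') (isFun_sigFun hs) (by rw [sigFun_lin hs, sigFun_lin hs']) ih h0 le_rfl h1 ψ hψ) d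
    rw [← lev_succ, ← lev_succ] at key
    exact key

/-! ### The advantage as a test -/

/-- The test of the advantage. -/
def advTest : Vec → ℝ := fun x =>
  (1 / 6) * (|x 0 - Lin x / 3| + |x 1 - Lin x / 3| + |x 2 - Lin x / 3|) - (2 / 9) * Lin x

theorem advTest_isTest : IsTest advTest where
  sub := fun x y hx hy => by
    unfold advTest
    have e : Lin (x + y) = Lin x + Lin y := by
      unfold Lin
      simp only [Pi.add_apply]
      ring
    rw [e]
    simp only [Pi.add_apply]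
    have a0 := abs_add_le (x 0 - Lin x / 3) (y 0 - Lin y / 3)
    have a1 := abs_add_le (x 1 - Lin x / 3) (y 1 - Lin y / 3)
    have a2 := abs_add_le (x 2 - Lin x / 3) (y 2 - Lin y / 3)
    have b0 : x 0 + y 0 - (Lin x + Lin y) / 3 = (x 0 - Lin x / 3) + (y 0 - Lin y / 3) := by ring
    have b1 : x 1 + y 1 - (Lin x + Lin y) / 3 = (x 1 - Lin x / 3) + (y 1 - Lin y / 3) := by ring
    have b2 : x 2 + y 2 - (Lin x + Lin y) / 3 = (x 2 - Lin x / 3) + (y 2 - Lin y / 3) := by ring
    rw [b0, b1, b2]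
    linarith
  hom := fun c x hc _ => by
    unfold advTest
    have e : Lin (c • x) = c * Lin x := by
      unfold Lin
      simp only [Pi.smul_apply, smul_eq_mul]
      ring
    rw [e]
    simp only [Pi.smul_apply, smul_eq_mul]
    have b0 : c * x 0 - c * Lin x / 3 = c * (x 0 - Lin x / 3) := by ring
    have b1 : c * x 1 - c * Lin x / 3 = c * (x 1 - Lin x / 3) := by ring
    have b2 : c * x 2 - c * Lin x / 3 = c * (x 2 - Lin x / 3) := by ring
    rw [b0, b1, b2, abs_mul, abs_mul, abs_mul, abs_of_nonneg hc]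
    ring
  perm := fun σ x _ => by
    unfold advTest
    rw [Lin_comp]
    have e := Equiv.sum_comp σ fun i => |x i - Lin x / 3|
    simp only [Fin.sum_univ_three] at e
    simp only [Function.comp]
    rw [e]
  vert := by
    have h0 : (![1, 0, 0] : Vec) 0 = 1 := rfl
    have h1 : (![1, 0, 0] : Vec) 1 = 0 := rfl
    have h2 : (![1, 0, 0] : Vec) 2 = 0 := rfl
    unfold advTest Lin
    rw [h0, h1, h2]
    rw [abs_of_pos (by norm_num : (0 : ℝ) < 1 - (1 + 0 + 0) / 3),
      abs_of_neg (by norm_num : (0 : ℝ) - (1 + 0 + 0) / 3 < 0)]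
    norm_num

theorem advantage_eq (d : ℕ) {μ : ℝ} (h0 : 0 ≤ μ) (h1 : μ ≤ 1 / 2) (n : ℕ) :
    advantage d 3 (-μ) n = sigFun (lev d (-μ) n) advTest + 2 / 3 := by
  have hs := lev_ssig d h0 h1 n
  have e : sigFun (lev d (-μ) n) advTest
      = sigFun (lev d (-μ) n) (fun x => (1 / 6) * (|x 0 - Lin x / 3| + |x 1 - Lin x / 3| + |x 2 - Lin x / 3|))
        - 2 / 3 := by
    have hl := sigFun_lin hs
    unfold sigFun at hl ⊢
    unfold advTest
    have h5 : ∑ x, (2 / 9 : ℝ) * Lin (lev d (-μ) n x) = 2 / 3 := by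
      rw [← Finset.mul_sum, hl]
      norm_num
    rw [Finset.sum_sub_distrib, h5]
  rw [e, sub_add_cancel]
  unfold advantage sigFun
  refine Finset.sum_congr rfl fun τ _ => ?_
  have e1 : leafProb d 3 (-μ) n τ = Lin (lev d (-μ) n τ) / 3 := by
    unfold leafProb Lin lev
    rw [Fin.sum_univ_three]
    push_cast
    ring
  have hN : 0 ≤ Lin (lev d (-μ) n τ) := NN.lin (hs.nonneg τ)
  rcases hN.eq_or_lt with h2 | h2
  · -- all entries vanish
    have hz : ∀ i, lev d (-μ) n τ i = 0 := by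
      have h3 := hs.nonneg τ
      unfold Lin at h2
      intro i
      have a0 := h3 0
      have a1 := h3 1
      have a2 := h3 2
      fin_cases i
      · change lev d (-μ) n τ 0 = 0
        linarith
      · change lev d (-μ) n τ 1 = 0
        linarith
      · change lev d (-μ) n τ 2 = 0
        linarith
    rw [e1, ← h2, Fin.sum_univ_three]
    simp [hz]
    rw [← h2]
    simp
  · have e2 : ∀ i : Fin 3, rootPost d 3 (-μ) n i τ = lev d (-μ) n τ i / Lin (lev d (-μ) n τ) := by
      intro i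
      unfold rootPost
      rw [e1]
      have : leafLik d 3 (-μ) n i τ = lev d (-μ) n τ i := rfl
      rw [this]
      push_cast
      field_simp
    rw [e1, Fin.sum_univ_three]
    simp only [e2]
    set N := Lin (lev d (-μ) n τ) with hNe
    have a : ∀ v : ℝ, |v / N - 1 / 3| = |v - N / 3| / N := by
      intro v
      have : v / N - 1 / 3 = (v - N / 3) / N := by
        field_simp
      rw [this, abs_div, abs_of_pos h2]
    push_cast
    have b : ((1 : ℝ) / ((3 : ℕ) : ℝ)) = 1 / 3 := by norm_num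
    simp only [Nat.cast_ofNat] at *
    rw [a, a, a]
    field_simp
    ring

/-- The advantage is monotone in the strength of a negative channel. -/
theorem advantage_mono_mu (d : ℕ) {μ μ' : ℝ} (h0 : 0 ≤ μ) (hμ : μ ≤ μ') (h1 : μ' ≤ 1 / 2) (n : ℕ) :
    advantage d 3 (-μ) n ≤ advantage d 3 (-μ') n := by
  rw [advantage_eq d h0 (hμ.trans h1), advantage_eq d (h0.trans hμ) h1]
  have := lev_mono_mu d h0 hμ h1 n advTest advTest_isTest
  linarith

end Vale.Agent.Lib.P154B
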