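import Vale.Agent.Lib.P154B.Level
import Vale.Agent.Lib.P154B.Sig

/-!
Running the phases along a sequence of functionals, the regular tree as such a sequence, and the reading of a
parent level for a test function.
-/

noncomputable section

open Finset

namespace Vale.Agent.Lib.P154B

open Vale.Agent.Lib.P154

/-- Iteration of one phase on the states. -/
def iterSt (ph : Phase) : ℕ → ℕ → ℕ
  | 0, s => s
  | k + 1, s => iterSt ph k (ph.step s)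

theorem step_of_beq {ph : Phase} {s s' : ℕ} (h : Nat.beq (iterSt ph 1 s) s' = true) : ph.step s = s' :=
  Nat.eq_of_beq_eq_true h

/-- A sequence of functionals which the phases can follow. -/
structure FunSeq (A : ℕ → (Vec → ℝ) → ℝ) (μ : ℝ) (P : ℕ) (qs : List ℕ) : Prop where
  h0 : 0 ≤ μ
  isFun : ∀ n, IsFun (A n)
  lin : ∀ n, A n Lin = 3
  step : ∀ n ψ, IsTest ψ → A (n + 1) ψ ≤ hornerFn (chanF μ (A n)) P qs ψ
  start : ∀ ψ, IsTest ψ → A 0 ψ ≤ 0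

/-- What a state says about a functional: a bound for all tests, independent of any packing. -/
def StOK (ρ : ℝ) (r P S : ℕ) (ks : List Trip) (st : ℕ) (B : (Vec → ℝ) → ℝ) : Prop :=
  IsFun B ∧ ∀ ψ, IsTest ψ → B ψ ≤ (6 / 2 ^ P : ℝ) * ∑ k ∈ range (ks.length + 1), (dig S P st k : ℝ) * Uof ρ r ks ψ k

/-- The representatives of the incoming state fit into the packing of the phase. -/
def Phase.chk2 (ph : Phase) : Bool :=
  ph.ks₀.all fun x => Nat.beq (x.1 + x.2.1 + x.2.2) (3 * ph.T.par.r) && Nat.ble x.1 ph.T.par.X && Nat.ble x.2.1 ph.T.par.X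
    && Nat.ble x.2.2 ph.T.par.X

theorem Phase.partner_of_stok {ph : Phase} (hc : ph.check = true) (hc2 : ph.chk2 = true) {st : ℕ} {B : (Vec → ℝ) → ℝ}
    (h : StOK ph.T.Lp.ρ ph.T.par.r ph.T.par.P ph.S₀ ph.ks₀ st B) (hρ : 0 < ph.T.Lp.ρ) :
    PartnerSt ph.T.par ph.T.Lp.ρ ph.S₀ ph.ks₀ st B := by
  unfold Phase.check at hc
  simp only [Bool.and_eq_true, List.all_eq_true] at hc
  obtain ⟨⟨⟨⟨⟨⟨⟨h1, h2⟩, h3⟩, h4⟩, h5⟩, h6⟩, h7⟩, h8⟩ := hc
  obtain ⟨hp, hb1, hPb⟩ := parOk_sound h2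
  refine partner_of_bound hp hρ h.1 (fun x hx => ?_) h.2
  unfold Phase.chk2 at hc2
  rw [List.all_eq_true] at hc2
  have := hc2 x hx
  simp only [Bool.and_eq_true] at this
  obtain ⟨⟨⟨a, b⟩, c⟩, d⟩ := this
  exact ⟨Nat.eq_of_beq_eq_true a, Nat.le_of_ble_eq_true b, Nat.le_of_ble_eq_true c, Nat.le_of_ble_eq_true d⟩

/-- The next state from an invariant of the parent. -/
theorem Phase.stok_of_inv {ph : Phase} (hc : ph.check = true) {R G : ℕ} {A : (Vec → ℝ) → ℝ} (hA : IsFun A) (hm : A Lin = 3)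
    (hI : Inv ph.T.par ph.T.Lp.ρ A R G) {μ : ℝ} (h0 : 0 ≤ μ) (hμ : μ ≤ (ph.T.u : ℝ) / ph.T.w) :
    StOK ph.T.Lc.ρ ph.T.Lc.r ph.T.par.P ph.T.S ph.T.ks (ph.ofParent (R, G)) (chanF μ A) := by
  have hc0 := hc
  unfold Phase.check at hc
  simp only [Bool.and_eq_true, List.all_eq_true] at hc
  obtain ⟨⟨⟨⟨⟨⟨⟨h1, h2⟩, h3⟩, h4⟩, h5⟩, h6⟩, h7⟩, h8⟩ := hc
  obtain ⟨hp, hb1, hPb⟩ := parOk_sound h2
  have h1' := h1
  unfold Tab.check at h1'
  simp only [Bool.and_eq_true, List.all_eq_true] at h1'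
  obtain ⟨⟨⟨⟨⟨⟨⟨⟨⟨⟨⟨⟨⟨⟨⟨⟨⟨⟨a1, a2⟩, a3⟩, a4⟩, a5⟩, a6⟩, a7⟩, a8⟩, a9⟩, a10⟩, a11⟩, a12⟩, a13⟩, a14⟩, a15⟩, a16⟩, a17⟩, a18⟩, a19⟩ := h1'
  obtain ⟨hp1, hp2, hp3, hp4, hks, hR⟩ := Tab.readOK h1
  have hw : 0 < ph.T.w := blt_sound a5
  have huw : 2 * ph.T.u ≤ ph.T.w := Nat.le_of_ble_eq_true a6
  have hμ12 : (ph.T.u : ℝ) / ph.T.w ≤ 1 / 2 := by
    have h2u : (2 : ℝ) * ph.T.u ≤ ph.T.w := by exact_mod_cast huw
    have hwR : (0 : ℝ) < ph.T.w := by exact_mod_cast hw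
    rw [div_le_iff₀ hwR]
    linarith
  exact ⟨hA.chanF h0 (hμ.trans hμ12), fun ψ hψ => read_sound (Lt.rho_pos hp1 hp2) hA hm hI h0 hμ hμ12 hR (by omega) hψ⟩

theorem Phase.run_start {ph : Phase} (hc : ph.check = true) {A : ℕ → (Vec → ℝ) → ℝ} {μ : ℝ} {P : ℕ} {qs : List ℕ}
    (hF : FunSeq A μ P qs) (hμ : μ ≤ (ph.T.u : ℝ) / ph.T.w) :
    StOK ph.T.Lc.ρ ph.T.Lc.r ph.T.par.P ph.T.S ph.T.ks (ph.ofParent (0, 0)) (chanF μ (A 0)) :=
  Phase.stok_of_inv hc (hF.isFun 0) (hF.lin 0) ((Inv.zero ph.T.par ph.T.Lp.ρ).mono hF.start) hF.h0 hμ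

theorem Phase.run_step {ph : Phase} (hc : ph.check = true) (hc2 : ph.chk2 = true) {A : ℕ → (Vec → ℝ) → ℝ} {μ : ℝ}
    (hF : FunSeq A μ ph.T.par.P ph.qs) (hρ : 0 < ph.T.Lp.ρ) (hμ : μ ≤ (ph.T.u : ℝ) / ph.T.w) {n st : ℕ}
    (hB : StOK ph.T.Lp.ρ ph.T.par.r ph.T.par.P ph.S₀ ph.ks₀ st (chanF μ (A n))) :
    StOK ph.T.Lc.ρ ph.T.Lc.r ph.T.par.P ph.T.S ph.T.ks (ph.step st) (chanF μ (A (n + 1))) :=
  Phase.stok_of_inv hc (hF.isFun (n + 1)) (hF.lin (n + 1))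
    ((Phase.parent_inv hc (Phase.partner_of_stok hc hc2 hB hρ) hρ).mono (hF.step n)) hF.h0 hμ

theorem Phase.rho_pos {ph : Phase} (hc : ph.check = true) : 0 < ph.T.Lp.ρ := by
  unfold Phase.check at hc
  simp only [Bool.and_eq_true, List.all_eq_true] at hc
  obtain ⟨⟨⟨⟨⟨⟨⟨h1, h2⟩, h3⟩, h4⟩, h5⟩, h6⟩, h7⟩, h8⟩ := hc
  obtain ⟨hp1, hp2, -⟩ := Tab.readOK h1
  exact Lt.rho_pos hp1 hp2

theorem hm_of {ph : Phase} {μ : ℝ} {u w : ℕ} (hu : ph.T.u = u) (hw : ph.T.w = w) (h : μ ≤ (u : ℝ) / w) :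
    μ ≤ (ph.T.u : ℝ) / ph.T.w := by
  rw [hu, hw]
  exact h

/-- A phase which can be repeated. -/
structure Phase.IsLoop (ph : Phase) : Prop where
  rho : ph.T.Lc.ρ = ph.T.Lp.ρ
  r : ph.T.Lc.r = ph.T.par.r
  S : ph.T.S = ph.S₀
  ks : ph.T.ks = ph.ks₀

theorem Phase.run_loop {ph : Phase} (hc : ph.check = true) (hc2 : ph.chk2 = true) (hl : ph.IsLoop) {A : ℕ → (Vec → ℝ) → ℝ} {μ : ℝ}
    (hF : FunSeq A μ ph.T.par.P ph.qs) (hρ : 0 < ph.T.Lp.ρ) (hμ : μ ≤ (ph.T.u : ℝ) / ph.T.w) (k : ℕ) {n st : ℕ}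
    (hB : StOK ph.T.Lp.ρ ph.T.par.r ph.T.par.P ph.S₀ ph.ks₀ st (chanF μ (A n))) :
    StOK ph.T.Lp.ρ ph.T.par.r ph.T.par.P ph.S₀ ph.ks₀ (iterSt ph k st) (chanF μ (A (n + k))) := by
  induction k generalizing n st with
  | zero => exact hB
  | succ k ih =>
    have h1 := Phase.run_step hc hc2 hF hρ hμ hB
    rw [hl.rho, hl.r, hl.S, hl.ks] at h1
    have h2 := ih h1
    have e : n + 1 + k = n + (k + 1) := by ring
    rw [e] at h2
    exact h2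

/-! ### The regular tree -/

variable {ι : Type*} [Fintype ι]

theorem hornerFn_reg (B : (Vec → ℝ) → ℝ) (l : ι → Fin 3 → ℝ) (hB : ∀ g, B g = sigFun l g) (P q : ℕ) (k : ℕ) (g : Vec → ℝ) :
    hornerFn B P (List.replicate k 0 ++ [q]) g = ((q : ℝ) / 2 ^ P) * sigFun (powS k l) g := by
  induction k generalizing g with
  | zero =>
    rw [sigFun_powS_zero]
    simp [hornerFn, tens, unitF]
  | succ k ih =>
    rw [List.replicate_succ, List.cons_append, sigFun_powS_succ]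
    unfold hornerFn
    unfold tens
    rw [ih]
    simp only [hB]
    simp [unitF]

theorem funSeq_reg (d : ℕ) {μ : ℝ} (h0 : 0 ≤ μ) (h1 : μ ≤ 1 / 2) {P q : ℕ} (hq : q ≤ 2 ^ P) :
    FunSeq (fun n => sigFun (lev d (-μ) n)) μ P (List.replicate d 0 ++ [q]) where
  h0 := h0
  isFun := fun n => isFun_sigFun (lev_ssig d h0 h1 n)
  lin := fun n => sigFun_lin (lev_ssig d h0 h1 n)
  step := fun n ψ hψ => by
    rw [hornerFn_reg (chanF μ (sigFun (lev d (-μ) n))) (chan (-μ) (lev d (-μ) n)) (fun g => (sigFun_chan μ _ g).symm)]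
    have e : sigFun (powS d (chan (-μ) (lev d (-μ) n))) ψ = sigFun (lev d (-μ) (n + 1)) ψ := by
      rw [lev_succ]
      rfl
    rw [e]
    have hle : sigFun (lev d (-μ) (n + 1)) ψ ≤ 0 := by
      unfold sigFun
      exact Finset.sum_nonpos fun t _ => hψ.nonpos ((lev_ssig d h0 h1 (n + 1)).nonneg t)
    have hc : (q : ℝ) / 2 ^ P ≤ 1 := by
      rw [div_le_one (by positivity)]
      exact_mod_cast hq
    nlinarith
  start := fun ψ hψ => le_of_eq (sigFun_lev_zero d _ hψ)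

/-! ### The reading of a parent level -/

/-- The test value of a position of the parent. -/
theorem Inv.bound {p : Par} {ρ : ℝ} (hρ : 0 < ρ) {A : (Vec → ℝ) → ℝ} {R G : ℕ} (hI : Inv p ρ A R G) (hPb : p.P ≤ p.b)
    {lats edges : List Rec} (lat_box : ∀ rc ∈ lats, rc.t ∈ p.boxS) (lat_tri : ∀ rc ∈ lats, rc.t % p.N + rc.t / p.N ≤ 3 * p.W)
    (lat_disj : lats.Pairwise fun a b => Disjoint (orbit (p.nd a.t)) (orbit (p.nd b.t)))
    (edge_box : ∀ rc ∈ edges, rc.t ∈ p.boxS) (edge_pos : (edges.map fun rc => rc.t).Nodup)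
    {ψ : Vec → ℝ} (hψ : IsTest ψ) :
    A ψ ≤ (lats.map fun rc => ((dig p.b p.P R rc.t : ℝ) / 2 ^ p.P)
        * (((orbCount (tripOf p rc.t).1 (tripOf p rc.t).2.1 (tripOf p rc.t).2.2 : ℕ) : ℝ) * ψ (V ρ (p.nd rc.t)))).sum
      + (edges.map fun rc => ((dig p.b p.P G rc.t : ℝ) / 2 ^ p.P) * (3 * ψ (VE ρ (p.nd rc.t)))).sum := by
  obtain ⟨rr, gg, f, g, hRe, hGe, hrr, hgg, h0r, h0g, hler, hleg, hf, hg, Sf, dA⟩ := hI.ex
  have hdR : ∀ rc : Rec, rc.t ∈ p.boxS → dig p.b p.P R rc.t = rr rc.t := fun rc hb => by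
    rw [hRe]
    exact dig_eq hPb hrr (Finset.mem_range.1 (Finset.mem_filter.1 hb).1)
  have hdG : ∀ rc : Rec, rc.t ∈ p.boxS → dig p.b p.P G rc.t = gg rc.t := fun rc hb => by
    rw [hGe]
    exact dig_eq hPb hgg (Finset.mem_range.1 (Finset.mem_filter.1 hb).1)
  set oo : Rec → ℝ := fun rc => ((orbCount (tripOf p rc.t).1 (tripOf p rc.t).2.1 (tripOf p rc.t).2.2 : ℕ) : ℝ) with hoo
  have hval : val ρ ψ f ≤ (lats.map fun rc => ((dig p.b p.P R rc.t : ℝ) / 2 ^ p.P) * (oo rc * ψ (V ρ (p.nd rc.t)))).sum := by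
    refine evalF_le_family (fun n => hψ.nonpos (V_nn hρ n)) hf lats (fun rc => orbit (p.nd rc.t)) ?_ _ ?_
    · exact lat_disj
    · intro rc hrc
      rw [orbit_sum hρ Sf hψ, hdR rc (lat_box rc hrc)]
      obtain ⟨a0, a1, a2⟩ := tri_nd p rc.t (lat_tri rc hrc)
      have hcard := orbCount_le a0 a1 a2
      have h4 := hler rc.t (lat_box rc hrc)
      have hv0 : ψ (V ρ (p.nd rc.t)) ≤ 0 := hψ.nonpos (V_nn hρ _)
      have hcard' : oo rc ≤ ((orbit (p.nd rc.t)).card : ℝ) := by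
        simp only [hoo]
        exact_mod_cast hcard
      have ho0 : 0 ≤ oo rc := by positivity
      have hr0 : (0 : ℝ) ≤ (rr rc.t : ℝ) / 2 ^ p.P := by positivity
      have h5 : oo rc * ((rr rc.t : ℝ) / 2 ^ p.P) ≤ ((orbit (p.nd rc.t)).card : ℝ) * f (p.nd rc.t) :=
        mul_le_mul hcard' h4 hr0 (by positivity)
      have h6 := mul_le_mul_of_nonpos_right h5 hv0
      calc _ = ((orbit (p.nd rc.t)).card : ℝ) * f (p.nd rc.t) * ψ (V ρ (p.nd rc.t)) := by ring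
        _ ≤ _ := h6
        _ = _ := by ring
  have hvalE : valE ρ ψ g ≤ (edges.map fun rc => ((dig p.b p.P G rc.t : ℝ) / 2 ^ p.P) * ψ (VE ρ (p.nd rc.t))).sum := by
    refine evalF_le_family (fun n => hψ.nonpos (VE_nn hρ n)) hg edges (fun rc => {p.nd rc.t}) ?_ _ ?_
    · have := edge_pos
      rw [List.nodup_iff_pairwise_ne, List.pairwise_map] at this
      refine this.imp_of_mem fun {a b} ha hb hne => ?_
      rw [Finset.disjoint_singleton]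
      intro hab
      apply hne
      have ha' := edge_box a ha
      have hb' := edge_box b hb
      have e1 := Nat.mod_add_div a.t p.N
      have e2 := Nat.mod_add_div b.t p.N
      unfold Par.nd at hab
      simp only [Prod.mk.injEq, sub_left_inj, Nat.cast_inj] at hab
      rw [← e1, ← e2, hab.1, hab.2]
    · intro rc hrc
      rw [Finset.sum_singleton, hdG rc (edge_box rc hrc)]
      exact mul_le_mul_of_nonpos_right (hleg rc.t (edge_box rc hrc)) (hψ.nonpos (VE_nn hρ _))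
  have h3 := dA ψ hψ
  have e3 : 3 * (edges.map fun rc => ((dig p.b p.P G rc.t : ℝ) / 2 ^ p.P) * ψ (VE ρ (p.nd rc.t))).sum
      = (edges.map fun rc => ((dig p.b p.P G rc.t : ℝ) / 2 ^ p.P) * (3 * ψ (VE ρ (p.nd rc.t)))).sum := by
    rw [← List.sum_map_mul_left]
    congr 1
    refine List.map_congr_left fun rc _ => ?_
    ring
  linarith

end Vale.Agent.Lib.P154B
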