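import Vale.Agent.Lib.P154B.Phase

/-!
A full table: the check on natural numbers and the resulting step from one level of the tree to the next.
-/

noncomputable section

open Finset

namespace Vale.Agent.Lib.P154B

/-- Values of the lattice vectors. -/
theorem V_vecOf {L : Lt} (h1 : 0 < L.p) (h2 : 0 < L.q) (hr : L.r ≤ L.Z) {n : Node} {x0 x1 x2 : ℕ}
    (h0' : tri n 0 = (x0 : ℤ) - L.r) (h1' : tri n 1 = (x1 : ℤ) - L.r) (h2' : tri n 2 = (x2 : ℤ) - L.r)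
    (b0 : x0 ≤ L.Z + L.r) (b1 : x1 ≤ L.Z + L.r) (b2 : x2 ≤ L.Z + L.r) :
    V L.ρ n = vecOf (L.pw x0, L.pw x1, L.pw x2) (L.D : ℝ) := by
  funext i
  unfold V vecOf
  fin_cases i
  · change L.ρ ^ tri n 0 = _
    rw [h0', Lt.pow_eq h1 h2 hr b0]
    rfl
  · change L.ρ ^ tri n 1 = _
    rw [h1', Lt.pow_eq h1 h2 hr b1]
    rfl
  · change L.ρ ^ tri n 2 = _
    rw [h2', Lt.pow_eq h1 h2 hr b2]
    rfl

theorem VE_vecOf {L : Lt} (h1 : 0 < L.p) (h2 : 0 < L.q) (hr : L.r ≤ L.Z) {n : Node} {x1 x2 : ℕ}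
    (h1' : n.1 = (x1 : ℤ) - L.r) (h2' : n.2 = (x2 : ℤ) - L.r)
    (b1 : x1 ≤ L.Z + L.r) (b2 : x2 ≤ L.Z + L.r) :
    VE L.ρ n = vecOf (0, L.pw x1, L.pw x2) (L.D : ℝ) := by
  funext i
  unfold VE vecOf
  fin_cases i
  · simp
  · change L.ρ ^ n.1 = _
    rw [h1', Lt.pow_eq h1 h2 hr b1]
    rfl
  · change L.ρ ^ n.2 = _
    rw [h2', Lt.pow_eq h1 h2 hr b2]
    rfl

theorem Lin_vecOf (X : Trip) (D : ℝ) : Lin (vecOf X D) = (sumT X : ℝ) / D := by
  unfold Lin vecOf sumT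
  simp
  ring

theorem e0_vecOf {D : ℝ} (hD : D ≠ 0) (n : ℕ) (hn : (n : ℝ) = D) : (![1, 0, 0] : Vec) = vecOf (n, 0, 0) D := by
  funext i
  unfold vecOf
  fin_cases i
  · simp [hn, hD]
  · simp
  · simp

/-- Permutations of a lattice target. -/
theorem tgt_lat {L : Lt} (h1 : 0 < L.p) (h2 : 0 < L.q) (hr : L.r ≤ L.Z) {X : ℕ} (hX : X ≤ L.Z + L.r) {x : Trip}
    (hx : TripOK L.r X x) (s : ℕ) :
    ∃ σ : Equiv.Perm (Fin 3), vecOf (2 * L.pw (permT s x).1, 2 * L.pw (permT s x).2.1, 2 * L.pw (permT s x).2.2)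
        (2 * (L.D : ℝ)) = V L.ρ (tnode L.r x) ∘ σ := by
  obtain ⟨a0, a1, a2⟩ := tri_tnode hx
  obtain ⟨-, b0, b1, b2⟩ := hx
  have hV := V_vecOf h1 h2 hr a0 a1 a2 (b0.trans hX) (b1.trans hX) (b2.trans hX)
  have hD : (L.D : ℝ) ≠ 0 := by
    unfold Lt.D
    positivity
  have key : ∀ a : ℕ, ((2 * L.pw a : ℕ) : ℝ) / (2 * (L.D : ℝ)) = (L.pw a : ℝ) / L.D := by
    intro a
    push_cast
    field_simp
  rw [hV]
  have gen : ∀ (σ : Equiv.Perm (Fin 3)) (y : Trip), y.1 = (x.1, x.2.1, x.2.2).1 ∨ True →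
      (∀ i : Fin 3, (![y.1, y.2.1, y.2.2] : Fin 3 → ℕ) i = (![x.1, x.2.1, x.2.2] : Fin 3 → ℕ) (σ i)) →
      vecOf (2 * L.pw y.1, 2 * L.pw y.2.1, 2 * L.pw y.2.2) (2 * (L.D : ℝ))
        = vecOf (L.pw x.1, L.pw x.2.1, L.pw x.2.2) (L.D : ℝ) ∘ σ := by
    intro σ y _ hy
    funext i
    have h0 := hy 0
    have h1 := hy 1
    have h2 := hy 2
    simp only [Matrix.cons_val_zero, Matrix.cons_val_one, Matrix.cons_val] at h0 h1 h2
    have m : ∀ j : Fin 3, vecOf (L.pw x.1, L.pw x.2.1, L.pw x.2.2) (L.D : ℝ) j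
        = (L.pw ((![x.1, x.2.1, x.2.2] : Fin 3 → ℕ) j) : ℝ) / L.D := by
      intro j
      fin_cases j <;> rfl
    simp only [Function.comp, m]
    fin_cases i
    · change ((2 * L.pw y.1 : ℕ) : ℝ) / (2 * (L.D : ℝ)) = _
      rw [key, h0]
      rfl
    · change ((2 * L.pw y.2.1 : ℕ) : ℝ) / (2 * (L.D : ℝ)) = _
      rw [key, h1]
      rfl
    · change ((2 * L.pw y.2.2 : ℕ) : ℝ) / (2 * (L.D : ℝ)) = _
      rw [key, h2]
      rfl
  have hs : s = 0 ∨ s = 1 ∨ s = 2 ∨ s = 3 ∨ s = 4 ∨ 5 ≤ s := by omega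
  rcases hs with rfl | rfl | rfl | rfl | rfl | hs
  · exact ⟨p0, gen p0 _ (Or.inr trivial) fun i => by fin_cases i <;> rfl⟩
  · exact ⟨p1, gen p1 _ (Or.inr trivial) fun i => by fin_cases i <;> rfl⟩
  · exact ⟨p2, gen p2 _ (Or.inr trivial) fun i => by fin_cases i <;> rfl⟩
  · exact ⟨p3, gen p3 _ (Or.inr trivial) fun i => by fin_cases i <;> rfl⟩
  · exact ⟨p4, gen p4 _ (Or.inr trivial) fun i => by fin_cases i <;> rfl⟩
  · obtain ⟨k, rfl⟩ : ∃ k, s = k + 5 := ⟨s - 5, by omega⟩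
    exact ⟨p5, gen p5 _ (Or.inr trivial) fun i => by fin_cases i <;> rfl⟩

/-- Permutations of an edge target. -/
theorem tgt_edge {L : Lt} (h1 : 0 < L.p) (h2 : 0 < L.q) (s : ℕ) :
    ∃ σ : Equiv.Perm (Fin 3), vecOf (L.D * (tE s).1, L.D * (tE s).2.1, L.D * (tE s).2.2) (2 * (L.D : ℝ))
        = (1 / 2 : ℝ) • (E0 ∘ σ) := by
  have hD : (L.D : ℝ) ≠ 0 := by
    unfold Lt.D
    positivity
  have hs : s = 0 ∨ s = 1 ∨ 2 ≤ s := by omega
  rcases hs with rfl | rfl | hs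
  · refine ⟨p0, ?_⟩
    funext i
    have e0 : E0 (p0 0) = 0 := rfl
    have e1 : E0 (p0 1) = 1 := rfl
    have e2 : E0 (p0 2) = 1 := rfl
    fin_cases i
    · simp [vecOf, tE, e0]
    · simp [vecOf, tE, e1]
      field_simp
    · simp [vecOf, tE, e2]
      field_simp
  · refine ⟨p2, ?_⟩
    funext i
    have e0 : E0 (p2 0) = 1 := rfl
    have e1 : E0 (p2 1) = 0 := rfl
    have e2 : E0 (p2 2) = 1 := rfl
    fin_cases i
    · simp [vecOf, tE, e0]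
      field_simp
    · simp [vecOf, tE, e1]
    · simp [vecOf, tE, e2]
      field_simp
  · obtain ⟨k, rfl⟩ : ∃ k, s = k + 2 := ⟨s - 2, by omega⟩
    refine ⟨p5, ?_⟩
    funext i
    have e0 : E0 (p5 0) = 1 := rfl
    have e1 : E0 (p5 1) = 1 := rfl
    have e2 : E0 (p5 2) = 0 := rfl
    fin_cases i
    · simp [vecOf, tE, e0]
      field_simp
    · simp [vecOf, tE, e1]
      field_simp
    · simp [vecOf, tE, e2]

theorem E0_comp_nn (σ : Equiv.Perm (Fin 3)) : NN (E0 ∘ σ) := E0_nn.comp σ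

/-- The value of a test on a target. -/
theorem tgtR_val {L : Lt} (h1 : 0 < L.p) (h2 : 0 < L.q) (hr : L.r ≤ L.Z) {X : ℕ} (hX : X ≤ L.Z + L.r) {ks : List Trip}
    (hks : ∀ x ∈ ks, TripOK L.r X x) {ψ : Vec → ℝ} (hψ : IsTest ψ) (h : ℕ) :
    ψ (tgtR L ks h) = Uof L.ρ L.r ks ψ (hS h) := by
  have hρ := Lt.rho_pos h1 h2
  unfold tgtR tgtInt Uof
  rw [lookupT_eq]
  cases hl : ks[hS h]? with
  | some x =>
    have hx : x ∈ ks := List.mem_of_getElem? hl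
    obtain ⟨σ, hσ⟩ := tgt_lat h1 h2 hr hX (hks x hx) (hG h)
    simp only
    rw [hσ, hψ.perm _ _ (V_nn hρ _)]
  | none =>
    obtain ⟨σ, hσ⟩ := tgt_edge h1 h2 (hG h)
    simp only
    rw [hσ, hψ.hom _ _ (by norm_num) (E0_comp_nn σ), hψ.perm _ _ E0_nn]

theorem tgtR_nn (L : Lt) (ks : List Trip) (h : ℕ) : NN (tgtR L ks h) := by
  intro i
  unfold tgtR vecOf
  fin_cases i <;> simp <;> positivity

theorem Uof_nonpos {L : Lt} (h1 : 0 < L.p) (h2 : 0 < L.q) {ks : List Trip} {ψ : Vec → ℝ} (hψ : IsTest ψ) (k : ℕ) :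
    Uof L.ρ L.r ks ψ k ≤ 0 := by
  have hρ := Lt.rho_pos h1 h2
  unfold Uof
  cases ks[k]? with
  | some x => exact hψ.nonpos (V_nn hρ _)
  | none =>
    have := hψ.nonpos E0_nn
    simp only
    linarith

theorem blt_sound {a b : ℕ} (h : Nat.blt a b = true) : a < b := by
  simpa [Nat.blt_eq] using h

/-- Strict increase of a list of numbers. -/
def sinc : ℕ → List ℕ → Bool
  | _, [] => true
  | a, b :: l => Nat.blt a b && sinc b l

/-- Strict increase of a list. -/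
def sincL : List ℕ → Bool
  | [] => true
  | a :: l => sinc a l

theorem sinc_sound (a : ℕ) (l : List ℕ) (h : sinc a l = true) : (∀ x ∈ l, a < x) ∧ l.Nodup := by
  induction l generalizing a with
  | nil => simp
  | cons b l ih =>
    simp only [sinc, Bool.and_eq_true] at h
    obtain ⟨h1, h2⟩ := h
    have hab : a < b := blt_sound h1
    obtain ⟨h3, h4⟩ := ih b h2
    refine ⟨?_, List.nodup_cons.2 ⟨fun hb => lt_irrefl _ (h3 b hb), h4⟩⟩
    intro x hx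
    rcases List.mem_cons.1 hx with rfl | hx
    · exact hab
    · exact hab.trans (h3 x hx)

theorem sincL_sound {l : List ℕ} (h : sincL l = true) : l.Nodup := by
  cases l with
  | nil => simp
  | cons a l =>
    obtain ⟨h3, h4⟩ := sinc_sound a l h
    exact List.nodup_cons.2 ⟨fun hb => lt_irrefl _ (h3 a hb), h4⟩

/-- A table of hints from a parent lattice to a child lattice. -/
structure Tab where
  par : Par
  Lp : Lt
  Lc : Lt
  u : ℕ
  w : ℕ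
  S : ℕ
  Q : ℕ
  lats : List Rec
  edges : List Rec
  hv : List ℕ
  ks : List Trip
  Xc : ℕ

namespace Tab
variable (T : Tab)

/-- The number of hints. -/
def nH : ℕ := (T.lats.map fun rc => rc.hs.length).sum + (T.edges.map fun rc => rc.hs.length).sum + T.hv.length

/-- Check of a position. -/
def chkPos (t : ℕ) : Bool :=
  Nat.blt t (T.par.N * T.par.m) && Nat.blt (t % T.par.N) T.par.m && Nat.ble (t % T.par.N) (T.Lp.Z + T.Lp.r)
    && Nat.ble (t / T.par.N) (T.Lp.Z + T.Lp.r)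

/-- Slots are in range. -/
def chkSlots (hs : List ℕ) : Bool := hs.all fun h => Nat.blt (hS h) (T.ks.length + 1)

/-- Check of a lattice source. -/
def chkLat (rc : Rec) : Bool :=
  let x := tripOf T.par rc.t
  let o := orbCount x.1 x.2.1 x.2.2
  let X : Trip := (T.Lp.pw x.1, T.Lp.pw x.2.1, T.Lp.pw x.2.2)
  T.chkPos rc.t && Nat.ble (rc.t % T.par.N + rc.t / T.par.N) (3 * T.par.W) && Nat.ble x.1 (T.Lp.Z + T.Lp.r)
    && chkHints T.Lc T.ks T.Q o T.u T.w T.Lp.D X rc.hs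
    && Nat.ble (o * sumT X * 2 ^ T.Q) (rc.L * T.Lp.D) && T.chkSlots rc.hs

/-- Check of an edge source. -/
def chkEdge (rc : Rec) : Bool :=
  let x := tripOf T.par rc.t
  let X : Trip := (0, T.Lp.pw x.2.1, T.Lp.pw x.2.2)
  T.chkPos rc.t && chkHints T.Lc T.ks T.Q 3 T.u T.w T.Lp.D X rc.hs
    && Nat.ble (3 * sumT X * 2 ^ T.Q) (rc.L * T.Lp.D) && T.chkSlots rc.hs

/-- Check of a child representative. -/
def chkTrip (x : Trip) : Bool :=
  Nat.beq (x.1 + x.2.1 + x.2.2) (3 * T.Lc.r) && Nat.ble x.1 T.Xc && Nat.ble x.2.1 T.Xc && Nat.ble x.2.2 T.Xc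

/-- The whole check of a table. -/
def check : Bool :=
  Nat.blt 0 T.Lp.p && Nat.blt 0 T.Lp.q && Nat.blt 0 T.Lc.p && Nat.blt 0 T.Lc.q && Nat.blt 0 T.w
    && Nat.ble (2 * T.u) T.w && Nat.beq T.Lp.r T.par.W && Nat.ble T.Lp.r T.Lp.Z && Nat.ble T.Lc.r T.Lc.Z
    && Nat.ble T.Xc (T.Lc.Z + T.Lc.r) && Nat.ble (T.Q + T.par.P) T.S
    && Nat.blt (T.nH * (4 * 2 ^ T.par.P * 2 ^ 40)) (2 ^ T.S)
    && T.lats.all T.chkLat && T.edges.all T.chkEdge
    && chkHints T.Lc T.ks T.Q 1 T.u T.w T.Lp.D (T.Lp.D, 0, 0) T.hv && T.chkSlots T.hv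
    && T.ks.all T.chkTrip
    && (T.lats.all (fun rc => Nat.ble (tripOf T.par rc.t).1 (tripOf T.par rc.t).2.1 && Nat.ble (tripOf T.par rc.t).2.1 (tripOf T.par rc.t).2.2)
      && sincL (T.lats.map fun rc => rc.t))
    && sincL (T.edges.map fun rc => rc.t)

end Tab

theorem Tab.readOK {T : Tab} (h : T.check = true) :
    0 < T.Lp.p ∧ 0 < T.Lp.q ∧ 0 < T.Lc.p ∧ 0 < T.Lc.q ∧ (∀ x ∈ T.ks, TripOK T.Lc.r T.Xc x) ∧
    ReadOK T.par T.Lp.ρ ((T.u : ℝ) / T.w) T.S T.Q (T.ks.length + 1) T.lats T.edges T.hv (tgtR T.Lc T.ks)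
      (Uof T.Lc.ρ T.Lc.r T.ks) := by
  unfold Tab.check at h
  simp only [Bool.and_eq_true, List.all_eq_true] at h
  obtain ⟨⟨⟨⟨⟨⟨⟨⟨⟨⟨⟨⟨⟨⟨⟨⟨⟨⟨h1, h2⟩, h3⟩, h4⟩, h5⟩, h6⟩, h7⟩, h8⟩, h9⟩, h10⟩, h11⟩, h12⟩, h13⟩, h14⟩, h15⟩, h16⟩, h17⟩, h18⟩, h19⟩ := h
  have hp1 := blt_sound h1
  have hp2 := blt_sound h2
  have hp3 := blt_sound h3
  have hp4 := blt_sound h4
  have hw := blt_sound h5
  have hrW : T.Lp.r = T.par.W := Nat.eq_of_beq_eq_true h7
  have hrZ := Nat.le_of_ble_eq_true h8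
  have hrZc := Nat.le_of_ble_eq_true h9
  have hXc := Nat.le_of_ble_eq_true h10
  have hQP := Nat.le_of_ble_eq_true h11
  have hcnt := blt_sound h12
  have hD : 0 < T.Lp.D := by
    unfold Lt.D
    positivity
  have hDc : 0 < T.Lc.D := by
    unfold Lt.D
    positivity
  have hDR : (T.Lp.D : ℝ) ≠ 0 := by exact_mod_cast hD.ne'
  have hks : ∀ x ∈ T.ks, TripOK T.Lc.r T.Xc x := by
    intro x hx
    have := h17 x hx
    unfold Tab.chkTrip at this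
    simp only [Bool.and_eq_true] at this
    obtain ⟨⟨⟨a, b⟩, c⟩, d⟩ := this
    exact ⟨Nat.eq_of_beq_eq_true a, Nat.le_of_ble_eq_true b, Nat.le_of_ble_eq_true c, Nat.le_of_ble_eq_true d⟩
  have hslot : ∀ hs : List ℕ, T.chkSlots hs = true → ∀ h' ∈ hs, hS h' < T.ks.length + 1 := by
    intro hs hc h' hh
    unfold Tab.chkSlots at hc
    rw [List.all_eq_true] at hc
    exact blt_sound (hc h' hh)
  have hpos : ∀ t, T.chkPos t = true → t ∈ T.par.boxS ∧ t % T.par.N ≤ T.Lp.Z + T.Lp.r ∧ t / T.par.N ≤ T.Lp.Z + T.Lp.r := by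
    intro t hc
    unfold Tab.chkPos at hc
    simp only [Bool.and_eq_true] at hc
    obtain ⟨⟨⟨a, b⟩, c⟩, d⟩ := hc
    refine ⟨Finset.mem_filter.2 ⟨Finset.mem_range.2 (blt_sound a), blt_sound b⟩,
      Nat.le_of_ble_eq_true c, Nat.le_of_ble_eq_true d⟩
  have hlatparts : ∀ rc ∈ T.lats, rc.t ∈ T.par.boxS ∧ rc.t % T.par.N + rc.t / T.par.N ≤ 3 * T.par.W ∧
      V T.Lp.ρ (T.par.nd rc.t) = vecOf (T.Lp.pw (tripOf T.par rc.t).1, T.Lp.pw (tripOf T.par rc.t).2.1, T.Lp.pw (tripOf T.par rc.t).2.2) (T.Lp.D : ℝ) ∧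
      chkHints T.Lc T.ks T.Q (orbCount (tripOf T.par rc.t).1 (tripOf T.par rc.t).2.1 (tripOf T.par rc.t).2.2) T.u T.w T.Lp.D
        (T.Lp.pw (tripOf T.par rc.t).1, T.Lp.pw (tripOf T.par rc.t).2.1, T.Lp.pw (tripOf T.par rc.t).2.2) rc.hs = true ∧
      Nat.ble (orbCount (tripOf T.par rc.t).1 (tripOf T.par rc.t).2.1 (tripOf T.par rc.t).2.2
        * sumT (T.Lp.pw (tripOf T.par rc.t).1, T.Lp.pw (tripOf T.par rc.t).2.1, T.Lp.pw (tripOf T.par rc.t).2.2) * 2 ^ T.Q) (rc.L * T.Lp.D) = true ∧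
      T.chkSlots rc.hs = true := by
    intro rc hrc
    have := h13 rc hrc
    unfold Tab.chkLat at this
    simp only [Bool.and_eq_true] at this
    obtain ⟨⟨⟨⟨⟨a, b⟩, c⟩, d⟩, e⟩, f⟩ := this
    obtain ⟨a1, a2, a3⟩ := hpos _ a
    have hb := Nat.le_of_ble_eq_true b
    have hc := Nat.le_of_ble_eq_true c
    obtain ⟨t0, t1, t2⟩ := tri_nd T.par rc.t hb
    refine ⟨a1, hb, ?_, d, e, f⟩
    rw [← hrW] at t0 t1 t2
    exact V_vecOf hp1 hp2 hrZ t0 t1 t2 hc a2 a3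
  have hedgeparts : ∀ rc ∈ T.edges, rc.t ∈ T.par.boxS ∧
      VE T.Lp.ρ (T.par.nd rc.t) = vecOf (0, T.Lp.pw (tripOf T.par rc.t).2.1, T.Lp.pw (tripOf T.par rc.t).2.2) (T.Lp.D : ℝ) ∧
      chkHints T.Lc T.ks T.Q 3 T.u T.w T.Lp.D (0, T.Lp.pw (tripOf T.par rc.t).2.1, T.Lp.pw (tripOf T.par rc.t).2.2) rc.hs = true ∧
      Nat.ble (3 * sumT (0, T.Lp.pw (tripOf T.par rc.t).2.1, T.Lp.pw (tripOf T.par rc.t).2.2) * 2 ^ T.Q) (rc.L * T.Lp.D) = true ∧
      T.chkSlots rc.hs = true := by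
    intro rc hrc
    have := h14 rc hrc
    unfold Tab.chkEdge at this
    simp only [Bool.and_eq_true] at this
    obtain ⟨⟨⟨a, b⟩, c⟩, d⟩ := this
    obtain ⟨a1, a2, a3⟩ := hpos _ a
    refine ⟨a1, ?_, b, c, d⟩
    refine VE_vecOf hp1 hp2 hrZ ?_ ?_ a2 a3
    · rw [hrW]
      rfl
    · rw [hrW]
      rfl
  have hmass : ∀ (o : ℕ) (X : Trip) (L : ℕ), Nat.ble (o * sumT X * 2 ^ T.Q) (L * T.Lp.D) = true →
      (o : ℝ) * Lin (vecOf X (T.Lp.D : ℝ)) ≤ (L : ℝ) / 2 ^ T.Q := by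
    intro o X L hb
    have hb' := Nat.le_of_ble_eq_true hb
    have hb2 : ((o * sumT X * 2 ^ T.Q : ℕ) : ℝ) ≤ ((L * T.Lp.D : ℕ) : ℝ) := by exact_mod_cast hb'
    push_cast at hb2
    rw [Lin_vecOf, le_div_iff₀ (by positivity)]
    have hDpos : (0 : ℝ) < T.Lp.D := by exact_mod_cast hD
    have : (o : ℝ) * ((sumT X : ℝ) / T.Lp.D) * 2 ^ T.Q = ((o : ℝ) * (sumT X : ℝ) * 2 ^ T.Q) / T.Lp.D := by
      field_simp
    rw [this, div_le_iff₀ hDpos]
    exact hb2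
  refine ⟨hp1, hp2, hp3, hp4, hks, ?_⟩
  refine
    { lat_box := fun rc hrc => (hlatparts rc hrc).1
      lat_tri := fun rc hrc => (hlatparts rc hrc).2.1
      lat_hint := fun rc hrc => ?_
      lat_mass := fun rc hrc => ?_
      lat_disj := ?_
      edge_box := fun rc hrc => (hedgeparts rc hrc).1
      edge_hint := fun rc hrc => ?_
      edge_mass := fun rc hrc => ?_
      edge_pos := sincL_sound h19
      vert_hint := ?_
      slots := ⟨fun rc hrc => hslot _ (hlatparts rc hrc).2.2.2.2.2, fun rc hrc => hslot _ (hedgeparts rc hrc).2.2.2.2, hslot _ h16⟩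
      tgt_nn := tgtR_nn _ _
      tgt_val := fun ψ hψ h' => tgtR_val hp3 hp4 hrZc hXc hks hψ h'
      U_nonpos := fun ψ hψ k => Uof_nonpos hp3 hp4 hψ k
      hQ := hQP
      count := hcnt }
  · obtain ⟨-, -, hV, hh, -, -⟩ := hlatparts rc hrc
    rw [hV]
    exact chkHints_ok hw hD hDc hh
  · obtain ⟨-, -, hV, -, hm, -⟩ := hlatparts rc hrc
    rw [hV]
    exact hmass _ _ _ hm
  · obtain ⟨h18a, h18b⟩ := h18
    have hn := sincL_sound h18b
    rw [List.nodup_iff_pairwise_ne, List.pairwise_map] at hn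
    refine hn.imp_of_mem fun {a b} ha hb hne => ?_
    have hsa := h18a a ha
    have hsb := h18a b hb
    obtain ⟨a0, a1, a2⟩ := tri_nd T.par a.t (hlatparts a ha).2.1
    obtain ⟨b0, b1, b2⟩ := tri_nd T.par b.t (hlatparts b hb).2.1
    refine orbit_disjoint_sorted a0 a1 a2 b0 b1 b2 (Nat.le_of_ble_eq_true hsa.1) (Nat.le_of_ble_eq_true hsa.2)
      (Nat.le_of_ble_eq_true hsb.1) (Nat.le_of_ble_eq_true hsb.2) fun e1 e2 => hne ?_
    have e3 := Nat.mod_add_div a.t T.par.N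
    have e4 := Nat.mod_add_div b.t T.par.N
    have e1' : a.t % T.par.N = b.t % T.par.N := e1
    have e2' : a.t / T.par.N = b.t / T.par.N := e2
    rw [← e3, ← e4, e1', e2']
  · obtain ⟨-, hV, hh, -, -⟩ := hedgeparts rc hrc
    rw [hV]
    have := chkHints_ok hw hD hDc hh
    simpa using this
  · obtain ⟨-, hV, -, hm, -⟩ := hedgeparts rc hrc
    rw [hV]
    have := hmass _ _ _ hm
    simpa using this
  · have := chkHints_ok (o := 1) hw hD hDc h15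
    unfold Le0
    rw [e0_vecOf hDR T.Lp.D rfl]
    simpa using this

end Vale.Agent.Lib.P154B
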