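import Mathlib

/-!
Test functions for the Blackwell comparison of three-state signals: nonnegative vectors, subadditive,
homogeneous, symmetric functions vanishing at the vertices.
-/

noncomputable section

open Finset

namespace Vale.Agent.Lib.P154B

/-- Vectors of three reals. -/
abbrev Vec := Fin 3 → ℝ

/-- Nonnegative vectors. -/
def NN (x : Vec) : Prop := ∀ i, 0 ≤ x i

/-- Sum of the coordinates. -/
def Lin (x : Vec) : ℝ := x 0 + x 1 + x 2

/-- Test functions. -/
structure IsTest (ψ : Vec → ℝ) : Prop where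
  sub : ∀ x y, NN x → NN y → ψ (x + y) ≤ ψ x + ψ y
  hom : ∀ (c : ℝ) (x : Vec), 0 ≤ c → NN x → ψ (c • x) = c * ψ x
  perm : ∀ (σ : Equiv.Perm (Fin 3)) (x : Vec), NN x → ψ (x ∘ σ) = ψ x
  vert : ψ ![1, 0, 0] = 0

theorem NN.add {x y : Vec} (hx : NN x) (hy : NN y) : NN (x + y) := fun i => add_nonneg (hx i) (hy i)

theorem NN.smul {x : Vec} (hx : NN x) {c : ℝ} (hc : 0 ≤ c) : NN (c • x) := fun i => mul_nonneg hc (hx i)

theorem NN.mul {x y : Vec} (hx : NN x) (hy : NN y) : NN (x * y) := fun i => mul_nonneg (hx i) (hy i)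

theorem NN.comp {x : Vec} (hx : NN x) (σ : Equiv.Perm (Fin 3)) : NN (x ∘ σ) := fun i => hx (σ i)

theorem NN.lin {x : Vec} (hx : NN x) : 0 ≤ Lin x := by
  unfold Lin
  linarith [hx 0, hx 1, hx 2]

section test
variable {ψ : Vec → ℝ} (h : IsTest ψ)
include h

theorem IsTest.zero : ψ 0 = 0 := by
  have e := h.hom 0 ![1, 0, 0] le_rfl (by intro i; fin_cases i <;> simp)
  simpa using e

theorem IsTest.e1 : ψ ![0, 1, 0] = 0 := by
  have e := h.perm (Equiv.swap 0 1) ![1, 0, 0] (by intro i; fin_cases i <;> simp)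
  rw [h.vert] at e
  have e' : ((![1, 0, 0] : Vec) ∘ Equiv.swap 0 1) = ![0, 1, 0] := by
    funext i
    fin_cases i
    · simp
    · simp
    · change (![1, 0, 0] : Vec) (Equiv.swap 0 1 2) = 0
      rw [Equiv.swap_apply_of_ne_of_ne (by decide) (by decide)]
      simp
  rw [e'] at e
  exact e

theorem IsTest.e2 : ψ ![0, 0, 1] = 0 := by
  have e := h.perm (Equiv.swap 0 2) ![1, 0, 0] (by intro i; fin_cases i <;> simp)
  rw [h.vert] at e
  have e' : ((![1, 0, 0] : Vec) ∘ Equiv.swap 0 2) = ![0, 0, 1] := by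
    funext i
    fin_cases i
    · simp
    · change (![1, 0, 0] : Vec) (Equiv.swap 0 2 1) = 0
      rw [Equiv.swap_apply_of_ne_of_ne (by decide) (by decide)]
      simp
    · simp
  rw [e'] at e
  exact e

/-- Test functions are nonpositive. -/
theorem IsTest.nonpos {x : Vec} (hx : NN x) : ψ x ≤ 0 := by
  have e : x = x 0 • ![1, 0, 0] + (x 1 • ![0, 1, 0] + x 2 • ![0, 0, 1]) := by
    funext i
    fin_cases i <;> simp
  have n0 : NN ![1, 0, 0] := by intro i; fin_cases i <;> simp
  have n1 : NN ![0, 1, 0] := by intro i; fin_cases i <;> simp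
  have n2 : NN ![0, 0, 1] := by intro i; fin_cases i <;> simp
  rw [e]
  refine (h.sub _ _ (n0.smul (hx 0)) ((n1.smul (hx 1)).add (n2.smul (hx 2)))).trans ?_
  have h1 := h.sub _ _ (n1.smul (hx 1)) (n2.smul (hx 2))
  rw [h.hom _ _ (hx 0) n0, h.vert]
  rw [h.hom _ _ (hx 1) n1, h.e1, h.hom _ _ (hx 2) n2, h.e2] at h1
  linarith

/-- A vector with a single nonzero entry has value zero. -/
theorem IsTest.single0 (c : ℝ) (hc : 0 ≤ c) : ψ ![c, 0, 0] = 0 := by
  have n0 : NN ![1, 0, 0] := by intro i; fin_cases i <;> simp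
  have e : ![c, 0, 0] = c • (![1, 0, 0] : Vec) := by
    funext i
    fin_cases i <;> simp
  rw [e, h.hom _ _ hc n0, h.vert]
  ring

theorem IsTest.single1 (c : ℝ) (hc : 0 ≤ c) : ψ ![0, c, 0] = 0 := by
  have n0 : NN ![0, 1, 0] := by intro i; fin_cases i <;> simp
  have e : ![0, c, 0] = c • (![0, 1, 0] : Vec) := by
    funext i
    fin_cases i <;> simp
  rw [e, h.hom _ _ hc n0, h.e1]
  ring

theorem IsTest.single2 (c : ℝ) (hc : 0 ≤ c) : ψ ![0, 0, c] = 0 := by
  have n0 : NN ![0, 0, 1] := by intro i; fin_cases i <;> simp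
  have e : ![0, 0, c] = c • (![0, 0, 1] : Vec) := by
    funext i
    fin_cases i <;> simp
  rw [e, h.hom _ _ hc n0, h.e2]
  ring

/-- Subadditivity over a finite sum. -/
theorem IsTest.sum_le {κ : Type*} (s : Finset κ) (β : κ → ℝ) (v : κ → Vec) (hβ : ∀ j ∈ s, 0 ≤ β j)
    (hv : ∀ j ∈ s, NN (v j)) : ψ (∑ j ∈ s, β j • v j) ≤ ∑ j ∈ s, β j * ψ (v j) := by
  classical
  induction s using Finset.induction_on with
  | empty => simp [h.zero]
  | insert a s ha ih =>
    rw [Finset.sum_insert ha, Finset.sum_insert ha]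
    have hs : NN (∑ j ∈ s, β j • v j) := by
      intro i
      rw [Finset.sum_apply]
      exact Finset.sum_nonneg fun j hj => mul_nonneg (hβ j (Finset.mem_insert_of_mem hj)) (hv j (Finset.mem_insert_of_mem hj) i)
    have h1 := h.sub _ _ ((hv a (Finset.mem_insert_self a s)).smul (hβ a (Finset.mem_insert_self a s))) hs
    rw [h.hom _ _ (hβ a (Finset.mem_insert_self a s)) (hv a (Finset.mem_insert_self a s))] at h1
    have h2 := ih (fun j hj => hβ j (Finset.mem_insert_of_mem hj)) (fun j hj => hv j (Finset.mem_insert_of_mem hj))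
    linarith

/-- The split rule: a vector which dominates a nonnegative combination. -/
theorem IsTest.split {κ : Type*} (s : Finset κ) (β : κ → ℝ) (v : κ → Vec) (x : Vec) (hβ : ∀ j ∈ s, 0 ≤ β j)
    (hv : ∀ j ∈ s, NN (v j)) (hx : NN (x - ∑ j ∈ s, β j • v j)) : ψ x ≤ ∑ j ∈ s, β j * ψ (v j) := by
  have hs : NN (∑ j ∈ s, β j • v j) := by
    intro i
    rw [Finset.sum_apply]
    exact Finset.sum_nonneg fun j hj => mul_nonneg (hβ j hj) (hv j hj i)
  have e : x = (∑ j ∈ s, β j • v j) + (x - ∑ j ∈ s, β j • v j) := by abel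
  have h1 := h.sub _ _ hs hx
  rw [← e] at h1
  have h2 := h.sum_le s β v hβ hv
  have h3 := h.nonpos hx
  linarith

end test

/-- All six permutations of the index set as an explicit sum. -/
theorem sum_perm_six {α : Type*} [AddCommMonoid α] (g : Equiv.Perm (Fin 3) → α)
    (a b c d e f : Equiv.Perm (Fin 3))
    (hu : (Finset.univ : Finset (Equiv.Perm (Fin 3))) = {a, b, c, d, e, f})
    (hd : a ≠ b ∧ a ≠ c ∧ a ≠ d ∧ a ≠ e ∧ a ≠ f ∧ b ≠ c ∧ b ≠ d ∧ b ≠ e ∧ b ≠ f ∧ c ≠ d ∧ c ≠ e ∧ c ≠ f ∧ d ≠ e ∧ d ≠ f ∧ e ≠ f) :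
    ∑ π, g π = g a + (g b + (g c + (g d + (g e + g f)))) := by
  obtain ⟨h1, h2, h3, h4, h5, h6, h7, h8, h9, h10, h11, h12, h13, h14, h15⟩ := hd
  rw [hu]
  rw [Finset.sum_insert (by simp [h1, h2, h3, h4, h5]), Finset.sum_insert (by simp [h6, h7, h8, h9]),
    Finset.sum_insert (by simp [h10, h11, h12]), Finset.sum_insert (by simp [h13, h14]),
    Finset.sum_insert (by simp [h15]), Finset.sum_singleton]

/-- Averaging over the permutations. -/
def avg (g : Equiv.Perm (Fin 3) → ℝ) : ℝ := (1 / 6) * ∑ π, g π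

theorem card_perm3 : (Finset.univ : Finset (Equiv.Perm (Fin 3))).card = 6 := by
  decide

theorem avg_const (c : ℝ) : avg (fun _ => c) = c := by
  unfold avg
  rw [Finset.sum_const, card_perm3]
  simp

theorem avg_shift (g : Equiv.Perm (Fin 3) → ℝ) (τ : Equiv.Perm (Fin 3)) : avg (fun π => g (π * τ)) = avg g := by
  unfold avg
  congr 1
  exact Equiv.sum_comp (Equiv.mulRight τ) g

theorem avg_shiftL (g : Equiv.Perm (Fin 3) → ℝ) (τ : Equiv.Perm (Fin 3)) : avg (fun π => g (τ * π)) = avg g := by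
  unfold avg
  congr 1
  exact Equiv.sum_comp (Equiv.mulLeft τ) g

theorem avg_inv (g : Equiv.Perm (Fin 3) → ℝ) : avg (fun π => g π⁻¹) = avg g := by
  unfold avg
  congr 1
  exact Equiv.sum_comp (Equiv.inv (Equiv.Perm (Fin 3))) g

theorem avg_congr {g g' : Equiv.Perm (Fin 3) → ℝ} (h : ∀ π, g π = g' π) : avg g = avg g' := by
  unfold avg
  simp only [h]

theorem avg_le {g g' : Equiv.Perm (Fin 3) → ℝ} (h : ∀ π, g π ≤ g' π) : avg g ≤ avg g' := by
  unfold avg
  exact mul_le_mul_of_nonneg_left (Finset.sum_le_sum fun π _ => h π) (by norm_num)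

/-- The symmetrized test `φ_x`. -/
def symR (ψ : Vec → ℝ) (x : Vec) : Vec → ℝ := fun y => avg fun π => ψ (x * (y ∘ π))

theorem comp_add_vec (y z : Vec) (π : Equiv.Perm (Fin 3)) : (y + z) ∘ π = y ∘ π + z ∘ π := rfl

theorem comp_smul_vec (c : ℝ) (y : Vec) (π : Equiv.Perm (Fin 3)) : (c • y) ∘ π = c • (y ∘ π) := rfl

theorem symR_isTest {ψ : Vec → ℝ} (h : IsTest ψ) {x : Vec} (hx : NN x) : IsTest (symR ψ x) where
  sub := fun y z hy hz => by
    unfold symR
    have : avg (fun π => ψ (x * ((y + z) ∘ π))) ≤ avg (fun π => ψ (x * (y ∘ π)) + ψ (x * (z ∘ π))) := by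
      refine avg_le fun π => ?_
      rw [comp_add_vec, mul_add]
      exact h.sub _ _ (hx.mul (hy.comp π)) (hx.mul (hz.comp π))
    refine this.trans (le_of_eq ?_)
    unfold avg
    rw [Finset.sum_add_distrib]
    ring
  hom := fun c y hc hy => by
    unfold symR
    have : avg (fun π => ψ (x * ((c • y) ∘ π))) = avg (fun π => c * ψ (x * (y ∘ π))) := by
      refine avg_congr fun π => ?_
      rw [comp_smul_vec, mul_smul_comm, h.hom _ _ hc (hx.mul (hy.comp π))]
    rw [this]
    unfold avg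
    rw [← Finset.mul_sum]
    ring
  perm := fun σ y hy => by
    unfold symR
    have e := avg_shiftL (fun π => ψ (x * (y ∘ π))) σ
    refine Eq.trans ?_ e
    refine avg_congr fun π => ?_
    rfl
  vert := by
    unfold symR avg
    have : ∀ π : Equiv.Perm (Fin 3), ψ (x * ((![1, 0, 0] : Vec) ∘ π)) = 0 := by
      intro π
      have hz : ∀ c : ℝ, 0 ≤ c → ψ ![c, 0, 0] = 0 := h.single0
      have key : ∀ (π : Equiv.Perm (Fin 3)) (x : Vec), NN x → ψ (x * ((![1, 0, 0] : Vec) ∘ π)) = 0 := by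
        intro π x hx
        have e1 : x * ((![1, 0, 0] : Vec) ∘ π) = (![x (π⁻¹ 0), 0, 0] : Vec) ∘ π := by
          funext i
          by_cases hi : π i = 0
          · have : i = π⁻¹ 0 := by rw [← hi]; simp
            simp [hi, this]
          · have h2 : ∀ j : Fin 3, j ≠ 0 → (![1, 0, 0] : Vec) j = 0 := by
              intro j hj
              fin_cases j <;> simp at hj ⊢
            have h3 : ∀ (c : ℝ) (j : Fin 3), j ≠ 0 → (![c, 0, 0] : Vec) j = 0 := by
              intro c j hj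
              fin_cases j <;> simp at hj ⊢
            simp [h2 _ hi, h3 _ _ hi]
        rw [e1, h.perm π _ (by
          intro j
          fin_cases j <;> simp [hx _]), h.single0 _ (hx _)]
      exact key π x hx
    simp [this]

/-- The symmetrized test on the other side. -/
def symL (ψ : Vec → ℝ) (y : Vec) : Vec → ℝ := fun x => avg fun π => ψ ((x ∘ π) * y)

theorem symL_eq (ψ : Vec → ℝ) (x y : Vec) : symL ψ y x = symR ψ y x := by
  unfold symL symR
  refine avg_congr fun π => ?_
  rw [mul_comm]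

theorem symL_isTest {ψ : Vec → ℝ} (h : IsTest ψ) {y : Vec} (hy : NN y) : IsTest (symL ψ y) := by
  have : symL ψ y = symR ψ y := by
    funext x
    exact symL_eq ψ x y
  rw [this]
  exact symR_isTest h hy

/-- Uniform bound: a test function is bounded below by the centre value. -/
theorem IsTest.center_le {ψ : Vec → ℝ} (h : IsTest ψ) {x : Vec} (hx : NN x) :
    (Lin x / 3) * ψ ![1, 1, 1] ≤ ψ x := by
  classical
  -- sum over the six permutations
  have hs := h.sum_le (Finset.univ : Finset (Equiv.Perm (Fin 3))) (fun _ => (1 : ℝ)) (fun π => x ∘ π)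
    (fun _ _ => zero_le_one) (fun π _ => hx.comp π)
  have e1 : ∑ π : Equiv.Perm (Fin 3), (1 : ℝ) * ψ (x ∘ π) = 6 * ψ x := by
    simp only [one_mul]
    rw [Finset.sum_congr rfl (fun π _ => h.perm π x hx), Finset.sum_const, card_perm3]
    simp
  have e2 : ∑ π : Equiv.Perm (Fin 3), (1 : ℝ) • (x ∘ π) = (2 * Lin x) • (![1, 1, 1] : Vec) := by
    funext i
    simp only [one_smul, Finset.sum_apply, Function.comp, Pi.smul_apply, smul_eq_mul]
    have : ∀ i : Fin 3, ∑ π : Equiv.Perm (Fin 3), x (π i) = 2 * Lin x := by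
      intro i
      unfold Lin
      revert i
      have hu : (Finset.univ : Finset (Equiv.Perm (Fin 3))) = Finset.univ := rfl
      intro i
      have key : ∀ j : Fin 3, (Finset.univ.filter fun π : Equiv.Perm (Fin 3) => π i = j).card = 2 := by
        revert i
        decide
      have : ∑ π : Equiv.Perm (Fin 3), x (π i)
          = ∑ j : Fin 3, ∑ π ∈ Finset.univ.filter (fun π : Equiv.Perm (Fin 3) => π i = j), x (π i) := by
        rw [Finset.sum_fiberwise]
      rw [this, Fin.sum_univ_three]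
      have e : ∀ j : Fin 3, ∑ π ∈ Finset.univ.filter (fun π : Equiv.Perm (Fin 3) => π i = j), x (π i) = 2 * x j := by
        intro j
        rw [Finset.sum_congr rfl (fun π hπ => by rw [(Finset.mem_filter.1 hπ).2]), Finset.sum_const, key j]
        simp
      rw [e, e, e]
      ring
    rw [this i]
    fin_cases i <;> simp
  rw [e1, e2] at hs
  have n1 : NN ![1, 1, 1] := by intro i; fin_cases i <;> simp
  rw [h.hom _ _ (by have := hx.lin; positivity) n1] at hs
  linarith

/-- Test functions are bounded by the coordinate sum. -/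
theorem IsTest.abs_le {ψ : Vec → ℝ} (h : IsTest ψ) {x : Vec} (hx : NN x) :
    |ψ x| ≤ (|ψ ![1, 1, 1]| / 3) * Lin x := by
  have h1 := h.center_le hx
  have h2 := h.nonpos hx
  rw [abs_of_nonpos h2]
  have h3 := neg_abs_le (ψ ![1, 1, 1])
  have h4 : (Lin x / 3) * (-|ψ ![1, 1, 1]|) ≤ (Lin x / 3) * ψ ![1, 1, 1] :=
    mul_le_mul_of_nonneg_left h3 (by have := hx.lin; positivity)
  nlinarith

end Vale.Agent.Lib.P154B
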